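import Crest.Agent.PVa.R196.Defs
import Crest.Agent.PVa.R177.Defs
import Mathlib

-- ▼ part PVa/R196/Loc
section

/-!
Task R196-B2 (helper1): the local inequality.
-/

set_option autoImplicit false

namespace Crest.Agent.R196

open Finset

theorem cake {X : Type} (s : Finset X) (a f : X → ℕ) (N : ℕ) (hN : ∀ x ∈ s, a x ≤ N) :
    ∑ t ∈ Icc 1 N, ∑ x ∈ s.filter (fun x => t ≤ a x), f x = ∑ x ∈ s, f x * a x := by
  simp only [Finset.sum_filter]
  rw [Finset.sum_comm]
  refine Finset.sum_congr rfl fun x hx => ?_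
  rw [← Finset.sum_filter, Finset.sum_const, smul_eq_mul, mul_comm]
  congr 1
  have : (Icc 1 N).filter (fun t => t ≤ a x) = Icc 1 (a x) := by
    ext t
    simp only [mem_filter, mem_Icc]
    have := hN x hx
    omega
  rw [this, Nat.card_Icc]
  omega

namespace Sys

variable {Hf V P Q Cp D : Type} (Y : Sys Hf V P Q Cp)

open Classical in
theorem layers (T : Finset Cp) (hT : T.card ≤ Y.B) (a : Cp → ℕ)
    (ha : ∀ κ ∈ T, ∀ θ ∈ Y.par κ, θ ∈ T ∧ a κ ≤ a θ) :
    ∃ S₀ : Finset (Cp × ℕ), (∀ s ∈ S₀, s.1 ∈ T ∧ s.2 ∈ Y.own s.1) ∧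
      (∀ s ∈ S₀, ∀ s' ∈ S₀, Y.lab s.1 s.2 = Y.lab s'.1 s'.2 → s = s') ∧
      Y.K₀ * ∑ κ ∈ T, Y.kk κ * a κ + ∑ κ ∈ T, a κ ≤ Y.K₀ * ∑ s ∈ S₀, a s.1 := by
  let S : Finset (Cp × ℕ) := T.biUnion (fun κ => (Y.own κ).image (fun i => (κ, i)))
  have hS : ∀ s, s ∈ S ↔ s.1 ∈ T ∧ s.2 ∈ Y.own s.1 := by
    rintro ⟨κ, i⟩
    simp only [S, mem_biUnion, mem_image, Prod.mk.injEq]
    constructor
    · rintro ⟨κ', h1, i', h2, rfl, rfl⟩
      exact ⟨h1, h2⟩
    · rintro ⟨h1, h2⟩
      exact ⟨κ, h1, i, h2, rfl, rfl⟩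
  have hex : ∀ s : Cp × ℕ, ∃ s' : Cp × ℕ, s ∈ S → s' ∈ S ∧ Y.lab s'.1 s'.2 = Y.lab s.1 s.2 ∧
      ∀ s'' ∈ S, Y.lab s''.1 s''.2 = Y.lab s.1 s.2 → a s''.1 ≤ a s'.1 := by
    intro s
    by_cases hs : s ∈ S
    · obtain ⟨s', h1, h2⟩ := Finset.exists_max_image
        (S.filter (fun s' => Y.lab s'.1 s'.2 = Y.lab s.1 s.2)) (fun s' => a s'.1)
        ⟨s, mem_filter.mpr ⟨hs, rfl⟩⟩
      exact ⟨s', fun _ => ⟨(mem_filter.mp h1).1, (mem_filter.mp h1).2,
        fun s'' h3 h4 => h2 s'' (mem_filter.mpr ⟨h3, h4⟩)⟩⟩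
    · exact ⟨s, fun h => absurd h hs⟩
  have hex2 : ∀ l : Q, ∃ s' : Option (Cp × ℕ), ∀ s ∈ S, Y.lab s.1 s.2 = l →
      ∃ s₁, s' = some s₁ ∧ s₁ ∈ S ∧ Y.lab s₁.1 s₁.2 = l ∧ a s.1 ≤ a s₁.1 := by
    intro l
    by_cases h : ∃ s ∈ S, Y.lab s.1 s.2 = l
    · obtain ⟨s, hs, rfl⟩ := h
      obtain ⟨s', h'⟩ := hex s
      obtain ⟨h1, h2, h3⟩ := h' hs
      exact ⟨some s', fun s'' h4 h5 => ⟨s', rfl, h1, h2, h3 s'' h4 h5⟩⟩
    · exact ⟨none, fun s hs h' => absurd ⟨s, hs, h'⟩ h⟩
  choose top htop using hex2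
  let S₀ := S.filter (fun s => top (Y.lab s.1 s.2) = some s)
  refine ⟨S₀, fun s hs => (hS s).mp (mem_filter.mp hs).1, fun s hs s' hs' h => ?_, ?_⟩
  · have h1 := (mem_filter.mp hs).2
    have h2 := (mem_filter.mp hs').2
    rw [h, h2] at h1
    exact (Option.some.inj h1).symm
  · let N := T.sup a
    have hN : ∀ κ ∈ T, a κ ≤ N := fun κ h => Finset.le_sup h
    have e1 := cake T a Y.kk N hN
    have e2 := cake T a (fun _ => 1) N hN
    have e3 := cake S₀ (fun s => a s.1) (fun _ => 1) N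
      (fun s hs => hN _ ((hS s).mp (mem_filter.mp hs).1).1)
    simp only [one_mul] at e2 e3
    rw [← e1, ← e2, ← e3, Finset.mul_sum, Finset.mul_sum, ← Finset.sum_add_distrib]
    refine Finset.sum_le_sum fun t _ => ?_
    have h1 := Y.nc (T.filter (fun κ => t ≤ a κ)) ((Finset.card_filter_le _ _).trans hT)
      (fun κ hκ θ hθ => by
        have := mem_filter.mp hκ
        have h2 := ha κ this.1 θ hθ
        exact mem_filter.mpr ⟨h2.1, this.2.trans h2.2⟩)
    rw [← Finset.card_eq_sum_ones, ← Finset.card_eq_sum_ones]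
    refine h1.trans (Nat.mul_le_mul_left _ ?_)
    refine le_trans (Finset.card_le_card ?_)
      (Finset.card_image_le (f := fun s : Cp × ℕ => Y.lab s.1 s.2))
    intro l hl
    simp only [mem_biUnion, mem_image, mem_filter] at hl
    obtain ⟨κ, ⟨h2, h3⟩, i, h4, h5⟩ := hl
    obtain ⟨s₁, h6, h7, h8, h9⟩ := htop l (κ, i) ((hS _).mpr ⟨h2, h4⟩) h5
    exact mem_image.mpr ⟨s₁, mem_filter.mpr ⟨mem_filter.mpr ⟨h7, by rw [h8, h6]⟩, h3.trans h9⟩, h8⟩

variable (R : R177.RPS Y.S Y.σ Y.τ D) (U : Finset D)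

open Classical in
/-- The darts of the component `κ`. -/
noncomputable def Uk (κ : Cp) : Finset D := U.filter (fun d => Y.cp (R.ε d) = κ)

open Classical in
/-- The ends of the component `κ`. -/
noncomputable def En (κ : Cp) : Finset D := (Y.Uk R U κ).filter (fun d => R.φ d ∉ U)

open Classical in
/-- The darts starting at `v`. -/
noncomputable def tl (v : V) : Finset D := U.filter (fun d => Y.S.vert (R.ε d) = v)

/-- The level of a component. -/
noncomputable def lv (κ : Cp) : ℕ :=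
  (Y.Uk R U κ).sup (fun d => (Y.tl R U (Y.S.vert (R.ε d))).card) + (Y.En R U κ).card

variable {Y R U}

theorem mem_Uk {κ : Cp} {d : D} : d ∈ Y.Uk R U κ ↔ d ∈ U ∧ Y.cp (R.ε d) = κ := by
  classical
  simp only [Uk, mem_filter]

theorem mem_En {κ : Cp} {d : D} : d ∈ Y.En R U κ ↔ (d ∈ U ∧ Y.cp (R.ε d) = κ) ∧ R.φ d ∉ U := by
  classical
  simp only [En, mem_filter, mem_Uk]

theorem mem_tl {v : V} {d : D} : d ∈ Y.tl R U v ↔ d ∈ U ∧ Y.S.vert (R.ε d) = v := by
  classical
  simp only [tl, mem_filter]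

theorem tl_le (h : Hf) :
    (Y.tl R U (Y.S.vert h)).card + (Y.En R U (Y.cp h)).card ≤ Y.lv R U (Y.cp h) := by
  unfold lv
  refine Nat.add_le_add_right ?_ _
  rcases (Y.tl R U (Y.S.vert h)).eq_empty_or_nonempty with h0 | ⟨d, hd⟩
  · rw [h0]; simp
  · rw [mem_tl] at hd
    rw [← hd.2]
    exact Finset.le_sup (f := fun d => (Y.tl R U (Y.S.vert (R.ε d))).card)
      (mem_Uk.mpr ⟨hd.1, Y.cp_vert _ _ hd.2⟩)

theorem slot_le (hU : U ⊆ R.In) (h : Hf) (s : Finset D)
    (hs : ∀ d ∈ s, d ∈ U ∧ (R.ε d = h ∨ R.ε d = Y.τ h)) : s.card ≤ Y.lv R U (Y.cp h) := by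
  classical
  refine le_trans ?_ (tl_le h)
  have h1 := Finset.card_filter_add_card_filter_not (s := s) (fun d => R.ε d = h ∨ R.φ d ∈ U)
  have h2 : (s.filter (fun d => ¬ (R.ε d = h ∨ R.φ d ∈ U))).card ≤ (Y.En R U (Y.cp h)).card := by
    refine Finset.card_le_card fun d hd => ?_
    obtain ⟨h3, h4⟩ := mem_filter.mp hd
    obtain ⟨h5, h6⟩ := hs d h3
    refine mem_En.mpr ⟨⟨h5, ?_⟩, fun h7 => h4 (Or.inr h7)⟩
    rcases h6 with h6 | h6
    · rw [h6]
    · rw [h6, Y.cp_τ]
  have h3 : (s.filter (fun d => R.ε d = h ∨ R.φ d ∈ U)).card ≤ (Y.tl R U (Y.S.vert h)).card := by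
    have key : ∀ d ∈ s.filter (fun d => R.ε d = h ∨ R.φ d ∈ U), R.ε d ≠ h →
        R.φ d ∈ U ∧ Y.S.vert (R.ε (R.φ d)) = Y.S.vert h ∧ R.ε (R.φ d) ≠ h := by
      intro d hd h4
      obtain ⟨h5, h6⟩ := mem_filter.mp hd
      obtain ⟨h7, h8⟩ := hs d h5
      have h9 := h6.resolve_left h4
      have h10 := h8.resolve_left h4
      have a1 := R.path d (hU h7) (hU h9)
      have a2 := R.nb d (hU h7) (hU h9)
      rw [h10, Y.ττ] at a1 a2
      exact ⟨h9, a1.symm, a2⟩
    refine Finset.card_le_card_of_injOn (fun d => if R.ε d = h then d else R.φ d) ?_ ?_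
    · intro d hd
      rw [Finset.mem_coe] at hd
      rw [Finset.mem_coe, mem_tl]
      by_cases h4 : R.ε d = h
      · simp only [if_pos h4]
        exact ⟨(hs d (mem_filter.mp hd).1).1, by rw [h4]⟩
      · simp only [if_neg h4]
        exact ⟨(key d hd h4).1, (key d hd h4).2.1⟩
    · intro d hd d' hd' e
      rw [Finset.mem_coe] at hd hd'
      by_cases h4 : R.ε d = h <;> by_cases h5 : R.ε d' = h
      · simpa only [if_pos h4, if_pos h5] using e
      · simp only [if_pos h4, if_neg h5] at e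
        exact absurd (e ▸ h4) (key d' hd' h5).2.2
      · simp only [if_neg h4, if_pos h5] at e
        exact absurd (e ▸ h5) (key d hd h4).2.2
      · simp only [if_neg h4, if_neg h5] at e
        exact R.φ.injective e
  omega

theorem star_le (hU : U ⊆ R.In) (h : Hf) (s : Finset D)
    (hs : ∀ d ∈ s, d ∈ U ∧ (Y.S.vert (R.ε d) = Y.S.vert h ∨ Y.S.vert (Y.τ (R.ε d)) = Y.S.vert h)) :
    s.card ≤ 2 * Y.lv R U (Y.cp h) := by
  classical
  have h0 := tl_le (Y := Y) (R := R) (U := U) h
  have h1 : s ⊆ Y.tl R U (Y.S.vert h) ∪ (Y.tl R U (Y.S.vert h)).image R.φ.symm ∪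
      Y.En R U (Y.cp h) := by
    intro d hd
    obtain ⟨h2, h3⟩ := hs d hd
    simp only [mem_union]
    rcases h3 with h3 | h3
    · exact Or.inl (Or.inl (mem_tl.mpr ⟨h2, h3⟩))
    · by_cases h4 : R.φ d ∈ U
      · refine Or.inl (Or.inr (mem_image.mpr ⟨R.φ d, mem_tl.mpr ⟨h4, ?_⟩, by simp⟩))
        rw [← R.path d (hU h2) (hU h4), h3]
      · exact Or.inr (mem_En.mpr ⟨⟨h2, by rw [← Y.cp_τ, Y.cp_vert _ _ h3]⟩, h4⟩)
  have h2 := (Finset.card_le_card h1).trans ((Finset.card_union_le _ _).trans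
    (Nat.add_le_add_right (Finset.card_union_le _ _) _))
  have h3 := Finset.card_image_le (s := Y.tl R U (Y.S.vert h)) (f := R.φ.symm)
  omega

theorem few_le (κ : Cp) : (Y.Uk R U κ).card ≤ 30 * Y.lv R U κ := by
  classical
  have h1 := Y.few κ ((Y.Uk R U κ).image R.ε) (fun h hh => by
    obtain ⟨d, hd, rfl⟩ := mem_image.mp hh
    exact (mem_Uk.mp hd).2)
  refine (Finset.card_le_mul_card_image (f := R.ε) _ (Y.lv R U κ) fun h hh => ?_).trans ?_
  · obtain ⟨d, hd, rfl⟩ := mem_image.mp hh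
    have h2 := tl_le (Y := Y) (R := R) (U := U) (R.ε d)
    rw [(mem_Uk.mp hd).2] at h2
    refine le_trans (Finset.card_le_card fun d' hd' => ?_) (le_trans (Nat.le_add_right _ _) h2)
    obtain ⟨h3, h4⟩ := mem_filter.mp hd'
    exact mem_tl.mpr ⟨(mem_Uk.mp h3).1, by rw [h4]⟩
  · rw [mul_comm]
    exact Nat.mul_le_mul_right _ h1

theorem cp_iter (hU : U ⊆ R.In) {d : D} {j : ℕ} (h : ∀ i ≤ j, R.φ^[i] d ∈ U) :
    Y.cp (R.ε (R.φ^[j] d)) = Y.cp (R.ε d) := by
  induction j with
  | zero => rfl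
  | succ j ih =>
    rw [← ih fun i hi => h i (by omega), Function.iterate_succ_apply']
    have h1 := h j (by omega)
    have h2 := h (j + 1) le_rfl
    rw [Function.iterate_succ_apply'] at h2
    rw [← Y.cp_vert _ _ (R.path _ (hU h1) (hU h2)), Y.cp_τ]

theorem no_ret (hU : U ⊆ R.In) {d : D} {l : ℕ} (hl : 0 < l) (hg : l < Y.g (Y.cp (R.ε d)))
    (h : ∀ i ≤ l, R.φ^[i] d ∈ U) : Y.S.vert (R.ε (R.φ^[l] d)) ≠ Y.S.vert (R.ε d) := by
  have h1 := Y.girth l (fun i => R.ε (R.φ^[i] d)) hl hg (fun i hi => by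
    have h1 := h i (by omega)
    have h2 := h (i + 1) (by omega)
    rw [Function.iterate_succ_apply'] at h2 ⊢
    exact ⟨R.path _ (hU h1) (hU h2), R.nb _ (hU h1) (hU h2)⟩)
  obtain ⟨k, rfl⟩ : ∃ k, l = k + 1 := ⟨l - 1, by omega⟩
  have h2 := h k (by omega)
  have h3 := h (k + 1) le_rfl
  rw [Function.iterate_succ_apply'] at h3 ⊢
  rw [← R.path _ (hU h2) (hU h3)]
  exact h1

theorem iter_inj (hU : U ⊆ R.In) {d d' : D} {i j : ℕ} (hi : i < Y.g (Y.cp (R.ε d)))
    (hj : j < Y.g (Y.cp (R.ε d'))) (h : ∀ k ≤ i, R.φ^[k] d ∈ U) (h' : ∀ k ≤ j, R.φ^[k] d' ∈ U)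
    (hv : Y.S.vert (R.ε d) = Y.S.vert (R.ε d')) (e : R.φ^[i] d = R.φ^[j] d') : d = d' ∧ i = j := by
  have hinj : ∀ k, Function.Injective (R.φ^[k]) := fun k => R.φ.injective.iterate k
  rcases lt_trichotomy i j with hij | hij | hij
  · obtain ⟨l, rfl⟩ : ∃ l, j = i + l := ⟨j - i, by omega⟩
    rw [Function.iterate_add_apply] at e
    have e' := hinj _ e
    exact absurd (by rw [← e', hv]) (no_ret hU (l := l) (by omega) (by omega)
      (fun k hk => h' k (by omega)))
  · subst hij
    exact ⟨hinj _ e, rfl⟩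
  · obtain ⟨l, rfl⟩ : ∃ l, i = j + l := ⟨i - j, by omega⟩
    rw [Function.iterate_add_apply] at e
    have e' := hinj _ e
    exact absurd (by rw [e', hv]) (no_ret hU (l := l) (by omega) (by omega)
      (fun k hk => h k (by omega)))

theorem g_tl (hU : U ⊆ R.In) (h : Hf) : Y.g (Y.cp h) * (Y.tl R U (Y.S.vert h)).card ≤
    (Y.Uk R U (Y.cp h)).card + Y.g (Y.cp h) * (Y.En R U (Y.cp h)).card := by
  classical
  set T := Y.tl R U (Y.S.vert h) with hT
  set g := Y.g (Y.cp h) with hg
  have hc : ∀ d ∈ T, Y.cp (R.ε d) = Y.cp h := fun d hd => Y.cp_vert _ _ (mem_tl.mp hd).2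
  let Qd : D → Prop := fun y => ∀ i < g, R.φ^[i] y ∈ U
  have h1 : (T.filter Qd).card * g ≤ (Y.Uk R U (Y.cp h)).card := by
    have hc' : (T.filter Qd).card * g = (T.filter Qd ×ˢ range g).card := by
      rw [Finset.card_product, Finset.card_range]
    rw [hc']
    refine Finset.card_le_card_of_injOn (fun w => R.φ^[w.2] w.1) ?_ ?_
    · intro w hw
      rw [Finset.mem_coe, mem_product, mem_filter, mem_range] at hw
      rw [Finset.mem_coe, mem_Uk]
      exact ⟨hw.1.2 _ hw.2, by
        rw [cp_iter hU fun i hi => hw.1.2 i (by omega), hc _ hw.1.1]⟩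
    · intro w hw w' hw' e
      rw [Finset.mem_coe, mem_product, mem_filter, mem_range] at hw hw'
      have := iter_inj hU (by rw [hc _ hw.1.1]; exact hw.2) (by rw [hc _ hw'.1.1]; exact hw'.2)
        (fun i hi => hw.1.2 i (by omega)) (fun i hi => hw'.1.2 i (by omega))
        ((mem_tl.mp hw.1.1).2.trans (mem_tl.mp hw'.1.1).2.symm) e
      exact Prod.ext this.1 this.2
  have h2 : (T.filter (fun y => ¬ Qd y)).card ≤ (Y.En R U (Y.cp h)).card := by
    have hex : ∀ y : D, ∃ j : ℕ, y ∈ T.filter (fun y => ¬ Qd y) →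
        j < g ∧ (∀ i ≤ j, R.φ^[i] y ∈ U) ∧ R.φ^[j + 1] y ∉ U := by
      intro y
      by_cases hy : y ∈ T.filter (fun y => ¬ Qd y)
      · rw [mem_filter] at hy
        have hne : ∃ i, R.φ^[i] y ∉ U := by
          by_contra hc
          push Not at hc
          exact hy.2 fun i _ => hc i
        have hs := Nat.find_spec hne
        have hlt : Nat.find hne < g := by
          by_contra hc
          exact hy.2 fun i hi => by
            by_contra hc'
            have := Nat.find_min' hne hc'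
            omega
        have hpos : 0 < Nat.find hne := by
          rcases Nat.eq_zero_or_pos (Nat.find hne) with h | h
          · rw [h] at hs
            exact absurd (mem_tl.mp hy.1).1 hs
          · exact h
        refine ⟨Nat.find hne - 1, fun _ => ⟨by omega, fun i hi => ?_, ?_⟩⟩
        · by_contra hc
          have := Nat.find_min' hne hc
          omega
        · rwa [Nat.sub_add_cancel hpos]
      · exact ⟨0, fun h => absurd h hy⟩
    choose j hj using hex
    refine Finset.card_le_card_of_injOn (fun y => R.φ^[j y] y) ?_ ?_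
    · intro y hy
      have := hj y hy
      rw [Finset.mem_coe, mem_En]
      refine ⟨⟨this.2.1 _ le_rfl, ?_⟩, ?_⟩
      · rw [cp_iter hU this.2.1, hc _ (mem_filter.mp hy).1]
      · rw [← Function.iterate_succ_apply' R.φ]
        exact this.2.2
    · intro y hy y' hy' e
      have a := hj y hy
      have a' := hj y' hy'
      have b := (mem_filter.mp hy).1
      have b' := (mem_filter.mp hy').1
      exact (iter_inj hU (by rw [hc _ b]; exact a.1) (by rw [hc _ b']; exact a'.1) a.2.1 a'.2.1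
        ((mem_tl.mp b).2.trans (mem_tl.mp b').2.symm) e).1
  have h3 := Finset.card_filter_add_card_filter_not (s := T) Qd
  rw [← h3, mul_add, mul_comm g]
  exact Nat.add_le_add h1 (Nat.mul_le_mul_left _ h2)

theorem g_lv (hU : U ⊆ R.In) (κ : Cp) :
    Y.g κ * Y.lv R U κ ≤ (Y.Uk R U κ).card + 12 * (Y.En R U κ).card := by
  have h6 := Nat.mul_le_mul_right (Y.En R U κ).card (Y.g_le κ)
  unfold lv
  rcases (Y.Uk R U κ).eq_empty_or_nonempty with h0 | h0
  · rw [h0, Finset.sup_empty]
    simp only [bot_eq_zero', zero_add]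
    omega
  · obtain ⟨d, hd, e⟩ := Finset.exists_mem_eq_sup _ h0
      (fun d => (Y.tl R U (Y.S.vert (R.ε d))).card)
    have h1 := g_tl hU (R.ε d)
    rw [(mem_Uk.mp hd).2] at h1
    rw [e, mul_add]
    omega

end Sys

open Sys Classical in
theorem Sys.loc {Hf V P Q Cp D : Type} (Y : Sys Hf V P Q Cp) (R : R177.RPS Y.S Y.σ Y.τ D)
    (U : Finset D) (hU : U ⊆ R.In) (hB : 3 * U.card ≤ Y.B) :
    U.card ≤ 15 * Y.K₀ * ((U.filter (fun d => R.α d ∉ U)).card +
      12 * (U.filter (fun d => R.φ d ∉ U)).card) := by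
  let A := Y.lv R U
  let T₀ := U.image (fun d => Y.cp (R.ε d))
  let T := T₀ ∪ T₀.biUnion Y.par
  have hT₀ : T₀.card ≤ U.card := Finset.card_image_le
  have hTc : T.card ≤ Y.B := by
    have h1 : (T₀.biUnion Y.par).card ≤ T₀.card * 2 :=
      Finset.card_biUnion_le_card_mul _ _ _ fun κ _ => Y.par_le κ
    have h2 : T.card ≤ _ := Finset.card_union_le _ _
    omega
  have hcp : ∀ d ∈ U, Y.cp (R.ε d) ∈ T := fun d hd =>
    mem_union_left _ (mem_image_of_mem _ hd)
  have hpar : ∀ κ ∈ T, ∀ θ ∈ Y.par κ, θ ∈ T := by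
    intro κ hκ θ hθ
    rcases mem_union.mp hκ with h | h
    · exact mem_union_right _ (mem_biUnion.mpr ⟨κ, h, hθ⟩)
    · obtain ⟨u, _, hu⟩ := mem_biUnion.mp h
      rw [(Y.th_par κ (Y.par_th u κ hu)).1] at hθ
      simp at hθ
  have how : ∀ d ∈ U, Y.ow (R.ε d) ∈ T := by
    intro d hd
    by_cases h : Y.ow (R.ε d) = Y.cp (R.ε d)
    · rw [h]; exact hcp d hd
    · exact hpar _ (hcp d hd) _ (Y.ow_ne _ h).1
  let W : Cp → Finset Cp := fun κ => insert κ (T.filter (fun u => κ ∈ Y.par u))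
  have hex : ∀ κ, ∃ w ∈ W κ, ∀ u ∈ W κ, A u ≤ A w := fun κ =>
    Finset.exists_max_image (W κ) A ⟨κ, mem_insert_self _ _⟩
  choose w hwW hw using hex
  let a : Cp → ℕ := fun κ => A (w κ)
  have hcW : ∀ d ∈ U, Y.cp (R.ε d) ∈ W (Y.ow (R.ε d)) := by
    intro d hd
    by_cases h : Y.ow (R.ε d) = Y.cp (R.ε d)
    · rw [h]; exact mem_insert_self _ _
    · exact mem_insert_of_mem (mem_filter.mpr ⟨hcp d hd, (Y.ow_ne _ h).1⟩)
  have hnt : ∀ κ, ¬ Y.th κ → w κ = κ := by
    intro κ hκ
    rcases mem_insert.mp (hwW κ) with h | h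
    · exact h
    · exact absurd (Y.par_th _ _ (mem_filter.mp h).2) hκ
  obtain ⟨S₀, hS₀, hinj, hlay⟩ := Y.layers T hTc a (fun κ hκ θ hθ => ⟨hpar κ hκ θ hθ, by
    have h1 : ¬ Y.th κ := fun h => by
      rw [(Y.th_par κ h).1] at hθ
      simp at hθ
    simp only [a, hnt κ h1]
    exact hw θ κ (mem_insert_of_mem (mem_filter.mpr ⟨hκ, hθ⟩))⟩)
  let S : Finset (Cp × ℕ) := T.biUnion (fun κ => (Y.own κ).image (fun i => (κ, i)))
  have hS : ∀ s, s ∈ S ↔ s.1 ∈ T ∧ s.2 ∈ Y.own s.1 := by
    rintro ⟨κ, i⟩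
    simp only [S, mem_biUnion, mem_image, Prod.mk.injEq]
    constructor
    · rintro ⟨κ', h1, i', h2, rfl, rfl⟩
      exact ⟨h1, h2⟩
    · rintro ⟨h1, h2⟩
      exact ⟨κ, h1, i, h2, rfl, rfl⟩
  have hSsum : ∑ s ∈ S, a s.1 = ∑ κ ∈ T, (Y.own κ).card * a κ := by
    rw [Finset.sum_finset_product S T Y.own hS]
    simp
  let sl : D → Cp × ℕ := fun d => (Y.ow (R.ε d), Y.ix (R.ε d))
  let ex : D → Prop := fun d => Y.th (Y.ow (R.ε d)) ∧ Y.ix (R.ε d) < 3 ∧
    Y.cp (R.ε d) ≠ w (Y.ow (R.ε d))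
  -- two main darts on the same slot lie in the same component
  have hmain : ∀ d d', ¬ ex d → ¬ ex d' → sl d = sl d' → Y.cp (R.ε d) = Y.cp (R.ε d') := by
    intro d d' h1 h2 e
    have e1 : Y.ow (R.ε d) = Y.ow (R.ε d') := congrArg Prod.fst e
    have e2 : Y.ix (R.ε d) = Y.ix (R.ε d') := congrArg Prod.snd e
    by_cases h3 : Y.th (Y.ow (R.ε d)) ∧ Y.ix (R.ε d) < 3
    · have h4 : Y.cp (R.ε d) = w (Y.ow (R.ε d)) := by
        by_contra h
        exact h1 ⟨h3.1, h3.2, h⟩
      have h5 : Y.cp (R.ε d') = w (Y.ow (R.ε d')) := by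
        by_contra h
        exact h2 ⟨e1 ▸ h3.1, e2 ▸ h3.2, h⟩
      rw [h4, h5, e1]
    · have h4 : Y.ow (R.ε d) = Y.cp (R.ε d) := by
        by_contra h
        exact h3 ⟨Y.par_th _ _ (Y.ow_ne _ h).1, (Y.ow_ne _ h).2⟩
      have h5 : Y.ow (R.ε d') = Y.cp (R.ε d') := by
        by_contra h
        exact h3 ⟨e1 ▸ Y.par_th _ _ (Y.ow_ne _ h).1, e2 ▸ (Y.ow_ne _ h).2⟩
      rw [← h4, ← h5, e1]
  let E := U.filter ex
  let F := U.filter (fun d => ¬ ex d ∧ sl d ∉ S₀)
  let M := U.filter (fun d => ¬ R.α d ∉ U)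
  have hM : M.card ≤ 2 * (E.card + F.card) := by
    have h1 : M ⊆ (E ∪ F) ∪ (E ∪ F).image R.α := by
      intro d hd
      obtain ⟨h1, h2⟩ := mem_filter.mp hd
      have h2 := not_not.mp h2
      by_contra hc
      simp only [mem_union, not_or, mem_image, not_exists, not_and] at hc
      have h3 := hc.2 (R.α d)
      rw [R.αα] at h3
      have a1 : ¬ ex d := fun h => hc.1.1 (mem_filter.mpr ⟨h1, h⟩)
      have a2 : sl d ∈ S₀ := by
        by_contra h
        exact hc.1.2 (mem_filter.mpr ⟨h1, a1, h⟩)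
      have a3 : ¬ ex (R.α d) := fun h => h3 (Or.inl (mem_filter.mpr ⟨h2, h⟩)) rfl
      have a4 : sl (R.α d) ∈ S₀ := by
        by_contra h
        exact h3 (Or.inr (mem_filter.mpr ⟨h2, a3, h⟩)) rfl
      have a5 := R.lab d (hU h1) (hU h2)
      have a6 : sl d = sl (R.α d) := hinj _ a2 _ a4 (by
        simp only [sl]
        rw [Y.lab_eq, Y.lab_eq, a5, Y.cls_σ])
      rcases Y.slot_inj _ _ (hmain _ _ a1 a3 a6) (congrArg Prod.fst a6) (congrArg Prod.snd a6)
        with h | h
      · rw [h] at a5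
        exact Y.σne _ a5.symm
      · exact R.red d (hU h1) (hU h2) h
    have h2 := (Finset.card_le_card h1).trans (Finset.card_union_le _ _)
    have h3 := Finset.card_image_le (s := E ∪ F) (f := R.α)
    have h4 := Finset.card_union_le E F
    omega
  have hF : F.card + ∑ s ∈ S₀, a s.1 ≤ ∑ s ∈ S, a s.1 := by
    rw [← Finset.sum_sdiff (s₁ := S₀) (s₂ := S) (fun s hs => (hS s).mpr (hS₀ s hs))]
    refine Nat.add_le_add_right ?_ _
    rw [Finset.card_eq_sum_card_fiberwise (f := sl) (t := S \ S₀) (fun d hd => by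
      obtain ⟨h1, h2⟩ := mem_filter.mp hd
      exact mem_sdiff.mpr ⟨(hS _).mpr ⟨how d h1, Y.ix_mem _⟩, h2.2⟩)]
    refine Finset.sum_le_sum fun s _ => ?_
    rcases (F.filter (fun d => sl d = s)).eq_empty_or_nonempty with h0 | ⟨d, hd⟩
    · rw [h0]; simp
    · obtain ⟨h1, h2⟩ := mem_filter.mp hd
      obtain ⟨h3, h4⟩ := mem_filter.mp h1
      refine (slot_le hU (R.ε d) _ fun d' hd' => ?_).trans ?_
      · obtain ⟨b1, b2⟩ := mem_filter.mp hd'
        obtain ⟨b3, b4⟩ := mem_filter.mp b1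
        have e := h2.trans b2.symm
        exact ⟨b3, Y.slot_inj _ _ (hmain _ _ h4.1 b4.1 e) (congrArg Prod.fst e)
          (congrArg Prod.snd e)⟩
      · rw [← h2]
        exact hw _ _ (hcW d h3)
  let Θ := T.filter Y.th
  have hE : E.card + 2 * ∑ θ ∈ Θ, a θ ≤ 2 * ∑ θ ∈ Θ, ∑ u ∈ W θ, A u := by
    rw [Finset.card_eq_sum_card_fiberwise (f := fun d => Y.ow (R.ε d)) (t := Θ) (fun d hd => by
      obtain ⟨h1, h2⟩ := mem_filter.mp hd
      exact mem_filter.mpr ⟨how d h1, h2.1⟩), Finset.mul_sum, Finset.mul_sum,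
      ← Finset.sum_add_distrib]
    refine Finset.sum_le_sum fun θ _ => ?_
    rw [← Finset.sum_erase_add _ _ (hwW θ), mul_add]
    refine Nat.add_le_add_right ?_ _
    rw [Finset.card_eq_sum_card_fiberwise (f := fun d => Y.cp (R.ε d)) (t := (W θ).erase (w θ))
      (fun d hd => by
        obtain ⟨h1, h2⟩ := mem_filter.mp hd
        obtain ⟨h3, h4⟩ := mem_filter.mp h1
        rw [← h2]
        exact mem_erase.mpr ⟨h4.2.2, hcW d h3⟩), Finset.mul_sum]
    refine Finset.sum_le_sum fun u _ => ?_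
    rcases ((E.filter (fun d => Y.ow (R.ε d) = θ)).filter
      (fun d => Y.cp (R.ε d) = u)).eq_empty_or_nonempty with h0 | ⟨d, hd⟩
    · rw [h0]; simp
    · obtain ⟨h1, h2⟩ := mem_filter.mp hd
      obtain ⟨h3, h4⟩ := mem_filter.mp h1
      obtain ⟨h5, h6⟩ := mem_filter.mp h3
      obtain ⟨v, hv⟩ := Y.ctr (R.ε d) h6.1 h6.2.1
      obtain ⟨h, hh1, hh2⟩ : ∃ h, Y.S.vert h = v ∧ Y.cp h = u := by
        rcases hv _ rfl rfl h6.2.1 with h | h
        · exact ⟨_, h, h2⟩
        · exact ⟨_, h, by rw [Y.cp_τ, h2]⟩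
      subst hh1
      rw [← hh2]
      refine star_le hU h _ fun d' hd' => ?_
      obtain ⟨b1, b2⟩ := mem_filter.mp hd'
      obtain ⟨b3, b4⟩ := mem_filter.mp b1
      obtain ⟨b5, b6⟩ := mem_filter.mp b3
      exact ⟨b5, hv _ (by rw [b2, hh2, h2]) (by rw [b4, h4]) b6.2.1⟩
  have hW : ∑ θ ∈ Θ, ∑ u ∈ W θ, A u ≤ ∑ θ ∈ Θ, A θ + ∑ u ∈ T, (Y.par u).card * A u := by
    have h1 : ∀ θ ∈ Θ, ∑ u ∈ W θ, A u ≤ A θ + ∑ u ∈ T, if θ ∈ Y.par u then A u else 0 := by
      intro θ _
      rw [← Finset.sum_filter]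
      by_cases h : θ ∈ T.filter (fun u => θ ∈ Y.par u)
      · simp only [W, insert_eq_of_mem h]
        exact Nat.le_add_left _ _
      · simp only [W, sum_insert h]
        exact le_rfl
    refine (Finset.sum_le_sum h1).trans ?_
    rw [Finset.sum_add_distrib, Finset.sum_comm]
    refine Nat.add_le_add_left (Finset.sum_le_sum fun u _ => ?_) _
    rw [← Finset.sum_filter, Finset.sum_const, smul_eq_mul]
    exact Nat.mul_le_mul_right _ (Finset.card_le_card fun θ hθ => (mem_filter.mp hθ).2)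
  have hacc : 2 * ∑ κ ∈ T, (Y.own κ).card * a κ + 4 * ∑ θ ∈ Θ, A θ +
      4 * ∑ u ∈ T, (Y.par u).card * A u =
      2 * ∑ κ ∈ T, Y.kk κ * a κ + 4 * ∑ θ ∈ Θ, a θ + ∑ κ ∈ T, Y.g κ * A κ := by
    simp only [Θ, Finset.sum_filter, Finset.mul_sum, ← Finset.sum_add_distrib]
    refine Finset.sum_congr rfl fun κ _ => ?_
    have h1 := Y.g_eq κ
    by_cases h : Y.th κ
    · obtain ⟨h2, h3⟩ := Y.th_par κ h
      rw [h2, h3, Finset.card_empty] at h1
      have h4 : Y.g κ = 4 := by omega
      simp only [if_pos h, h2, h3, h4, Finset.card_empty]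
      ring
    · simp only [if_neg h, a, hnt κ h]
      have h2 := congrArg (fun x => x * A κ) h1
      linarith
  have hUsum : U.card = ∑ κ ∈ T, (Y.Uk R U κ).card := by
    rw [Finset.card_eq_sum_card_fiberwise (f := fun d => Y.cp (R.ε d)) (t := T) hcp]
    rfl
  have hb : ∑ κ ∈ T, (Y.En R U κ).card = (U.filter (fun d => R.φ d ∉ U)).card := by
    rw [Finset.card_eq_sum_card_fiberwise (f := fun d => Y.cp (R.ε d)) (t := T)
      (s := U.filter (fun d => R.φ d ∉ U)) (fun d hd => hcp d (mem_filter.mp hd).1)]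
    refine Finset.sum_congr rfl fun κ _ => ?_
    congr 1
    ext d
    simp only [mem_En, mem_filter]
    tauto
  have hg : ∑ κ ∈ T, Y.g κ * A κ ≤ U.card + 12 * (U.filter (fun d => R.φ d ∉ U)).card := by
    rw [← hb, Finset.mul_sum]
    conv_rhs => rw [hUsum]
    rw [← Finset.sum_add_distrib]
    exact Finset.sum_le_sum fun κ _ => g_lv hU κ
  have hfew : U.card ≤ 30 * ∑ κ ∈ T, a κ := by
    rw [hUsum, Finset.mul_sum]
    exact Finset.sum_le_sum fun κ _ => (few_le κ).trans
      (Nat.mul_le_mul_left _ (hw κ κ (mem_insert_self _ _)))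
  have hsplit := Finset.card_filter_add_card_filter_not (s := U) (fun d => R.α d ∉ U)
  have hfin : 2 * ∑ s ∈ S₀, a s.1 ≤ 2 * ∑ κ ∈ T, Y.kk κ * a κ +
      ((U.filter (fun d => R.α d ∉ U)).card + 12 * (U.filter (fun d => R.φ d ∉ U)).card) := by
    have : M.card = (U.filter (fun d => ¬ R.α d ∉ U)).card := rfl
    omega
  have h2 := Nat.mul_le_mul_left Y.K₀ hfin
  nlinarith

end Crest.Agent.R196
end

-- ▼ part PVa/R177/ClusterA
section

/-! Task R177-C, part A: shortest path forests and forest partitions. -/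

set_option autoImplicit false

namespace Crest.Agent.R177.Cl

open Finset

/-- A shortest path forest of a multigraph with allowed edges `al` and costs `c`. -/
structure Forest {N E : Type} (p₀ p₁ : E → N) (al : E → Prop) (c : E → ℕ) where
  ht : N → ℕ
  up : N → N
  root : N → N
  par : N → Option E
  hnone : ∀ v, par v = none → up v = v ∧ root v = v
  hsome : ∀ v e, par v = some e → al e ∧ ((p₀ e = v ∧ p₁ e = up v) ∨ (p₁ e = v ∧ p₀ e = up v)) ∧
    ht v = ht (up v) + c e ∧ root (up v) = root v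
  hal : ∀ e, al e → root (p₀ e) = root (p₁ e) ∧ ht (p₀ e) ≤ ht (p₁ e) + c e ∧
    ht (p₁ e) ≤ ht (p₀ e) + c e
  cpos : ∀ e, 1 ≤ c e

/-- reachability from a root at a given cost -/
inductive Reach {N E : Type} (p₀ p₁ : E → N) (al : E → Prop) (c : E → ℕ) (root : N → N) :
    N → ℕ → Prop
  | base (v : N) : root v = v → Reach p₀ p₁ al c root v 0
  | fwd (e : E) (k : ℕ) : al e → Reach p₀ p₁ al c root (p₀ e) k →
      Reach p₀ p₁ al c root (p₁ e) (k + c e)
  | bwd (e : E) (k : ℕ) : al e → Reach p₀ p₁ al c root (p₁ e) k →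
      Reach p₀ p₁ al c root (p₀ e) (k + c e)

theorem exists_forest {N E : Type} (p₀ p₁ : E → N) (al : E → Prop) (c : E → ℕ)
    (hc : ∀ e, 1 ≤ c e) : Nonempty (Forest p₀ p₁ al c) := by
  classical
  let r : N → N → Prop := fun x y => ∃ e, al e ∧ p₀ e = x ∧ p₁ e = y
  let root : N → N := fun v => (Quot.mk r v).out
  have hrr : ∀ v, root (root v) = root v := fun v => by simp [root]
  have hre : ∀ e, al e → root (p₀ e) = root (p₁ e) := fun e he => by
    simp only [root]
    rw [Quot.sound (show r (p₀ e) (p₁ e) from ⟨e, he, rfl, rfl⟩)]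
  have hreach : ∀ v, ∃ k, Reach p₀ p₁ al c root v k := by
    have key : ∀ x y, Relation.EqvGen r x y →
        ((∃ k, Reach p₀ p₁ al c root x k) ↔ ∃ k, Reach p₀ p₁ al c root y k) := by
      intro x y h
      induction h with
      | rel x y h =>
        obtain ⟨e, he, rfl, rfl⟩ := h
        exact ⟨fun ⟨k, hk⟩ => ⟨_, Reach.fwd e k he hk⟩, fun ⟨k, hk⟩ => ⟨_, Reach.bwd e k he hk⟩⟩
      | refl => rfl
      | symm _ _ _ ih => exact ih.symm
      | trans _ _ _ _ _ ih1 ih2 => exact ih1.trans ih2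
    intro v
    have : Relation.EqvGen r (root v) v := Quot.eqvGen_exact (by simp [root])
    exact (key _ _ this).1 ⟨0, Reach.base _ (hrr v)⟩
  let ht : N → ℕ := fun v => Nat.find (hreach v)
  have hspec : ∀ v, Reach p₀ p₁ al c root v (ht v) := fun v => Nat.find_spec (hreach v)
  have hmin : ∀ v k, Reach p₀ p₁ al c root v k → ht v ≤ k := fun v k h => Nat.find_min' _ h
  have h01 : ∀ e, al e → ht (p₀ e) ≤ ht (p₁ e) + c e := fun e he =>
    hmin _ _ (Reach.bwd e _ he (hspec _))
  have h10 : ∀ e, al e → ht (p₁ e) ≤ ht (p₀ e) + c e := fun e he =>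
    hmin _ _ (Reach.fwd e _ he (hspec _))
  have hex : ∀ v, ∃ (u : N) (o : Option E), (o = none → u = v ∧ root v = v) ∧
      ∀ e, o = some e → al e ∧ ((p₀ e = v ∧ p₁ e = u) ∨ (p₁ e = v ∧ p₀ e = u)) ∧
        ht v = ht u + c e ∧ root u = root v := by
    intro v
    have h := hspec v
    generalize hk : ht v = k at h
    cases h with
    | base _ h => exact ⟨v, none, fun _ => ⟨rfl, h⟩, fun e he => by cases he⟩
    | fwd e k he h =>
      refine ⟨p₀ e, some e, fun h => (by cases h), fun e' he' => ?_⟩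
      cases he'
      have := hmin _ _ h
      have := h10 e he
      exact ⟨he, Or.inr ⟨rfl, rfl⟩, by omega, hre e he⟩
    | bwd e k he h =>
      refine ⟨p₁ e, some e, fun h => (by cases h), fun e' he' => ?_⟩
      cases he'
      have := hmin _ _ h
      have := h01 e he
      exact ⟨he, Or.inl ⟨rfl, rfl⟩, by omega, (hre e he).symm⟩
  choose up par h1 h2 using hex
  exact ⟨⟨ht, up, root, par, h1, h2, fun e he => ⟨hre e he, h01 e he, h10 e he⟩, hc⟩⟩

namespace Forest

variable {N E : Type} {p₀ p₁ : E → N} {al : E → Prop} {c : E → ℕ} (F : Forest p₀ p₁ al c)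

theorem ind {P : N → Prop} (h0 : ∀ v, F.par v = none → P v)
    (h1 : ∀ v e, F.par v = some e → P (F.up v) → P v) : ∀ v, P v := by
  have : ∀ k v, F.ht v < k → P v := by
    intro k
    induction k with
    | zero => intro v h; omega
    | succ k ih =>
      intro v hv
      cases h : F.par v with
      | none => exact h0 v h
      | some e =>
        have := (F.hsome v e h).2.2.1
        have := F.cpos e
        exact h1 v e h (ih _ (by omega))
  exact fun v => this _ v (Nat.lt_succ_self _)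

theorem ht_up_le (v : N) : F.ht (F.up v) ≤ F.ht v := by
  cases h : F.par v with
  | none => rw [(F.hnone v h).1]
  | some e => have := (F.hsome v e h).2.2.1; omega

/-- `y` is an ancestor of `x` -/
def Anc (x y : N) : Prop := ∃ n, F.up^[n] x = y

theorem anc_refl (x : N) : F.Anc x x := ⟨0, rfl⟩

theorem anc_of_up {x y : N} (h : F.Anc (F.up x) y) : F.Anc x y := by
  obtain ⟨n, hn⟩ := h
  exact ⟨n + 1, hn⟩

theorem anc_cases {x y : N} (h : F.Anc x y) : x = y ∨ F.Anc (F.up x) y := by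
  obtain ⟨n, hn⟩ := h
  cases n with
  | zero => exact Or.inl hn
  | succ n => exact Or.inr ⟨n, hn⟩

theorem anc_ht {x y : N} (h : F.Anc x y) : F.ht y ≤ F.ht x := by
  obtain ⟨n, hn⟩ := h
  induction n generalizing x with
  | zero => rw [← hn]; rfl
  | succ n ih => exact (ih hn).trans (F.ht_up_le x)

theorem anc_root (x : N) : F.Anc x (F.root x) := by
  refine F.ind (P := fun x => F.Anc x (F.root x)) ?_ ?_ x
  · intro v h
    rw [(F.hnone v h).2]; exact F.anc_refl v
  · intro v e h ih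
    rw [(F.hsome v e h).2.2.2] at ih
    exact F.anc_of_up ih

theorem root_up (x : N) : F.root (F.up x) = F.root x := by
  cases h : F.par x with
  | none => rw [(F.hnone x h).1]
  | some e => exact (F.hsome x e h).2.2.2

theorem anc_child {x y : N} (h : F.Anc x y) (hne : x ≠ y) :
    ∃ z e, F.par z = some e ∧ F.up z = y ∧ F.Anc x z := by
  obtain ⟨n, hn⟩ := h
  induction n generalizing x with
  | zero => exact absurd hn hne
  | succ n ih =>
    by_cases h1 : F.up x = y
    · cases h : F.par x with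
      | none => rw [(F.hnone x h).1] at h1; exact absurd h1 hne
      | some e => exact ⟨x, e, h, h1, F.anc_refl x⟩
    · obtain ⟨z, e, h2, h3, h4⟩ := ih h1 hn
      exact ⟨z, e, h2, h3, F.anc_of_up h4⟩

theorem const_of_up {M : Type} (g : N → M) (hg : ∀ v e, F.par v = some e → g (F.up v) = g v)
    (v : N) : g (F.root v) = g v := by
  refine F.ind (P := fun v => g (F.root v) = g v) ?_ ?_ v
  · intro v h; rw [(F.hnone v h).2]
  · intro v e h ih
    rw [F.root_up] at ih
    rw [ih, hg v e h]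

open Classical in
theorem window [Fintype N] (lam lo hi : ℕ) (hc : ∀ e, c e ≤ lam) (x : N) :
    ∑ v ∈ univ.filter (fun v => F.Anc x v ∧ lo ≤ F.ht v ∧ F.ht v ≤ hi),
      (F.ht v - F.ht (F.up v)) ≤ hi + lam - lo := by
  have key : ∀ x, ∑ v ∈ univ.filter (fun v => F.Anc x v ∧ lo ≤ F.ht v ∧ F.ht v ≤ hi),
      (F.ht v - F.ht (F.up v)) ≤ min (F.ht x) hi + lam - lo := by
    refine F.ind ?_ ?_
    · intro v h
      rw [sum_eq_zero]
      · exact Nat.zero_le _
      · intro w hw
        obtain ⟨n, hn⟩ := (mem_filter.1 hw).2.1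
        rw [Function.iterate_fixed (F.hnone v h).1] at hn
        rw [← hn, (F.hnone v h).1, Nat.sub_self]
    · intro v e h ih
      have h1 := (F.hsome v e h).2.2.1
      have h2 := hc e
      by_cases hw : lo ≤ F.ht v ∧ F.ht v ≤ hi
      · have hsub : univ.filter (fun w => F.Anc v w ∧ lo ≤ F.ht w ∧ F.ht w ≤ hi) ⊆
            insert v (univ.filter (fun w => F.Anc (F.up v) w ∧ lo ≤ F.ht w ∧ F.ht w ≤ hi)) := by
          intro w hw
          simp only [mem_filter, mem_univ, true_and, mem_insert] at hw ⊢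
          rcases F.anc_cases hw.1 with h | h
          · exact Or.inl h.symm
          · exact Or.inr ⟨h, hw.2⟩
        refine (sum_le_sum_of_subset hsub).trans ?_
        rw [sum_insert]
        · omega
        · intro hv
          have := F.anc_ht (mem_filter.1 hv).2.1
          have := F.cpos e
          omega
      · have hsub : univ.filter (fun w => F.Anc v w ∧ lo ≤ F.ht w ∧ F.ht w ≤ hi) ⊆
            univ.filter (fun w => F.Anc (F.up v) w ∧ lo ≤ F.ht w ∧ F.ht w ≤ hi) := by
          intro w hw'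
          simp only [mem_filter, mem_univ, true_and] at hw' ⊢
          rcases F.anc_cases hw'.1 with h | h
          · subst h; exact absurd hw'.2 hw
          · exact ⟨h, hw'.2⟩
        refine (sum_le_sum_of_subset hsub).trans (ih.trans ?_)
        omega
  exact (key x).trans (by omega)

open Classical in
theorem children_le [Fintype N] [Fintype E]
    (hD : ∀ t, (univ.filter (fun e => p₀ e = t ∨ p₁ e = t)).card ≤ 3) (y : N) :
    (univ.filter (fun z => (∃ e, F.par z = some e) ∧ F.up z = y)).card ≤ 3 := by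
  refine le_trans ?_ (hD y)
  rw [← card_image_of_injective (univ.filter (fun e => p₀ e = y ∨ p₁ e = y))
    (Option.some_injective E)]
  refine card_le_card_of_injOn F.par ?_ ?_
  · intro z hz
    simp only [coe_filter, mem_univ, true_and, Set.mem_setOf_eq] at hz
    obtain ⟨⟨e, he⟩, hy⟩ := hz
    simp only [coe_image, coe_filter, mem_univ, true_and, Set.mem_image, Set.mem_setOf_eq]
    refine ⟨e, ?_, he.symm⟩
    rcases (F.hsome z e he).2.1 with h | h
    · exact Or.inr (h.2.trans hy)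
    · exact Or.inl (h.2.trans hy)
  · intro z hz z' hz' hzz
    simp only [coe_filter, mem_univ, true_and, Set.mem_setOf_eq] at hz hz'
    obtain ⟨⟨e, he⟩, hy⟩ := hz
    obtain ⟨-, hy'⟩ := hz'
    have he' : F.par z' = some e := by rw [← hzz, he]
    have a1 := F.hsome z e he
    have a2 := F.hsome z' e he'
    have := F.cpos e
    rcases a1.2.1 with h | h <;> rcases a2.2.1 with h' | h'
    · exact h.1.symm.trans h'.1
    · have e1 : z = F.up z' := h.1.symm.trans h'.2
      have e2 := a1.2.2.1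
      rw [hy, ← hy', ← e1] at e2
      omega
    · have e1 : z = F.up z' := h.1.symm.trans h'.2
      have e2 := a1.2.2.1
      rw [hy, ← hy', ← e1] at e2
      omega
    · exact h.1.symm.trans h'.1

open Classical in
theorem partition [Fintype N] [Fintype E]
    (hD : ∀ t, (univ.filter (fun e => p₀ e = t ∨ p₁ e = t)).card ≤ 3) (b₀ : ℕ) (hb : 0 < b₀)
    (w : N → Prop) : ∃ (Cut : Finset N) (top : N → N), (∀ t, t ∉ Cut → top (F.up t) = top t) ∧
      b₀ * Cut.card ≤ (univ.filter w).card ∧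
      ∀ y, (univ.filter (fun t => w t ∧ top t = y)).card ≤ 4 * b₀ := by
  have key : ∀ U : Finset N, (∀ t ∈ U, F.up t ∈ U) → ∃ (Cut : Finset N) (top : N → N),
      (∀ t ∈ U, t ∉ Cut → top (F.up t) = top t) ∧ (∀ t ∈ U, top t ∈ U) ∧
      b₀ * Cut.card ≤ (U.filter w).card ∧
      ∀ y, (U.filter (fun t => w t ∧ top t = y)).card ≤ 4 * b₀ := by
    intro U
    induction U using Finset.strongInduction with
    | H U ih =>
    intro hU
    have hUa : ∀ t ∈ U, ∀ y, F.Anc t y → y ∈ U := by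
      rintro t ht y ⟨n, rfl⟩
      induction n with
      | zero => exact ht
      | succ n ih => rw [Function.iterate_succ_apply']; exact hU _ ih
    let W : N → ℕ := fun y => (U.filter (fun t => w t ∧ F.Anc t y)).card
    by_cases hex : (univ.filter (fun y => b₀ ≤ W y)).Nonempty
    · obtain ⟨y, hy, hmax⟩ := exists_max_image _ F.ht hex
      have hy1 : b₀ ≤ W y := (mem_filter.1 hy).2
      have hyU : y ∈ U := by
        obtain ⟨t, ht⟩ := card_pos.1 (lt_of_lt_of_le hb hy1)
        rw [mem_filter] at ht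
        exact hUa t ht.1 y ht.2.2
      have hW : W y ≤ 4 * b₀ := by
        have hsub : U.filter (fun t => w t ∧ F.Anc t y) ⊆ insert y
            ((univ.filter (fun z => (∃ e, F.par z = some e) ∧ F.up z = y)).biUnion
              (fun z => U.filter (fun t => w t ∧ F.Anc t z))) := by
          intro t ht
          rw [mem_filter] at ht
          by_cases hty : t = y
          · simp [hty]
          · obtain ⟨z, e, h1, h2, h3⟩ := F.anc_child ht.2.2 hty
            simp only [mem_insert, mem_biUnion, mem_filter, mem_univ, true_and]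
            exact Or.inr ⟨z, ⟨⟨e, h1⟩, h2⟩, ht.1, ht.2.1, h3⟩
        refine (card_le_card hsub).trans ((card_insert_le _ _).trans ?_)
        have h1 := card_biUnion_le_card_mul (univ.filter
          (fun z => (∃ e, F.par z = some e) ∧ F.up z = y))
          (fun z => U.filter (fun t => w t ∧ F.Anc t z)) b₀ (by
            intro z hz
            obtain ⟨⟨e, he⟩, hz⟩ := (mem_filter.1 hz).2
            by_contra hcon
            have h2 := hmax z (mem_filter.2 ⟨mem_univ _, le_of_lt (not_le.1 hcon)⟩)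
            have h3 := (F.hsome z e he).2.2.1
            have := F.cpos e
            rw [hz] at h3
            omega)
        have h2 := Nat.mul_le_mul_right b₀ (F.children_le hD y)
        omega
      let U' := U.filter (fun t => ¬ F.Anc t y)
      have hss : U' ⊂ U := filter_ssubset.2 ⟨y, hyU, not_not.2 (F.anc_refl y)⟩
      have hU' : ∀ t ∈ U', F.up t ∈ U' := by
        intro t ht
        rw [mem_filter] at ht ⊢
        exact ⟨hU t ht.1, fun h => ht.2 (F.anc_of_up h)⟩
      obtain ⟨Cut, top, h1, h2, h3, h4⟩ := ih U' hss hU'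
      refine ⟨insert y Cut, fun t => if F.Anc t y then y else top t, ?_, ?_, ?_, ?_⟩
      · intro t ht hc
        rw [mem_insert, not_or] at hc
        by_cases ha : F.Anc t y
        · rcases F.anc_cases ha with h | h
          · exact absurd h hc.1
          · simp [ha, h]
        · have ha' : ¬ F.Anc (F.up t) y := fun h => ha (F.anc_of_up h)
          simp only [if_neg ha, if_neg ha']
          exact h1 t (mem_filter.2 ⟨ht, ha⟩) hc.2
      · intro t ht
        by_cases ha : F.Anc t y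
        · simpa [ha] using hyU
        · simp only [if_neg ha]
          exact (mem_filter.1 (h2 t (mem_filter.2 ⟨ht, ha⟩))).1
      · have e1 := card_filter_add_card_filter_not (s := U.filter w) (fun t => F.Anc t y)
        rw [filter_filter, filter_filter] at e1
        have e2 : U'.filter w = U.filter (fun t => w t ∧ ¬ F.Anc t y) := by
          simp only [U', filter_filter, and_comm]
        rw [e2] at h3
        have e3 := Nat.mul_le_mul_left b₀ (card_insert_le y Cut)
        simp only [W] at hy1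
        rw [mul_add] at e3
        omega
      · intro y'
        by_cases hyy : y' = y
        · subst hyy
          refine le_trans (card_le_card ?_) hW
          intro t ht
          rw [mem_filter] at ht ⊢
          refine ⟨ht.1, ht.2.1, ?_⟩
          by_contra ha
          have h5 := ht.2.2
          simp only [if_neg ha] at h5
          have h6 := h2 t (mem_filter.2 ⟨ht.1, ha⟩)
          rw [h5] at h6
          exact (mem_filter.1 h6).2 (F.anc_refl _)
        · refine le_trans (card_le_card ?_) (h4 y')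
          intro t ht
          rw [mem_filter] at ht ⊢
          by_cases ha : F.Anc t y
          · have h5 := ht.2.2
            simp only [if_pos ha] at h5
            exact absurd h5.symm hyy
          · have h5 := ht.2.2
            simp only [if_neg ha] at h5
            exact ⟨mem_filter.2 ⟨ht.1, ha⟩, ht.2.1, h5⟩
    · refine ⟨∅, F.root, fun t _ _ => F.root_up t, fun t ht => hUa t ht _ (F.anc_root t),
        by simp, fun y => ?_⟩
      have h1 : W y < b₀ := by
        by_contra h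
        exact hex ⟨y, mem_filter.2 ⟨mem_univ _, not_lt.1 h⟩⟩
      have h2 : (U.filter (fun t => w t ∧ F.root t = y)).card ≤ W y := by
        refine card_le_card fun t ht => ?_
        rw [mem_filter] at ht ⊢
        exact ⟨ht.1, ht.2.1, ht.2.2 ▸ F.anc_root t⟩
      omega
  obtain ⟨Cut, top, h1, -, h3, h4⟩ := key univ (fun _ _ => mem_univ _)
  exact ⟨Cut, top, fun t => h1 t (mem_univ _), h3, h4⟩

end Forest

theorem sum_le_cover {E I : Type} [DecidableEq E] (c : E → ℕ) (s : Finset I) (Y : I → Finset E)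
    (X : Finset E) (h : ∀ e ∈ X, ∃ i ∈ s, e ∈ Y i) : ∑ e ∈ X, c e ≤ ∑ i ∈ s, ∑ e ∈ Y i, c e := by
  have h1 : ∀ i ∈ s, ∑ e ∈ X, (if e ∈ Y i then c e else 0) ≤ ∑ e ∈ Y i, c e := by
    intro i _
    rw [← sum_filter]
    exact sum_le_sum_of_subset fun e he => (mem_filter.1 he).2
  refine le_trans ?_ (sum_le_sum h1)
  rw [sum_comm]
  refine sum_le_sum fun e he => ?_
  obtain ⟨i, hi, hei⟩ := h e he
  refine le_trans ?_ (single_le_sum (f := fun i => if e ∈ Y i then c e else 0)
    (fun _ _ => Nat.zero_le _) hi)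
  simp [hei]

end Crest.Agent.R177.Cl
end

-- ▼ part PVa/R177/ClusterB
section

/-! Task R177-C, part B: the abstract cluster lemma. -/

set_option autoImplicit false

namespace Crest.Agent.R177.Cl

open Finset

theorem dual_parent {N E T : Type} [Fintype E] {p₀ p₁ : E → N} {s₀ s₁ : E → T} {c : E → ℕ}
    (F : Forest p₀ p₁ (fun _ => True) c)
    (G : Forest s₀ s₁ (fun e => ∀ v, F.par v ≠ some e) (fun _ => 1))
    (hH : ∀ ω : E → ZMod 2, (∀ f : T → ZMod 2, ∑ e, ω e * (f (s₀ e) + f (s₁ e)) = 0) →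
      ∃ g : N → ZMod 2, ∀ e, ω e = g (p₀ e) + g (p₁ e))
    (e : E) (he : ∀ v, F.par v ≠ some e) : ∃ t, G.par t = some e := by
  classical
  have two : ∀ x : ZMod 2, x + x = 0 := by decide
  have hπ : ∀ t, ∃ π : E → ZMod 2, (∀ e, π e ≠ 0 → ∃ t', G.par t' = some e) ∧
      ∀ f : T → ZMod 2, ∑ e, π e * (f (s₀ e) + f (s₁ e)) = f t + f (G.root t) := by
    refine G.ind ?_ ?_
    · intro t h
      refine ⟨0, fun e h => absurd rfl h, fun f => ?_⟩
      rw [(G.hnone t h).2, two]; simp
    · rintro t e h ⟨π, h1, h2⟩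
      refine ⟨π + Pi.single e 1, fun e' h' => ?_, fun f => ?_⟩
      · by_cases hee : e' = e
        · exact ⟨t, hee ▸ h⟩
        · apply h1
          simpa [Pi.single_eq_of_ne hee] using h'
      · simp only [Pi.add_apply, add_mul, sum_add_distrib, h2]
        rw [sum_eq_single e (fun b _ hb => by simp [Pi.single_eq_of_ne hb]) (by simp), G.root_up]
        simp only [Pi.single_eq_same, one_mul]
        rcases (G.hsome t e h).2.1 with h3 | h3
        · rw [h3.1, h3.2]
          linear_combination two (f (G.up t))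
        · rw [h3.1, h3.2]
          linear_combination two (f (G.up t))
  choose π hπ1 hπ2 using hπ
  by_contra hcon
  push Not at hcon
  obtain ⟨g, hg⟩ := hH (Pi.single e 1 + π (s₀ e) + π (s₁ e)) (by
    intro f
    simp only [Pi.add_apply, add_mul, sum_add_distrib, hπ2]
    rw [sum_eq_single e (fun b _ hb => by simp [Pi.single_eq_of_ne hb]) (by simp),
      (G.hal e he).1]
    simp only [Pi.single_eq_same, one_mul]
    linear_combination two (f (s₀ e)) + two (f (s₁ e)) + two (f (G.root (s₁ e))))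
  have hup : ∀ v e', F.par v = some e' → g (F.up v) = g v := by
    intro v e' h
    have h0 : ∀ t, π t e' = 0 := by
      intro t
      by_contra h1
      obtain ⟨t', ht'⟩ := hπ1 t e' h1
      exact (G.hsome t' e' ht').1 v h
    have hne : e' ≠ e := fun h1 => he v (h1 ▸ h)
    have := hg e'
    simp only [Pi.add_apply, h0, Pi.single_eq_of_ne hne, add_zero] at this
    rcases (F.hsome v e' h).2.1 with h3 | h3
    · rw [h3.1, h3.2] at this
      linear_combination - this - two (g v)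
    · rw [h3.1, h3.2] at this
      linear_combination - this - two (g v)
  have h0 : ∀ t, π t e = 0 := by
    intro t
    by_contra h1
    obtain ⟨t', ht'⟩ := hπ1 t e h1
    exact hcon t' ht'
  have h1 := hg e
  simp only [Pi.add_apply, h0, Pi.single_eq_same, add_zero] at h1
  rw [← F.const_of_up g hup (p₀ e), ← F.const_of_up g hup (p₁ e), (F.hal e trivial).1, two] at h1
  exact absurd h1 (by decide)

theorem cut_edge {N E T : Type} [Fintype E] {p₀ p₁ : E → N} {s₀ s₁ : E → T} {c : E → ℕ}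
    (F : Forest p₀ p₁ (fun _ => True) c)
    (G : Forest s₀ s₁ (fun e => ∀ v, F.par v ≠ some e) (fun _ => 1))
    (hO : ∀ (f : T → ZMod 2) (g : N → ZMod 2),
      ∑ e, (f (s₀ e) + f (s₁ e)) * (g (p₀ e) + g (p₁ e)) = 0)
    (hH : ∀ ω : E → ZMod 2, (∀ f : T → ZMod 2, ∑ e, ω e * (f (s₀ e) + f (s₁ e)) = 0) →
      ∃ g : N → ZMod 2, ∀ e, ω e = g (p₀ e) + g (p₁ e))
    (Cut : Finset T) (top : T → T) (htop : ∀ t, t ∉ Cut → top (G.up t) = top t)
    (e : E) (he : top (s₀ e) ≠ top (s₁ e)) :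
    ∃ t ∈ Cut, G.par t = some e ∨ ∃ v e', F.par v = some e ∧ G.par t = some e' ∧
      (F.Anc (p₀ e') v ∨ F.Anc (p₁ e') v) := by
  classical
  have two : ∀ x : ZMod 2, x + x = 0 := by decide
  have nonT : ∀ e, (∀ v, F.par v ≠ some e) → top (s₀ e) ≠ top (s₁ e) →
      ∃ t ∈ Cut, G.par t = some e := by
    intro e h1 h2
    obtain ⟨t, ht⟩ := dual_parent F G hH e h1
    refine ⟨t, ?_, ht⟩
    by_contra hc
    have := htop t hc
    rcases (G.hsome t e ht).2.1 with h3 | h3
    · rw [h3.1, h3.2] at h2; exact h2 this.symm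
    · rw [h3.1, h3.2] at h2; exact h2 this
  by_cases hT : ∀ v, F.par v ≠ some e
  · obtain ⟨t, h1, h2⟩ := nonT e hT he
    exact ⟨t, h1, Or.inl h2⟩
  push Not at hT
  obtain ⟨v, hv⟩ := hT
  let f : T → ZMod 2 := fun t => if top t = top (s₀ e) then 1 else 0
  let g : N → ZMod 2 := fun x => if F.Anc x v then 1 else 0
  have hsum := hO f g
  have hv1 : ¬ F.Anc (F.up v) v := by
    intro h
    have := F.anc_ht h
    have := (F.hsome v e hv).2.2.1
    have := F.cpos e
    omega
  have hterm : (f (s₀ e) + f (s₁ e)) * (g (p₀ e) + g (p₁ e)) = 1 := by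
    have h1 : f (s₀ e) + f (s₁ e) = 1 := by simp [f, he.symm]
    have h2 : g (p₀ e) + g (p₁ e) = 1 := by
      rcases (F.hsome v e hv).2.1 with h3 | h3
      · rw [h3.1, h3.2]; simp [g, hv1, F.anc_refl]
      · rw [h3.1, h3.2]; simp [g, hv1, F.anc_refl]
    rw [h1, h2, one_mul]
  have hex : ∃ e', e' ≠ e ∧ (f (s₀ e') + f (s₁ e')) * (g (p₀ e') + g (p₁ e')) ≠ 0 := by
    by_contra hcon
    push Not at hcon
    rw [sum_eq_single e (fun b _ hb => hcon b hb) (by simp), hterm] at hsum
    exact absurd hsum (by decide)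
  obtain ⟨e', hne, h'⟩ := hex
  have hf : f (s₀ e') + f (s₁ e') ≠ 0 := left_ne_zero_of_mul h'
  have hg : g (p₀ e') + g (p₁ e') ≠ 0 := right_ne_zero_of_mul h'
  have h1 : ∀ v', F.par v' ≠ some e' := by
    intro v' hv'
    have hvv : v' ≠ v := by
      rintro rfl
      rw [hv] at hv'
      exact hne (Option.some_injective _ hv').symm
    have : g (F.up v') = g v' := by
      have : F.Anc (F.up v') v ↔ F.Anc v' v :=
        ⟨F.anc_of_up, fun h => (F.anc_cases h).resolve_left hvv⟩
      simp only [g, this]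
    apply hg
    rcases (F.hsome v' e' hv').2.1 with h3 | h3
    · rw [h3.1, h3.2, this, two]
    · rw [h3.1, h3.2, this, two]
  have h2 : top (s₀ e') ≠ top (s₁ e') := by
    intro h
    apply hf
    simp only [f, h, two]
  obtain ⟨t, ht1, ht2⟩ := nonT e' h1 h2
  refine ⟨t, ht1, Or.inr ⟨v, e', hv, ht2, ?_⟩⟩
  by_contra hcon
  rw [not_or] at hcon
  apply hg
  simp [g, hcon.1, hcon.2]

theorem one_offset (M a b : ℕ) (h1 : a ≤ b + 1) (h2 : b ≤ a + 1) :
    ((range M).filter (fun o => (a + o) / M ≠ (b + o) / M)).card ≤ 1 := by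
  have key : ∀ a : ℕ, ((range M).filter (fun o => (a + o) / M ≠ (a + 1 + o) / M)).card ≤ 1 := by
    intro a
    rw [card_le_one]
    intro o ho o' ho'
    rw [mem_filter, mem_range] at ho ho'
    have k : ∀ o, (a + o) / M ≠ (a + 1 + o) / M → M ∣ a + o + 1 := by
      intro o h
      by_contra hc
      rw [show a + 1 + o = a + o + 1 by ring, Nat.succ_div_of_not_dvd hc] at h
      exact h rfl
    have d1 := k o ho.2
    have d2 := k o' ho'.2
    have e1 : a + o + 1 ≡ a + o' + 1 [MOD M] :=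
      ((Nat.modEq_zero_iff_dvd.2 d1).trans (Nat.modEq_zero_iff_dvd.2 d2).symm)
    have e2 : o ≡ o' [MOD M] := Nat.ModEq.add_left_cancel' a (Nat.ModEq.add_right_cancel' 1 e1)
    exact Nat.ModEq.eq_of_lt_of_lt e2 ho.1 ho'.1
  rcases (by omega : a = b ∨ b = a + 1 ∨ a = b + 1) with h | h | h
  · subst h; simp
  · subst h; exact key a
  · subst h
    simpa only [ne_comm] using key b

open Classical in
theorem abstract_cluster {N E T : Type} [Fintype N] [Fintype E] [Fintype T] (p₀ p₁ : E → N)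
    (s₀ s₁ : E → T) (c : E → ℕ) (an : T → N) (lam r b₀ : ℕ) (hlam : 0 < lam) (hr : 0 < r)
    (hb : 0 < b₀) (hc1 : ∀ e, 1 ≤ c e) (hc2 : ∀ e, c e ≤ lam)
    (hO : ∀ (f : T → ZMod 2) (g : N → ZMod 2),
      ∑ e, (f (s₀ e) + f (s₁ e)) * (g (p₀ e) + g (p₁ e)) = 0)
    (hH : ∀ ω : E → ZMod 2, (∀ f : T → ZMod 2, ∑ e, ω e * (f (s₀ e) + f (s₁ e)) = 0) →
      ∃ g : N → ZMod 2, ∀ e, ω e = g (p₀ e) + g (p₁ e))
    (hD : ∀ t, (univ.filter (fun e => s₀ e = t ∨ s₁ e = t)).card ≤ 3)
    (hA : ∀ ht : N → ℕ, (∀ e, ht (p₀ e) ≤ ht (p₁ e) + c e ∧ ht (p₁ e) ≤ ht (p₀ e) + c e) →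
      ∀ e, ht (an (s₀ e)) ≤ ht (an (s₁ e)) + 1 ∧ ht (an (s₁ e)) ≤ ht (an (s₀ e)) + 1 ∧
        ht (p₀ e) ≤ ht (an (s₀ e)) + (lam + 1) ∧ ht (an (s₀ e)) ≤ ht (p₀ e) + (lam + 1) ∧
        ht (p₁ e) ≤ ht (an (s₀ e)) + (lam + 1) ∧ ht (an (s₀ e)) ≤ ht (p₁ e) + (lam + 1)) :
    ∃ cl : T → ℕ × T, (∀ y, (univ.filter (fun t => cl t = y)).card ≤ 4 * b₀) ∧
      ((∑ e ∈ univ.filter (fun e => cl (s₀ e) ≠ cl (s₁ e)), c e : ℕ) : ℝ) ≤
        Fintype.card E / (r : ℝ) + (2 * r + 11) * lam / (b₀ : ℝ) * Fintype.card T := by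
  obtain ⟨F⟩ := exists_forest p₀ p₁ (fun _ => True) c hc1
  obtain ⟨G⟩ := exists_forest s₀ s₁ (fun e => ∀ v, F.par v ≠ some e) (fun _ => 1)
    (fun _ => le_rfl)
  have hA' := hA F.ht (fun e => (F.hal e trivial).2)
  set M := r * lam with hM
  have hM0 : 0 < M := Nat.mul_pos hr hlam
  -- choice of the offset
  obtain ⟨o, ho, hoc⟩ : ∃ o ∈ range M, r * ∑ e ∈ univ.filter (fun e =>
      (F.ht (an (s₀ e)) + o) / M ≠ (F.ht (an (s₁ e)) + o) / M), c e ≤ Fintype.card E := by
    by_contra hcon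
    push Not at hcon
    have h1 : ∑ o ∈ range M, Fintype.card E < ∑ o ∈ range M, r * ∑ e ∈ univ.filter (fun e =>
        (F.ht (an (s₀ e)) + o) / M ≠ (F.ht (an (s₁ e)) + o) / M), c e :=
      sum_lt_sum_of_nonempty (nonempty_range_iff.2 hM0.ne') hcon
    rw [← mul_sum] at h1
    simp only [sum_filter] at h1
    rw [sum_comm] at h1
    have h2 : ∑ e : E, ∑ o ∈ range M, (if (F.ht (an (s₀ e)) + o) / M ≠
        (F.ht (an (s₁ e)) + o) / M then c e else 0) ≤ ∑ e : E, lam := by
      refine sum_le_sum fun e _ => ?_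
      rw [← sum_filter, sum_const, smul_eq_mul]
      have := one_offset M _ _ (hA' e).1 (hA' e).2.1
      calc _ ≤ 1 * lam := Nat.mul_le_mul this (hc2 e)
        _ = lam := one_mul _
    have h3 := Nat.mul_le_mul_left r h2
    simp only [sum_const, card_range, smul_eq_mul, card_univ] at h1 h3
    have : r * (Fintype.card E * lam) = M * Fintype.card E := by rw [hM]; ring
    omega
  let lay : T → ℕ := fun t => (F.ht (an t) + o) / M
  choose Cut top h1 h2 h3 using fun j => G.partition hD b₀ hb (fun t => lay t = j)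
  refine ⟨fun t => (lay t, top (lay t) t), ?_, ?_⟩
  · rintro ⟨j, y⟩
    refine le_trans (card_le_card ?_) (h3 j y)
    intro t ht
    simp only [mem_filter, mem_univ, true_and, Prod.mk.injEq] at ht ⊢
    exact ⟨ht.1, ht.1 ▸ ht.2⟩
  let lo : ℕ → ℕ := fun j => j * M - o - (lam + 1)
  let hi : ℕ → ℕ := fun j => j * M + M - o + (lam + 1)
  let win : ℕ → N → Finset E := fun j x => univ.filter (fun e => ∃ v, F.par v = some e ∧
    F.Anc x v ∧ lo j ≤ F.ht v ∧ F.ht v ≤ hi j)
  have hwin : ∀ j x, ∑ e ∈ win j x, c e ≤ M + 3 * lam + 2 := by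
    intro j x
    have a1 := sum_le_cover c (univ.filter (fun v => F.Anc x v ∧ lo j ≤ F.ht v ∧ F.ht v ≤ hi j))
      (fun v => univ.filter (fun e => F.par v = some e)) (win j x) (by
        intro e he
        obtain ⟨v, hv1, hv2⟩ := (mem_filter.1 he).2
        exact ⟨v, mem_filter.2 ⟨mem_univ _, hv2⟩, mem_filter.2 ⟨mem_univ _, hv1⟩⟩)
    have a2 := F.window lam (lo j) (hi j) hc2 x
    have a3 : ∀ v, ∑ e ∈ univ.filter (fun e => F.par v = some e), c e ≤
        F.ht v - F.ht (F.up v) := by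
      intro v
      cases h : F.par v with
      | none => simp
      | some e =>
        have := (F.hsome v e h).2.2.1
        have e1 : univ.filter (fun e' => some e = some e') = {e} := by
          ext e'; simp [eq_comm]
        rw [e1, sum_singleton]
        omega
    have a4 := sum_le_sum (s := univ.filter
      (fun v => F.Anc x v ∧ lo j ≤ F.ht v ∧ F.ht v ≤ hi j)) (fun v _ => a3 v)
    have a5 : hi j + lam - lo j ≤ M + 3 * lam + 2 := by
      simp only [hi, lo]; omega
    omega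
  let Y : ℕ → T → Finset E := fun j t => univ.filter (fun e => G.par t = some e ∨
    ∃ e', G.par t = some e' ∧ (e ∈ win j (p₀ e') ∨ e ∈ win j (p₁ e')))
  have hY : ∀ j t, ∑ e ∈ Y j t, c e ≤ (2 * r + 11) * lam := by
    intro j t
    cases h : G.par t with
    | none => simp [Y, h]
    | some e' =>
      have a1 := sum_le_cover c (univ : Finset (Fin 3))
        (fun i => ![{e'}, win j (p₀ e'), win j (p₁ e')] i) (Y j t) (by
          intro e he
          rcases (mem_filter.1 he).2 with h' | ⟨e'', h', h''⟩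
          · rw [h] at h'
            exact ⟨0, mem_univ _, by simp [Option.some_injective _ h']⟩
          · rw [h] at h'
            cases h'
            rcases h'' with h'' | h''
            · exact ⟨1, mem_univ _, h''⟩
            · exact ⟨2, mem_univ _, h''⟩)
      rw [Fin.sum_univ_three] at a1
      simp only [Matrix.cons_val_zero, Matrix.cons_val_one, Matrix.cons_val, sum_singleton] at a1
      have a2 := hwin j (p₀ e')
      have a3 := hwin j (p₁ e')
      have a4 := hc2 e'
      have a5 : (2 * r + 11) * lam = 2 * M + 11 * lam := by rw [hM]; ring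
      omega
  let J : Finset ℕ := univ.image lay
  let X₁ : Finset E := univ.filter (fun e => lay (s₀ e) ≠ lay (s₁ e))
  let X₂ : Finset E := univ.filter (fun e => lay (s₀ e) = lay (s₁ e) ∧
    top (lay (s₀ e)) (s₀ e) ≠ top (lay (s₀ e)) (s₁ e))
  have b1 := sum_le_cover c (univ : Finset (Fin 2)) (fun i => ![X₁, X₂] i)
    (univ.filter (fun e => (lay (s₀ e), top (lay (s₀ e)) (s₀ e)) ≠
      (lay (s₁ e), top (lay (s₁ e)) (s₁ e)))) (by
      intro e he
      have he' := (mem_filter.1 he).2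
      by_cases hl : lay (s₀ e) = lay (s₁ e)
      · refine ⟨1, mem_univ _, mem_filter.2 ⟨mem_univ _, hl, fun h => he' ?_⟩⟩
        rw [h, hl]
      · exact ⟨0, mem_univ _, mem_filter.2 ⟨mem_univ _, hl⟩⟩)
  rw [Fin.sum_univ_two] at b1
  simp only [Matrix.cons_val_zero, Matrix.cons_val_one] at b1
  have b2 := sum_le_cover c (J.sigma Cut) (fun i => Y i.1 i.2) X₂ (by
    intro e he
    obtain ⟨hl, he'⟩ := (mem_filter.1 he).2
    obtain ⟨t, ht, h⟩ := cut_edge F G hO hH (Cut (lay (s₀ e))) (top (lay (s₀ e))) (h1 _) e he'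
    refine ⟨⟨lay (s₀ e), t⟩, mem_sigma.2 ⟨mem_image_of_mem _ (mem_univ _), ht⟩,
      mem_filter.2 ⟨mem_univ _, ?_⟩⟩
    rcases h with h | ⟨v, e', hv, he'', h⟩
    · exact Or.inl h
    · refine Or.inr ⟨e', he'', ?_⟩
      have hw : lo (lay (s₀ e)) ≤ F.ht v ∧ F.ht v ≤ hi (lay (s₀ e)) := by
        have q1 := Nat.div_add_mod (F.ht (an (s₀ e)) + o) M
        have q2 := Nat.mod_lt (F.ht (an (s₀ e)) + o) hM0
        have q3 := hA' e
        simp only [lo, hi, lay]
        rw [mul_comm _ M]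
        rcases (F.hsome v e hv).2.1 with h3 | h3
        · rw [h3.1] at q3; omega
        · rw [h3.1] at q3; omega
      rcases h with h | h
      · exact Or.inl (mem_filter.2 ⟨mem_univ _, v, hv, h, hw⟩)
      · exact Or.inr (mem_filter.2 ⟨mem_univ _, v, hv, h, hw⟩))
  have b3 : ∑ i ∈ J.sigma Cut, ∑ e ∈ Y i.1 i.2, c e ≤ (J.sigma Cut).card * ((2 * r + 11) * lam) := by
    rw [← smul_eq_mul]
    exact sum_le_card_nsmul _ _ _ fun i _ => hY i.1 i.2
  have b4 : b₀ * (J.sigma Cut).card ≤ Fintype.card T := by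
    rw [card_sigma, mul_sum, ← card_univ, card_eq_sum_card_image lay univ]
    refine sum_le_sum fun j _ => ?_
    refine (h2 j).trans (le_of_eq ?_)
    congr
  have r0 : (0 : ℝ) < r := by exact_mod_cast hr
  have b0 : (0 : ℝ) < b₀ := by exact_mod_cast hb
  have c1 : ((∑ e ∈ X₁, c e : ℕ) : ℝ) ≤ Fintype.card E / (r : ℝ) := by
    rw [le_div_iff₀ r0, mul_comm]
    exact_mod_cast hoc
  have c2 : (((J.sigma Cut).card : ℕ) : ℝ) ≤ Fintype.card T / (b₀ : ℝ) := by
    rw [le_div_iff₀ b0, mul_comm]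
    exact_mod_cast b4
  have c3 : ((∑ e ∈ X₂, c e : ℕ) : ℝ) ≤ ((J.sigma Cut).card : ℝ) * ((2 * r + 11) * lam) := by
    exact_mod_cast b2.trans b3
  have c4 : ((J.sigma Cut).card : ℝ) * ((2 * r + 11) * lam) ≤
      Fintype.card T / (b₀ : ℝ) * ((2 * r + 11) * lam) := by gcongr
  have c5 : ((∑ e ∈ univ.filter (fun e => (lay (s₀ e), top (lay (s₀ e)) (s₀ e)) ≠
      (lay (s₁ e), top (lay (s₁ e)) (s₁ e))), c e : ℕ) : ℝ) ≤
      ((∑ e ∈ X₁, c e : ℕ) : ℝ) + ((∑ e ∈ X₂, c e : ℕ) : ℝ) := by exact_mod_cast b1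
  have c6 : Fintype.card T / (b₀ : ℝ) * ((2 * r + 11) * lam) =
      (2 * r + 11) * lam / (b₀ : ℝ) * Fintype.card T := by ring
  refine le_trans (le_of_eq ?_) (c5.trans (by linarith))
  congr

end Crest.Agent.R177.Cl
end

-- ▼ part PVa/R177/ClusterC
section

/-! Task R177-C, part C: the triangulation of a planar system. -/

set_option autoImplicit false

namespace Crest.Agent.R177.Cl

open Finset

theorem sum_reps {D : Type} [Fintype D] (α : D → D) (hα : ∀ d, α (α d) = d) (Q : D → Prop)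
    [DecidablePred Q] (hQ : ∀ d, Q (α d) ↔ ¬ Q d) {M : Type} [AddCommMonoid M] (h : D → M) :
    ∑ b : {d // Q d}, (h b.1 + h (α b.1)) = ∑ d, h d := by
  rw [← sum_subtype (univ.filter Q) (by simp) (fun d => h d + h (α d)), sum_add_distrib,
    ← sum_filter_add_sum_filter_not univ Q]
  congr 1
  refine sum_nbij' α α ?_ ?_ ?_ ?_ ?_
  · intro d hd
    simp only [mem_filter, mem_univ, true_and] at hd ⊢
    rw [hQ]; exact not_not.2 hd
  · intro d hd
    simp only [mem_filter, mem_univ, true_and] at hd ⊢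
    exact (hQ d).2 hd
  · intro d _; exact hα d
  · intro d _; exact hα d
  · intro d _; rfl

open Classical in
theorem cluster' {D : Type} [Fintype D] (φ : Equiv.Perm D) (α : D → D) (hα : ∀ d, α (α d) = d)
    (hne : ∀ d, α d ≠ d) (hpl : PL φ α) (lam r b₀ : ℕ) (hlam : 0 < lam) (hr : 0 < r)
    (hb : 0 < b₀) :
    ∃ cl : D → ℕ × D, (∀ y, (univ.filter (fun d => cl d = y)).card ≤ 4 * b₀) ∧
      (((univ.filter (fun d => cl (α d) ≠ cl d)).card : ℝ) +
          lam * ((univ.filter (fun d => cl (φ d) ≠ cl d)).card : ℝ) ≤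
        (4 / (r : ℝ) + (4 * r + 22) * lam / (b₀ : ℝ)) * Fintype.card D) := by
  have two : ∀ x : ZMod 2, x + x = 0 := by decide
  have hinv : ∀ d, φ⁻¹ (φ d) = d := fun d => by simp
  let Q : D → Prop := fun d => Fintype.equivFin D d < Fintype.equivFin D (α d)
  have hQ : ∀ d, Q (α d) ↔ ¬ Q d := by
    intro d
    simp only [Q, hα, not_lt]
    refine ⟨le_of_lt, fun h => lt_of_le_of_ne h fun h' => hne d ?_⟩
    exact (Fintype.equivFin D).injective h'
  let rF : D → D → Prop := fun x y => y = φ x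
  let rV : D → D → Prop := fun x y => ∃ d, x = α d ∧ y = φ d
  let N := Quot rF ⊕ Quot rV
  haveI : Finite (Quot rF) := Finite.of_surjective _ Quot.mk_surjective
  haveI : Finite (Quot rV) := Finite.of_surjective _ Quot.mk_surjective
  letI : Fintype N := Fintype.ofFinite N
  let fc : D → N := fun d => Sum.inl (Quot.mk rF d)
  let vx : D → N := fun d => Sum.inr (Quot.mk rV d)
  have hfc : ∀ d, fc (φ d) = fc d := fun d => by
    simp only [fc]; rw [Quot.sound (show rF d (φ d) from rfl)]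
  have hvx : ∀ d, vx (α d) = vx (φ d) := fun d => by
    simp only [vx]; rw [Quot.sound (show rV (α d) (φ d) from ⟨d, rfl, rfl⟩)]
  have hvx' : ∀ d, vx (φ (α d)) = vx d := fun d => by rw [← hvx, hα]
  let B := {d // Q d}
  let rep : D → B := fun d => if h : Q d then ⟨d, h⟩ else ⟨α d, (hQ d).2 h⟩
  have hrep : ∀ d, (rep d).1 = d ∨ (rep d).1 = α d := by
    intro d
    by_cases h : Q d <;> simp [rep, h]
  have hrep1 : ∀ b : B, rep b.1 = b := fun b => by simp [rep, b.2]
  have hrep2 : ∀ b : B, rep (α b.1) = b := fun b => by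
    have : ¬ Q (α b.1) := by rw [hQ]; exact not_not.2 b.2
    simp [rep, this, hα]
  have hrep3 : ∀ d, rep (α d) = rep d := by
    intro d
    rcases hrep d with h | h
    · conv_lhs => rw [← h]
      exact hrep2 _
    · conv_lhs => rw [← h]
      exact hrep1 _
  let p₀ : D ⊕ B → N := Sum.elim fc (fun b => vx b.1)
  let p₁ : D ⊕ B → N := Sum.elim (fun d => vx (φ d)) (fun b => vx (φ b.1))
  let s₀ : D ⊕ B → D := Sum.elim id (fun b => b.1)
  let s₁ : D ⊕ B → D := Sum.elim φ (fun b => α b.1)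
  let c : D ⊕ B → ℕ := Sum.elim (fun _ => lam) (fun _ => 1)
  obtain ⟨cl, h1, h2⟩ := abstract_cluster p₀ p₁ s₀ s₁ c vx lam r b₀ hlam hr hb
    (by rintro (d | b) <;> simp [c]; omega) (by rintro (d | b) <;> simp [c]; omega)
    (by
      intro f g
      rw [Fintype.sum_sum_type]
      simp only [p₀, p₁, s₀, s₁, Sum.elim_inl, Sum.elim_inr, id]
      have e1 : ∑ b : B, (f b.1 + f (α b.1)) * (g (vx b.1) + g (vx (φ b.1))) =
          ∑ d, f d * (g (vx d) + g (vx (φ d))) := by
        rw [← sum_reps α hα Q hQ (fun d => f d * (g (vx d) + g (vx (φ d))))]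
        refine sum_congr rfl fun b _ => ?_
        rw [hvx, hvx']; ring
      have e2 : ∑ d, f (φ d) * (g (fc d) + g (vx (φ d))) = ∑ d, f d * (g (fc d) + g (vx d)) := by
        rw [← Equiv.sum_comp φ (fun d => f d * (g (fc d) + g (vx d)))]
        simp only [hfc]
      simp only [add_mul (f _) (f (φ _))]
      rw [e1, sum_add_distrib, e2, ← sum_add_distrib, ← sum_add_distrib]
      refine sum_eq_zero fun d _ => ?_
      linear_combination f d * two (g (fc d)) + f d * two (g (vx d)) + f d * two (g (vx (φ d))))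
    (by
      intro ω hω
      have key : ∀ d, ω (Sum.inl d) + ω (Sum.inl (φ⁻¹ d)) + ω (Sum.inr (rep d)) = 0 := by
        intro d
        have := hω (Pi.single d 1)
        rw [Fintype.sum_sum_type] at this
        simp only [s₀, s₁, Sum.elim_inl, Sum.elim_inr, id] at this
        have e1 : ∑ b : B, ω (Sum.inr b) * ((Pi.single d 1 : D → ZMod 2) b.1 +
            (Pi.single d 1 : D → ZMod 2) (α b.1)) =
            ∑ x, ω (Sum.inr (rep x)) * (Pi.single d 1 : D → ZMod 2) x := by
          rw [← sum_reps α hα Q hQ (fun x => ω (Sum.inr (rep x)) * (Pi.single d 1 : D → ZMod 2) x)]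
          refine sum_congr rfl fun b _ => ?_
          rw [hrep1, hrep2]; ring
        have e2 : ∑ x, ω (Sum.inl x) * (Pi.single d 1 : D → ZMod 2) (φ x) =
            ∑ x, ω (Sum.inl (φ⁻¹ x)) * (Pi.single d 1 : D → ZMod 2) x := by
          rw [← Equiv.sum_comp φ (fun x => ω (Sum.inl (φ⁻¹ x)) * (Pi.single d 1 : D → ZMod 2) x)]
          simp
        have e3 : ∀ u : D → ZMod 2, ∑ x, u x * (Pi.single d 1 : D → ZMod 2) x = u d := by
          intro u
          rw [sum_eq_single d (fun b _ hb => by simp [Pi.single_eq_of_ne hb]) (by simp)]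
          simp
        simp only [mul_add (ω (Sum.inl _))] at this
        rw [e1, sum_add_distrib, e2, e3 (fun x => ω (Sum.inl x)),
          e3 (fun x => ω (Sum.inl (φ⁻¹ x))), e3 (fun x => ω (Sum.inr (rep x)))] at this
        exact this
      obtain ⟨κ, hκ1, hκ2⟩ := hpl (fun d => ω (Sum.inl (φ⁻¹ d))) (by
        intro d
        have a1 := key d
        have a2 := key (α d)
        rw [hrep3] at a2
        simp only [hinv]
        linear_combination a2 - a1)
      refine ⟨Sum.elim (Quot.lift κ (fun x y h => by rw [h, hκ1]))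
        (Quot.lift (fun d => ω (Sum.inl (φ⁻¹ d)) + κ d) ?_), ?_⟩
      · rintro x y ⟨d, rfl, rfl⟩
        rw [hκ2 d, hκ1]
      · rintro (d | b)
        · simp only [p₀, p₁, fc, vx, Sum.elim_inl, Sum.elim_inr, hinv, hκ1]
          linear_combination - two (κ d)
        · simp only [p₀, p₁, vx, Sum.elim_inr, hinv, hκ1]
          have a1 := key b.1
          rw [hrep1] at a1
          linear_combination a1 - two (κ b.1) - two (ω (Sum.inl b.1)) -
            two (ω (Sum.inl (φ⁻¹ b.1))))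
    (by
      intro t
      refine le_trans (card_le_card (t := {Sum.inl t, Sum.inl (φ⁻¹ t), Sum.inr (rep t)}) ?_)
        card_le_three
      rintro (d | b) he
      · simp only [mem_filter, mem_univ, true_and, s₀, s₁, Sum.elim_inl, id] at he
        rcases he with rfl | rfl <;> simp
      · simp only [mem_filter, mem_univ, true_and, s₀, s₁, Sum.elim_inr] at he
        rcases he with rfl | rfl
        · simp [hrep1]
        · simp [hrep2])
    (by
      intro ht hht
      have k1 : ∀ d, ht (vx d) ≤ ht (vx (φ d)) + 1 ∧ ht (vx (φ d)) ≤ ht (vx d) + 1 := by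
        intro d
        have := hht (Sum.inr (rep d))
        simp only [p₀, p₁, c, Sum.elim_inr] at this
        rcases hrep d with h | h
        · rwa [h] at this
        · rw [h, hvx, hvx'] at this
          exact this.symm
      rintro (d | b)
      · have := hht (Sum.inl d)
        have := k1 d
        simp only [p₀, p₁, s₀, s₁, c, Sum.elim_inl, id] at *
        omega
      · have := k1 b.1
        simp only [p₀, p₁, s₀, s₁, Sum.elim_inr, hvx]
        omega)
  refine ⟨cl, h1, ?_⟩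
  have e1 : ∑ e ∈ univ.filter (fun e => cl (s₀ e) ≠ cl (s₁ e)), c e =
      lam * (univ.filter (fun d => cl (φ d) ≠ cl d)).card +
        ∑ b : B, if cl (α b.1) ≠ cl b.1 then 1 else 0 := by
    rw [sum_filter, Fintype.sum_sum_type, card_filter, mul_sum]
    congr 1
    · refine sum_congr rfl fun d _ => ?_
      simp only [s₀, s₁, c, Sum.elim_inl, id, ne_comm (a := cl d)]
      split_ifs <;> simp
    · refine sum_congr rfl fun b _ => ?_
      simp only [s₀, s₁, c, Sum.elim_inr, ne_comm (a := cl b.1)]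
  have e2 : (univ.filter (fun d => cl (α d) ≠ cl d)).card =
      2 * ∑ b : B, if cl (α b.1) ≠ cl b.1 then 1 else 0 := by
    rw [card_filter, ← sum_reps α hα Q hQ (fun d => if cl (α d) ≠ cl d then 1 else 0), mul_sum]
    refine sum_congr rfl fun b _ => ?_
    simp only [hα, ne_comm (a := cl b.1)]
    ring
  have e3 : Fintype.card (D ⊕ B) ≤ 2 * Fintype.card D := by
    rw [Fintype.card_sum]
    have := Fintype.card_subtype_le Q
    simp only [B]
    omega
  have r0 : (0 : ℝ) < r := by exact_mod_cast hr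
  have e4 : (Fintype.card (D ⊕ B) : ℝ) / r ≤ 2 * Fintype.card D / r := by
    gcongr; exact_mod_cast e3
  have h2' : ((lam * (univ.filter (fun d => cl (φ d) ≠ cl d)).card +
        ∑ b : B, (if cl (α b.1) ≠ cl b.1 then 1 else 0) : ℕ) : ℝ) ≤
      Fintype.card (D ⊕ B) / (r : ℝ) + (2 * r + 11) * lam / (b₀ : ℝ) * Fintype.card D := by
    rw [← e1]
    convert h2
  rw [e2]
  generalize (∑ b : B, if cl (α b.1) ≠ cl b.1 then 1 else 0) = X at h2' ⊢
  push_cast at h2' ⊢
  have e5 : (0 : ℝ) ≤ lam * ((univ.filter (fun d => cl (φ d) ≠ cl d)).card : ℝ) := by positivity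
  have e6 : (4 / (r : ℝ) + (4 * r + 22) * lam / (b₀ : ℝ)) * Fintype.card D =
      2 * (2 * Fintype.card D / r + (2 * r + 11) * lam / (b₀ : ℝ) * Fintype.card D) := by ring
  rw [e6]
  linarith

end Crest.Agent.R177.Cl
end

-- ▼ part PVa/R177/Cluster

/-!
Task R177-C: planar systems are hyperfinite (Lipton–Tarjan/Baker type decomposition), and the Euler
inequality.

## `cluster`
Triangulate: triangles = darts `d`; primal nodes `𝒩 = FQ ⊕ VQ`, `FQ = Quot (fun x y => y = φ x)` (faces),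
`VQ = Quot (fun x y => ∃ d, x = α d ∧ y = φ d)` (vertices; the corner `d` is the start of `d`); edges
`ℰ = D ⊕ {d // e d < e (α d)}` (`e = Fintype.equivFin D`): the spoke `inl d` has sides `d, φ d`, ends
`[d] ∈ FQ`, `[φ d] ∈ VQ` and cost `lam`; the base edge `inr d` has sides `d, α d`, ends `[d], [φ d] ∈ VQ`, cost
`1`.  It is convenient to prove an abstract lemma for finite `𝒩 ℰ 𝒯`, ends `p₀ p₁`, sides `s₀ s₁`, costs
`1 ≤ c e ≤ lam`, anchors `an : 𝒯 → 𝒩` (here `an d = [d] ∈ VQ`), from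
(O) `∑ e, (f (s₀ e) + f (s₁ e)) * (g (p₀ e) + g (p₁ e)) = 0` for all `f : 𝒯 → 𝔽₂`, `g : 𝒩 → 𝔽₂`;
(H) if `∑ e, ω e * (f (s₀ e) + f (s₁ e)) = 0` for all `f` then `ω e = g (p₀ e) + g (p₁ e)` for some `g`
  (from `PL` with `χ d = ω (spoke (φ⁻¹ d))`; test with `f = Pi.single d 1`);
(D) every triangle is a side of at most three edges;
(A) for every `ht : 𝒩 → ℕ` with `|ht (p₀ e) - ht (p₁ e)| ≤ c e` one has
  `|ht (an (s₀ e)) - ht (an (s₁ e))| ≤ 1` and `|ht (pᵢ e) - ht (an (s₀ e))| ≤ lam + 1`.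
1. *Shortest path forests* (use twice): for a finite multigraph, a set of allowed edges and costs `≥ 1`
   there are `ht`, `up`, `root`, and `par v : Option ℰ` with: `par v = none → up v = v ∧ root v = v`;
   `par v = some e →` `e` allowed, its ends are `{v, up v}`, `ht v = ht (up v) + c e`, `root (up v) = root v`;
   for allowed `e`: same root at both ends and `|ht p₀ - ht p₁| ≤ c e`.  (Roots: `Quot.out` of the component;
   `ht v = Nat.find` of an inductive reachability predicate.)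
2. Primal forest `T` (all edges allowed), dual forest (ends = sides, allowed = not a primal parent edge, cost 1).
   Every non-`T` edge is a dual parent edge: by induction on `ht` every `t` has a chain `π t` supported on dual
   parent edges with `∑ e, π t e * (f s₀ + f s₁) = f t + f (root t)`; for another non-`T` edge `e` apply (H) to
   `single e + π (s₀ e) + π (s₁ e)`: `g` is constant along `T`, contradiction at `e`.
3. Layers: `lay t = (ht (an t) + o) / (r * lam)`; an edge has different layers on its sides for at most one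
   `o < r * lam`, so for some `o` these edges cost `≤ (∑ c e)/(r lam) ≤ card ℰ / r ≤ 1.5 card D / r`.
4. Forest partition: for `w : 𝒯 → Prop` (a layer) there is a set `Cut` of non-root nodes with
   `b₀ * |Cut| ≤ |w|` and `top : 𝒯 → 𝒯` with `top t = top (up t)` for `t ∉ Cut` and every fibre of `top` has at most
   `4 b₀` points of `w` (at most `3` children: repeatedly cut off a deepest subtree of weight `≥ b₀`; induct
   over `up`-closed subsets).  `cl t = (lay t, top_{lay t} t)`.
5. An edge with both sides in layer `j` but different `top_j` is the dual parent edge of a node of `Cut_j`, or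
   `par v` where `v` is an ancestor (`up^[n] x = v`) of an end `x` of such an edge (apply (O) to the indicator
   of a fibre of `top_j` and the indicator of the subtree below `v`).  By (A) `ht v` lies in a window of length
   `r lam + 2 lam + 2`; the parent edges of ancestors of a fixed `x` with height in `[lo, hi]` cost at most
   `hi - lo + lam` in total.  So each cut node costs at most `(2 r + 11) lam`.
A cut base edge is counted twice in the statement (both darts).

## `euler`
Let `Z = {χ | hypothesis of PL}` (a subspace of `D → 𝔽₂` cut out by `card D / 2` equations, one for each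
`α`-pair), `V₀ = {ψ | ψ (α d) = ψ (φ d)}`, `F₀ = {κ | κ (φ d) = κ d}`.  `PL` says `Z ≤ V₀ ⊔ F₀`, so
`card D / 2 ≤ dim V₀ + dim F₀`, `dim F₀ ≤ card Tr`.  With the permutation `ρ = α ∘ φ` (conjugate form:
`ψ ∘ φ` is `φ⁻¹ α`-invariant; equivalently `ψ` is `φ α`-invariant), `dim V₀ ≤` number of orbits
`≤ n₁ + n₂/2 + n₃/3`, where `nᵢ` counts darts on orbits of length `1`, `2`, `≥ 3`.  Note that `d ↦ φ d` (or
`d ↦ α d`) matches the counts for `α φ`, `φ α` and their inverses.  Hence `n₃ ≤ 3 n₁ + 6 card Tr`.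

## `exists_idx`
`rep d` = chosen point of the cycle of `d`, `pos d` = least `j` with `φ^j (rep d) = d`,
`idx d = card D * e (rep d) + pos d`, `Last = {d | φ d = rep d}`.
-/

set_option autoImplicit false

namespace Crest.Agent.R177

open Finset

open Classical in
theorem cluster {D : Type} [Fintype D] (φ : Equiv.Perm D) (α : D → D) (hα : ∀ d, α (α d) = d)
    (hne : ∀ d, α d ≠ d) (hpl : PL φ α) (lam r b₀ : ℕ) (hlam : 0 < lam) (hr : 0 < r)
    (hb : 0 < b₀) :
    ∃ cl : D → ℕ × D, (∀ y, (univ.filter (fun d => cl d = y)).card ≤ 4 * b₀) ∧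
      (((univ.filter (fun d => cl (α d) ≠ cl d)).card : ℝ) +
          lam * ((univ.filter (fun d => cl (φ d) ≠ cl d)).card : ℝ) ≤
        (4 / (r : ℝ) + (4 * r + 22) * lam / (b₀ : ℝ)) * Fintype.card D) :=
  Cl.cluster' φ α hα hne hpl lam r b₀ hlam hr hb



end Crest.Agent.R177
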