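import Crest.Agent.PVa.R196.Defs
import Crest.Agent.PVa.R196.Cat
import Crest.Agent.PVa.R196.Sturm
import Crest.Agent.PVa.R177.Defs
import Crest.Prelude.Def_WordHyperbolic

-- ▼ part PVa/R196/Point
section

/-!
Task R196-G3: the pointwise inequality on the eta pattern.  Vertices
`0 c, 1 ρ, 2 σ₂, 3 σ₁, 4 c', 5 β, 6 π, 7 σ₃, 8 β', 9 a, 10 b, 11 e, 12 u, 13 w`.

Write `D x y = dist x y ^ 2`, `μC = mid ρ σ₂`, `μB = mid π σ₂`, `ν = mid a β`, `ν' = mid a c`, `νC = mid c c'`, `νB = mid β β'`,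
`c₁ = pt (1/3) μC π`, `c₂ = pt (1/3) μB ρ`, `Dπ = D π μC`, `Dρ = D ρ μB`.
* `D σ₁ σ₃ ≤ (17/8) (D σ₁ c₁ + D σ₃ c₂) + 17 D c₁ c₂` (triangle inequality),
* `D σ₁ c₁ ≤ (2/3) D σ₁ μC + (1/3) D σ₁ π - (2/9) Dπ`, `D σ₁ μC ≤ (17/16) D σ₁ νC + 17 D νC μC`,
  `D σ₁ νC ≤ (D σ₁ c + D σ₁ c')/2 - D c c'/4`, `D νC μC ≤ (D νC ρ + D νC σ₂)/2 - D ρ σ₂/4`; the same for `σ₃, c₂, μB, νB, ρ`;
* `D c₁ c₂ ≤ (4/9) D μC μB + (2/9) (D μC ρ + D π μB) + (1/9) D π ρ - (2/9) (Dπ + Dρ)` (`cn` three times),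
  `D μC μB ≤ D ρ π / 4` (`pt_convex`), `D μC ρ = D ρ σ₂ / 4`, and `D ρ σ₂ + D c c' ≤` four edges (`quad`);
* `quad π μC c ν`: `D π c + D μC ν ≤ Dπ + D μC c + D c ν + D ν π`; `quad μC ν a ρ`:
  `D μC a + D ν ρ ≤ D μC ν + D ν a + D a ρ + D ρ μC`; `cn` for `D μC c`, `D c ν`, `D ν π`; symmetrically for `Dρ`
  (`quad ρ μB β ν'`, `quad μB ν' a π`).
The statement collects the result: if all edges have `D ≤ 1 + s`, etc., one gets `3 ≤ 2.93 + O(s)`.  Since the inequality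
has to be averaged, it is stated in linear form with explicit coefficients: `Lw` = the eleven differences that are bounded
below by `lb`, `Ed` = edges, `Pr` = the seven uniform pairs.
-/

set_option autoImplicit false

namespace Crest.Agent.R196

open Crest.Geometry Finset

universe u

variable {X : Type u} [MetricSpace X] (hX : IsCAT0Space X)

/-- The eleven differences `L1, L2, L3, L1', L2', L3', L4, T1, T2, T1', T2'`. -/
noncomputable def Lw (v : Fin 14 → X) : Fin 11 → ℝ :=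
  ![dist (pt hX (1 / 2) (v 1) (v 2)) (v 9) ^ 2 - dist (pt hX (1 / 2) (v 1) (v 2)) (v 1) ^ 2,
    dist (pt hX (1 / 2) (v 9) (v 5)) (v 1) ^ 2 - dist (pt hX (1 / 2) (v 9) (v 5)) (v 9) ^ 2,
    dist (v 6) (v 0) ^ 2 - dist (v 6) (v 2) ^ 2,
    dist (pt hX (1 / 2) (v 6) (v 2)) (v 9) ^ 2 - dist (pt hX (1 / 2) (v 6) (v 2)) (v 6) ^ 2,
    dist (pt hX (1 / 2) (v 9) (v 0)) (v 6) ^ 2 - dist (pt hX (1 / 2) (v 9) (v 0)) (v 9) ^ 2,
    dist (v 1) (v 5) ^ 2 - dist (v 1) (v 2) ^ 2,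
    dist (v 3) (v 7) ^ 2 - dist (v 3) (v 13) ^ 2,
    dist (v 0) (v 4) ^ 2 - dist (v 0) (v 1) ^ 2,
    dist (v 1) (v 2) ^ 2 - dist (v 1) (v 0) ^ 2,
    dist (v 5) (v 8) ^ 2 - dist (v 5) (v 6) ^ 2,
    dist (v 6) (v 2) ^ 2 - dist (v 6) (v 5) ^ 2]

/-- The edges. -/
noncomputable def Ed (v : Fin 14 → X) (i : Fin 21) : ℝ := dist (v (eS i)) (v (eT i)) ^ 2

/-- The seven uniform pairs `πρ, πσ₁, ρσ₃, ac, cβ, aβ, σ₁w`. -/
noncomputable def Pr (v : Fin 14 → X) : Fin 7 → ℝ :=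
  ![dist (v 6) (v 1) ^ 2, dist (v 6) (v 3) ^ 2, dist (v 1) (v 7) ^ 2, dist (v 9) (v 0) ^ 2,
    dist (v 0) (v 5) ^ 2, dist (v 9) (v 5) ^ 2, dist (v 3) (v 13) ^ 2]

theorem tri2 (x y z : X) : dist x z ^ 2 ≤ 17 / 16 * dist x y ^ 2 + 17 * dist y z ^ 2 := by
  have h := pow_le_pow_left₀ dist_nonneg (dist_triangle x y z) 2
  nlinarith [sq_nonneg (dist x y - 16 * dist y z)]

theorem tri3 (x y z w : X) :
    dist x w ^ 2 ≤ 17 / 8 * (dist x y ^ 2 + dist w z ^ 2) + 17 * dist y z ^ 2 := by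
  have h := pow_le_pow_left₀ dist_nonneg (dist_triangle4 x y z w) 2
  rw [dist_comm z w] at h
  nlinarith [sq_nonneg (dist x y - 8 * dist y z), sq_nonneg (dist w z - 8 * dist y z),
    sq_nonneg (dist x y - dist w z)]

theorem mid (x y z : X) : dist z (pt hX (1 / 2) x y) ^ 2 ≤
    1 / 2 * dist z x ^ 2 + 1 / 2 * dist z y ^ 2 - 1 / 4 * dist x y ^ 2 := by
  have := cn hX (t := 1 / 2) (by norm_num) (by norm_num) x y z
  linarith

theorem third (x y z : X) : dist z (pt hX (1 / 3) x y) ^ 2 ≤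
    2 / 3 * dist z x ^ 2 + 1 / 3 * dist z y ^ 2 - 2 / 9 * dist x y ^ 2 := by
  have := cn hX (t := 1 / 3) (by norm_num) (by norm_num) x y z
  linarith

theorem mid_left (x y : X) : dist (pt hX (1 / 2) x y) x ^ 2 = 1 / 4 * dist x y ^ 2 := by
  rw [dist_comm, pt_left hX (by norm_num) (by norm_num)]
  ring

/-- One half of the estimate. -/
theorem side (c c' ρ σ σ₁ π β a : X) :
    dist σ₁ (pt hX (1 / 2) ρ σ) ^ 2 ≤
      17 / 16 * (1 / 2 * dist c σ₁ ^ 2 + 1 / 2 * dist σ₁ c' ^ 2 - 1 / 4 * dist c c' ^ 2) +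
      17 * (1 / 4 * dist c ρ ^ 2 + 1 / 4 * dist ρ c' ^ 2 + 1 / 4 * dist c σ ^ 2 +
        1 / 4 * dist σ c' ^ 2 - 1 / 4 * dist c c' ^ 2 - 1 / 4 * dist ρ σ ^ 2) ∧
    dist π c ^ 2 + (dist (pt hX (1 / 2) ρ σ) a ^ 2 - dist (pt hX (1 / 2) ρ σ) ρ ^ 2) +
      (dist (pt hX (1 / 2) a β) ρ ^ 2 - dist (pt hX (1 / 2) a β) a ^ 2) - dist a ρ ^ 2 -
      (1 / 2 * dist c ρ ^ 2 + 1 / 2 * dist c σ ^ 2 - 1 / 4 * dist ρ σ ^ 2) -
      (1 / 2 * dist a c ^ 2 + 1 / 2 * dist c β ^ 2 - 1 / 4 * dist a β ^ 2) -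
      (1 / 2 * dist a π ^ 2 + 1 / 2 * dist β π ^ 2 - 1 / 4 * dist a β ^ 2) ≤
      dist (pt hX (1 / 2) ρ σ) π ^ 2 := by
  constructor
  · have h1 := tri2 σ₁ (pt hX (1 / 2) c c') (pt hX (1 / 2) ρ σ)
    have h2 := mid hX c c' σ₁
    have h3 := mid hX ρ σ (pt hX (1 / 2) c c')
    have h4 := mid hX c c' ρ
    have h5 := mid hX c c' σ
    rw [dist_comm σ₁ c] at h2
    rw [dist_comm ρ, dist_comm ρ c] at h4
    rw [dist_comm σ, dist_comm σ c] at h5
    linarith
  · have h1 := quad hX π (pt hX (1 / 2) ρ σ) c (pt hX (1 / 2) a β)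
    have h2 := quad hX (pt hX (1 / 2) ρ σ) (pt hX (1 / 2) a β) a ρ
    have h3 := mid hX ρ σ c
    have h4 := mid hX a β c
    have h5 := mid hX a β π
    rw [dist_comm π (pt hX (1 / 2) ρ σ), dist_comm (pt hX (1 / 2) ρ σ) c,
      dist_comm (pt hX (1 / 2) a β) π] at h1
    rw [dist_comm ρ (pt hX (1 / 2) ρ σ)] at h2
    rw [dist_comm c a] at h4
    rw [dist_comm π a, dist_comm π β] at h5
    linarith

theorem cc (ρ σ π : X) :
    dist (pt hX (1 / 3) (pt hX (1 / 2) ρ σ) π) (pt hX (1 / 3) (pt hX (1 / 2) π σ) ρ) ^ 2 ≤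
      2 / 9 * dist π ρ ^ 2 + 1 / 18 * dist ρ σ ^ 2 + 1 / 18 * dist π σ ^ 2 -
        2 / 9 * dist (pt hX (1 / 2) ρ σ) π ^ 2 - 2 / 9 * dist (pt hX (1 / 2) π σ) ρ ^ 2 := by
  have h1 := third hX (pt hX (1 / 2) π σ) ρ (pt hX (1 / 3) (pt hX (1 / 2) ρ σ) π)
  have h2 := third hX (pt hX (1 / 2) ρ σ) π (pt hX (1 / 2) π σ)
  have h3 := third hX (pt hX (1 / 2) ρ σ) π ρ
  have h4 := pt_convex hX (t := 1 / 2) (by norm_num) (by norm_num) π σ ρ σ
  have h5 := pow_le_pow_left₀ dist_nonneg h4 2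
  have h6 := mid_left hX ρ σ
  have h7 := mid_left hX π σ
  rw [dist_comm _ (pt hX (1 / 2) π σ), dist_comm _ ρ] at h1
  rw [dist_comm ρ (pt hX (1 / 2) ρ σ), dist_comm ρ π] at h3
  rw [dist_self] at h5
  nlinarith

theorem point : ∃ (α : Fin 11 → ℝ) (β : Fin 21 → ℝ) (γ : Fin 7 → ℝ), (∀ i, 0 ≤ α i) ∧
    ∑ i, β i + 2 * ∑ i, γ i + 1 / 20 ≤ ∑ i, α i ∧
    ∀ {X : Type u} [MetricSpace X] (hX : IsCAT0Space X) (v : Fin 14 → X),
      ∑ i, α i * Lw hX v i ≤ ∑ i, β i * Ed v i + ∑ i, γ i * Pr v i := by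
  refine ⟨![17/4, 17/4, 17/4, 17/4, 17/4, 17/4, 1, 4913/768, 187/18, 4913/768, 187/18],
    ![-15011/2304, 391/48, 289/384, 289/48, 289/48, 289/384, -15011/2304, 391/48, 289/384, 289/48,
      289/48, 289/384, 51/8, 51/8, 0, 0, 0, 0, 0, 0, 0], ![34/9, 17/24, 17/24, 0, 17/4, 0, -1],
    fun i => ?_, ?_, fun {X} _ hX v => ?_⟩
  · fin_cases i <;> simp <;> norm_num
  · simp only [Fin.sum_univ_succ, Fin.sum_univ_zero, Matrix.cons_val_zero, Matrix.cons_val_succ]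
    norm_num
  · obtain ⟨a1, a2⟩ := side hX (v 0) (v 4) (v 1) (v 2) (v 3) (v 6) (v 5) (v 9)
    obtain ⟨b1, b2⟩ := side hX (v 5) (v 8) (v 6) (v 2) (v 7) (v 1) (v 0) (v 9)
    have c := cc hX (v 1) (v 2) (v 6)
    have d := tri3 (v 3) (pt hX (1 / 3) (pt hX (1 / 2) (v 1) (v 2)) (v 6))
      (pt hX (1 / 3) (pt hX (1 / 2) (v 6) (v 2)) (v 1)) (v 7)
    have e1 := third hX (pt hX (1 / 2) (v 1) (v 2)) (v 6) (v 3)
    have e2 := third hX (pt hX (1 / 2) (v 6) (v 2)) (v 1) (v 7)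
    rw [dist_comm (v 3) (v 6)] at e1
    rw [dist_comm (v 7) (v 1)] at e2
    rw [dist_comm (v 5) (v 0)] at b2
    simp only [Lw, Ed, Pr, eS, eT, Fin.sum_univ_succ, Fin.sum_univ_zero, Matrix.cons_val_zero,
      Matrix.cons_val_succ]
    rw [dist_comm (v 1) (v 0), dist_comm (v 6) (v 5)]
    linarith

end Crest.Agent.R196
end

-- ▼ part PVa/R196/GeoA
section

/-!
Task R196-G4, auxiliary lemmas: scaled statistics, word lengths, boundedness, atoms of the eta pattern.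
-/

set_option autoImplicit false

namespace Crest.Agent.R196

open Crest.Geometry
open scoped BigOperators

universe u

section Stats

variable {V P : Type} [Fintype V] [DecidableEq V] [Fintype P]

theorem Unif1.scaled {W : (V → P) → ℝ} {a : V} {δ : ℝ} (h : Unif1 W a δ) (F : P → ℝ) {M : ℝ}
    (hM : 0 < M) (hF : ∀ s, |F s| ≤ M) :
    |(𝔼 φ, W φ * F (φ a)) - 𝔼 s, F s| ≤ δ * M := by
  have h1 := h (fun s => F s / M) (fun s => by
    rw [abs_div, abs_of_pos hM, div_le_one hM]; exact hF s)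
  have e1 : (𝔼 φ, W φ * (F (φ a) / M)) = (𝔼 φ, W φ * F (φ a)) / M := by
    rw [Finset.expect_div]
    exact Finset.expect_congr rfl fun φ _ => by ring
  have e2 : (𝔼 s, F s / M) = (𝔼 s, F s) / M := by rw [Finset.expect_div]
  rw [e1, e2, ← sub_div, abs_div, abs_of_pos hM, div_le_iff₀ hM] at h1
  exact h1

theorem Unif2.scaled {W : (V → P) → ℝ} {a b : V} {δ : ℝ} (h : Unif2 W a b δ) (F : P → P → ℝ)
    {M : ℝ} (hM : 0 < M) (hF : ∀ s t, |F s t| ≤ M) :
    |(𝔼 φ, W φ * F (φ a) (φ b)) - 𝔼 s, 𝔼 t, F s t| ≤ δ * M := by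
  have h1 := h (fun s t => F s t / M) (fun s t => by
    rw [abs_div, abs_of_pos hM, div_le_one hM]; exact hF s t)
  have e1 : (𝔼 φ, W φ * (F (φ a) (φ b) / M)) = (𝔼 φ, W φ * F (φ a) (φ b)) / M := by
    rw [Finset.expect_div]
    exact Finset.expect_congr rfl fun φ _ => by ring
  have e2 : (𝔼 s, 𝔼 t, F s t / M) = (𝔼 s, 𝔼 t, F s t) / M := by
    rw [Finset.expect_div]
    exact Finset.expect_congr rfl fun s _ => by rw [Finset.expect_div]
  rw [e1, e2, ← sub_div, abs_div, abs_of_pos hM, div_le_iff₀ hM] at h1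
  exact h1

open Classical in
theorem bad_le {W : (V → P) → ℝ} {R : (V → P) → Prop} {δ : ℝ} (h0 : ∀ φ, 0 ≤ W φ)
    (hb : (𝔼 φ, W φ * (if R φ then 0 else 1)) ≤ δ) (F : (V → P) → ℝ) {M : ℝ} (hM : 0 ≤ M)
    (hR : ∀ φ, R φ → F φ ≤ 0) (hF : ∀ φ, F φ ≤ M) : (𝔼 φ, W φ * F φ) ≤ δ * M := by
  have e1 : (𝔼 φ, W φ * F φ) ≤ 𝔼 φ, W φ * (if R φ then 0 else 1) * M := by
    refine Finset.expect_le_expect fun φ _ => ?_
    rw [mul_assoc]
    refine mul_le_mul_of_nonneg_left ?_ (h0 φ)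
    split_ifs with h
    · simpa using hR φ h
    · simpa using hF φ
  rw [← Finset.expect_mul] at e1
  exact e1.trans (mul_le_mul_of_nonneg_right hb hM)

end Stats

theorem expect_diag {m : ℕ} [NeZero m] (f : Fin m → Fin m → ℝ) :
    (𝔼 j, 𝔼 k, f j k) = 𝔼 d, 𝔼 i, f i (i + d) := by
  rw [Finset.expect_comm]
  rw [Finset.expect_comm (s := Finset.univ) (t := Finset.univ) (fun d i => f i (i + d)),
    Finset.expect_comm]
  refine Finset.expect_congr rfl fun j _ => ?_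
  exact (Fintype.expect_equiv (Equiv.addLeft j) _ _ fun d => rfl).symm

theorem le_expect_of_forall {ι : Type} [Fintype ι] [Nonempty ι] {f : ι → ℝ} {a : ℝ}
    (h : ∀ i, a ≤ f i) : a ≤ 𝔼 i, f i :=
  Finset.le_expect Finset.univ_nonempty fun i _ => h i

theorem expect_le_of_forall {ι : Type} [Fintype ι] [Nonempty ι] {f : ι → ℝ} {a : ℝ}
    (h : ∀ i, f i ≤ a) : (𝔼 i, f i) ≤ a :=
  Finset.expect_le Finset.univ_nonempty fun i _ => h i

section Len

variable {X : Type u} [MetricSpace X] {G : Type} [Group G] [MulAction G X] [IsIsometricSMul G X]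
  (p : X)

theorem len_mul (g h : G) : dist p ((g * h) • p) ≤ dist p (g • p) + dist p (h • p) := by
  rw [mul_smul, ← dist_smul g p (h • p)]
  exact dist_triangle _ _ _

theorem len_inv (g : G) : dist p (g⁻¹ • p) = dist p (g • p) := by
  rw [← dist_smul g, smul_inv_smul, dist_comm]

theorem dist_le_len (g h : G) : dist (g • p) (h • p) ≤ dist p (g • p) + dist p (h • p) :=
  dist_triangle_left _ _ _

theorem bounded {P : Type} [Fintype P] [Nonempty P] (x : P → G) {E : ℝ} (hE0 : 0 < E)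
    (hE : E = 𝔼 c, dist p (x c • p) ^ 2)
    (hex : ∀ (s : P) (𝒢 : Finset P), Fintype.card P ≤ 2 * 𝒢.card →
      ∃ f : Fin 6 → P, f 0 = s ∧ (∀ i, i ≠ 0 → f i ∈ 𝒢) ∧ RelH x f) (s : P) :
    dist p (x s • p) ≤ 5 * √(2 * E) := by
  classical
  set 𝒢 : Finset P := Finset.univ.filter fun c => dist p (x c • p) ^ 2 ≤ 2 * E with h𝒢
  have hcard : Fintype.card P ≤ 2 * 𝒢.card := by
    have hn0 : (0 : ℝ) < Fintype.card P := by exact_mod_cast Fintype.card_pos
    have h1 : ∑ c, dist p (x c • p) ^ 2 = Fintype.card P * E := by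
      rw [hE, Fintype.expect_eq_sum_div_card]
      field_simp
    have h2 : ((𝒢ᶜ).card : ℝ) * (2 * E) ≤ ∑ c, dist p (x c • p) ^ 2 := by
      calc ((𝒢ᶜ).card : ℝ) * (2 * E) = ∑ _c ∈ 𝒢ᶜ, 2 * E := by
            rw [Finset.sum_const, nsmul_eq_mul]
        _ ≤ ∑ c ∈ 𝒢ᶜ, dist p (x c • p) ^ 2 := by
            refine Finset.sum_le_sum fun c hc => ?_
            rw [Finset.mem_compl, h𝒢, Finset.mem_filter] at hc
            exact (not_le.1 fun h => hc ⟨Finset.mem_univ _, h⟩).le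
        _ ≤ ∑ c, dist p (x c • p) ^ 2 :=
            Finset.sum_le_sum_of_subset_of_nonneg (Finset.subset_univ _) fun _ _ _ => sq_nonneg _
    have h3 : (𝒢.card : ℝ) + (𝒢ᶜ).card = Fintype.card P := by
      exact_mod_cast Finset.card_add_card_compl 𝒢
    have h4 : (Fintype.card P : ℝ) ≤ 2 * 𝒢.card := by
      have : ((𝒢ᶜ).card : ℝ) * 2 ≤ Fintype.card P := by
        have h5 : ((𝒢ᶜ).card : ℝ) * 2 * E ≤ Fintype.card P * E := by linarith
        exact le_of_mul_le_mul_right h5 hE0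
      linarith
    exact_mod_cast h4
  obtain ⟨f, hf0, hf, hR⟩ := hex s 𝒢 hcard
  have hb : ∀ i, i ≠ 0 → dist p (x (f i) • p) ≤ √(2 * E) := fun i hi => by
    have := hf i hi
    rw [h𝒢, Finset.mem_filter] at this
    exact Real.le_sqrt_of_sq_le this.2
  have e : x s = (x (f 1) * x (f 2) * x (f 3) * x (f 4) * x (f 5))⁻¹ := by
    rw [← hf0, eq_inv_iff_mul_eq_one, ← hR]
    simp only [mul_assoc]
  rw [e, len_inv]
  have e1 := len_mul p (x (f 1) * x (f 2) * x (f 3) * x (f 4)) (x (f 5))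
  have e2 := len_mul p (x (f 1) * x (f 2) * x (f 3)) (x (f 4))
  have e3 := len_mul p (x (f 1) * x (f 2)) (x (f 3))
  have e4 := len_mul p (x (f 1)) (x (f 2))
  have b1 := hb 1 (by decide)
  have b2 := hb 2 (by decide)
  have b3 := hb 3 (by decide)
  have b4 := hb 4 (by decide)
  have b5 := hb 5 (by decide)
  linarith

end Len

section Atoms

variable {X : Type u} [MetricSpace X] (hX : IsCAT0Space X) {G P : Type} [Group G] [MulAction G X]
  (p : X) (x : P → G)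

/-- The points `q` of the eleven differences. -/
noncomputable def qF (φ : Fin 21 → P) : Fin 11 → X :=
  ![pt hX (1 / 2) p (((x (φ 0))⁻¹ * x (φ 1)) • p),
    pt hX (1 / 2) p ((x (φ 12) * (x (φ 6))⁻¹) • p),
    ((x (φ 7))⁻¹ * x (φ 6)) • p,
    pt hX (1 / 2) p (((x (φ 6))⁻¹ * x (φ 7)) • p),
    pt hX (1 / 2) p ((x (φ 13) * (x (φ 0))⁻¹) • p),
    ((x (φ 1))⁻¹ * x (φ 0)) • p,
    ((x (φ 19))⁻¹ * (x (φ 18))⁻¹) • p,
    (x (φ 0))⁻¹ • p,
    x (φ 0) • p,
    (x (φ 6))⁻¹ • p,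
    x (φ 6) • p]

/-- The second points of the eleven differences. -/
def uF (φ : Fin 21 → P) : Fin 11 → X :=
  ![(x (φ 13))⁻¹ • p, x (φ 13) • p, (x (φ 1))⁻¹ • p, (x (φ 12))⁻¹ • p, x (φ 12) • p,
    (x (φ 7))⁻¹ • p, x (φ 20) • p, x (φ 3) • p, x (φ 1) • p, x (φ 9) • p, x (φ 7) • p]

/-- The eleven differences. -/
noncomputable def LwF (φ : Fin 21 → P) (i : Fin 11) : ℝ :=
  dist (qF hX p x φ i) (uF p x φ i) ^ 2 - dist (qF hX p x φ i) p ^ 2

/-- The seven pairs. -/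
noncomputable def PrF (φ : Fin 21 → P) : Fin 7 → ℝ :=
  ![dist (x (φ 12) • p) (x (φ 13) • p) ^ 2, dist (x (φ 14) • p) (x (φ 15) • p) ^ 2,
    dist (x (φ 16) • p) (x (φ 17) • p) ^ 2, dist ((x (φ 13))⁻¹ • p) ((x (φ 0))⁻¹ • p) ^ 2,
    dist ((x (φ 1))⁻¹ • p) ((x (φ 7))⁻¹ • p) ^ 2, dist ((x (φ 12))⁻¹ • p) ((x (φ 6))⁻¹ • p) ^ 2,
    dist ((x (φ 18))⁻¹ • p) (x (φ 19) • p) ^ 2]

variable [IsIsometricSMul G X]

theorem dist_base (g a b a' b' : G) (ha : a = g * a') (hb : b = g * b') :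
    dist (a • p) (b • p) = dist (a' • p) (b' • p) := by
  rw [ha, hb, mul_smul, mul_smul, dist_smul]

theorem dist_base0 (a b b' : G) (hb : b = a * b') :
    dist (a • p) (b • p) = dist p (b' • p) := by
  rw [hb, mul_smul, dist_smul]

theorem dist_base1 (a b a' : G) (ha : a = b * a') :
    dist (a • p) (b • p) = dist (a' • p) p := by
  rw [ha, mul_smul, dist_smul]

theorem dist_mid (a b c b' c' : G) (hb : b = a * b') (hc : c = a * c') :
    dist (pt hX (1 / 2) (a • p) (b • p)) (c • p) = dist (pt hX (1 / 2) p (b' • p)) (c' • p) := by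
  rw [hb, hc, mul_smul, mul_smul, ← pt_smul hX (by norm_num) (by norm_num), dist_smul]

theorem dist_mid0 (a b b' : G) (hb : b = a * b') :
    dist (pt hX (1 / 2) (a • p) (b • p)) (a • p) = dist (pt hX (1 / 2) p (b' • p)) p := by
  rw [hb, mul_smul, ← pt_smul hX (by norm_num) (by norm_num), dist_smul]

theorem atoms {φ : Fin 21 → P} (h : Rel eS eT x φ) :
    ∃ v : Fin 14 → X, (∀ i, Lw hX v i = LwF hX p x φ i) ∧
      (∀ i, Ed v i = dist p (x (φ i) • p) ^ 2) ∧ ∀ i, Pr v i = PrF p x φ i := by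
  obtain ⟨pos, hpos⟩ := h
  have h0 : pos 1 = pos 0 * x (φ 0) := hpos 0
  have h1 : pos 2 = pos 0 * x (φ 1) := hpos 1
  have h3 : pos 4 = pos 1 * x (φ 3) := hpos 3
  have h6 : pos 6 = pos 5 * x (φ 6) := hpos 6
  have h7 : pos 2 = pos 5 * x (φ 7) := hpos 7
  have h9 : pos 8 = pos 6 * x (φ 9) := hpos 9
  have h12 : pos 6 = pos 9 * x (φ 12) := hpos 12
  have h13 : pos 1 = pos 9 * x (φ 13) := hpos 13
  have h14 : pos 6 = pos 10 * x (φ 14) := hpos 14
  have h15 : pos 3 = pos 10 * x (φ 15) := hpos 15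
  have h16 : pos 1 = pos 11 * x (φ 16) := hpos 16
  have h17 : pos 7 = pos 11 * x (φ 17) := hpos 17
  have h18 : pos 12 = pos 3 * x (φ 18) := hpos 18
  have h19 : pos 13 = pos 12 * x (φ 19) := hpos 19
  have h20 : pos 7 = pos 13 * x (φ 20) := hpos 20
  have k0 : pos 0 = pos 1 * (x (φ 0))⁻¹ := by rw [h0, mul_inv_cancel_right]
  have k1 : pos 0 = pos 2 * (x (φ 1))⁻¹ := by rw [h1, mul_inv_cancel_right]
  have k6 : pos 5 = pos 6 * (x (φ 6))⁻¹ := by rw [h6, mul_inv_cancel_right]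
  have k7 : pos 5 = pos 2 * (x (φ 7))⁻¹ := by rw [h7, mul_inv_cancel_right]
  have k12 : pos 9 = pos 6 * (x (φ 12))⁻¹ := by rw [h12, mul_inv_cancel_right]
  have k13 : pos 9 = pos 1 * (x (φ 13))⁻¹ := by rw [h13, mul_inv_cancel_right]
  have k18 : pos 3 = pos 12 * (x (φ 18))⁻¹ := by rw [h18, mul_inv_cancel_right]
  have k19 : pos 12 = pos 13 * (x (φ 19))⁻¹ := by rw [h19, mul_inv_cancel_right]
  have w0 : pos 2 = pos 1 * ((x (φ 0))⁻¹ * x (φ 1)) := by rw [← mul_assoc, ← k0, h1]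
  have w1 : pos 5 = pos 9 * (x (φ 12) * (x (φ 6))⁻¹) := by rw [← mul_assoc, ← h12, k6]
  have w2 : pos 6 = pos 2 * ((x (φ 7))⁻¹ * x (φ 6)) := by rw [← mul_assoc, ← k7, h6]
  have w3 : pos 2 = pos 6 * ((x (φ 6))⁻¹ * x (φ 7)) := by rw [← mul_assoc, ← k6, h7]
  have w4 : pos 0 = pos 9 * (x (φ 13) * (x (φ 0))⁻¹) := by rw [← mul_assoc, ← h13, k0]
  have w5 : pos 1 = pos 2 * ((x (φ 1))⁻¹ * x (φ 0)) := by rw [← mul_assoc, ← k1, h0]
  have w6 : pos 3 = pos 13 * ((x (φ 19))⁻¹ * (x (φ 18))⁻¹) := by rw [← mul_assoc, ← k19, k18]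
  refine ⟨fun i => pos i • p, fun i => ?_, fun i => ?_, fun i => ?_⟩
  · fin_cases i
    · exact congrArg₂ (fun a b : ℝ => a ^ 2 - b ^ 2) (dist_mid hX p _ _ _ _ _ w0 k13)
        (dist_mid0 hX p _ _ _ w0)
    · exact congrArg₂ (fun a b : ℝ => a ^ 2 - b ^ 2) (dist_mid hX p _ _ _ _ _ w1 h13)
        (dist_mid0 hX p _ _ _ w1)
    · exact congrArg₂ (fun a b : ℝ => a ^ 2 - b ^ 2) (dist_base p _ _ _ _ _ w2 k1)
        (dist_base1 p _ _ _ w2)
    · exact congrArg₂ (fun a b : ℝ => a ^ 2 - b ^ 2) (dist_mid hX p _ _ _ _ _ w3 k12)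
        (dist_mid0 hX p _ _ _ w3)
    · exact congrArg₂ (fun a b : ℝ => a ^ 2 - b ^ 2) (dist_mid hX p _ _ _ _ _ w4 h12)
        (dist_mid0 hX p _ _ _ w4)
    · exact congrArg₂ (fun a b : ℝ => a ^ 2 - b ^ 2) (dist_base p _ _ _ _ _ w5 k7)
        (dist_base1 p _ _ _ w5)
    · exact congrArg₂ (fun a b : ℝ => a ^ 2 - b ^ 2) (dist_base p _ _ _ _ _ w6 h20)
        (dist_base1 p _ _ _ w6)
    · exact congrArg₂ (fun a b : ℝ => a ^ 2 - b ^ 2) (dist_base p _ _ _ _ _ k0 h3)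
        (dist_base1 p _ _ _ k0)
    · exact congrArg₂ (fun a b : ℝ => a ^ 2 - b ^ 2) (dist_base p _ _ _ _ _ h0 h1)
        (dist_base1 p _ _ _ h0)
    · exact congrArg₂ (fun a b : ℝ => a ^ 2 - b ^ 2) (dist_base p _ _ _ _ _ k6 h9)
        (dist_base1 p _ _ _ k6)
    · exact congrArg₂ (fun a b : ℝ => a ^ 2 - b ^ 2) (dist_base p _ _ _ _ _ h6 h7)
        (dist_base1 p _ _ _ h6)
  · exact congrArg (fun a : ℝ => a ^ 2) (dist_base0 p _ _ _ (hpos i))
  · fin_cases i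
    · exact congrArg (fun a : ℝ => a ^ 2) (dist_base p _ _ _ _ _ h12 h13)
    · exact congrArg (fun a : ℝ => a ^ 2) (dist_base p _ _ _ _ _ h14 h15)
    · exact congrArg (fun a : ℝ => a ^ 2) (dist_base p _ _ _ _ _ h16 h17)
    · exact congrArg (fun a : ℝ => a ^ 2) (dist_base p _ _ _ _ _ k13 k0)
    · exact congrArg (fun a : ℝ => a ^ 2) (dist_base p _ _ _ _ _ k1 k7)
    · exact congrArg (fun a : ℝ => a ^ 2) (dist_base p _ _ _ _ _ k12 k6)
    · exact congrArg (fun a : ℝ => a ^ 2) (dist_base p _ _ _ _ _ k18 h19)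

include hX in
theorem corner_pt {φ : Fin 15 → P} (h : Rel cS cT x φ) :
    dist (x (φ 1) • x (φ 4) • p) (x (φ 6) • x (φ 9) • p) ^ 2 +
      (dist ((x (φ 3))⁻¹ • p) (x (φ 12) • p) ^ 2 - dist ((x (φ 3))⁻¹ • p) p ^ 2) -
      dist p (x (φ 12) • p) ^ 2 - dist p (x (φ 13) • p) ^ 2 - dist p (x (φ 8) • p) ^ 2 ≤ 0 := by
  obtain ⟨pos, hpos⟩ := h
  have h1 : pos 2 = pos 0 * x (φ 1) := hpos 1
  have h3 : pos 4 = pos 1 * x (φ 3) := hpos 3
  have h4 : pos 4 = pos 2 * x (φ 4) := hpos 4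
  have h6 : pos 5 = pos 0 * x (φ 6) := hpos 6
  have h8 : pos 7 = pos 1 * x (φ 8) := hpos 8
  have h9 : pos 7 = pos 5 * x (φ 9) := hpos 9
  have h12 : pos 9 = pos 4 * x (φ 12) := hpos 12
  have h13 : pos 9 = pos 7 * x (φ 13) := hpos 13
  have k3 : pos 1 = pos 4 * (x (φ 3))⁻¹ := by rw [h3, mul_inv_cancel_right]
  have w1 : pos 4 = pos 0 * (x (φ 1) * x (φ 4)) := by rw [← mul_assoc, ← h1, h4]
  have w2 : pos 7 = pos 0 * (x (φ 6) * x (φ 9)) := by rw [← mul_assoc, ← h6, h9]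
  have q := quad hX (pos 1 • p) (pos 4 • p) (pos 9 • p) (pos 7 • p)
  rw [dist_base p _ _ _ _ _ k3 h12, dist_base p _ _ _ _ _ w1 w2, dist_base1 p _ _ _ k3,
    dist_base0 p _ _ _ h12, dist_comm (pos 9 • p), dist_base0 p _ _ _ h13, dist_comm (pos 7 • p),
    dist_base0 p _ _ _ h8, mul_smul, mul_smul] at q
  linarith

variable {p x} {D : ℝ} (hD : ∀ c, dist p (x c • p) ≤ D)
include hD

theorem len_inv_le (c : P) : dist p ((x c)⁻¹ • p) ≤ D := (len_inv p _).trans_le (hD c)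

theorem mid_le (g : G) (hg : dist p (g • p) ≤ 2 * D) : dist (pt hX (1 / 2) p (g • p)) p ≤ 2 * D := by
  rw [dist_comm, pt_left hX (by norm_num) (by norm_num)]
  have := dist_nonneg (x := p) (y := g • p)
  linarith

theorem qF_le [Nonempty P] (φ : Fin 21 → P) (i : Fin 11) : dist (qF hX p x φ i) p ≤ 2 * D := by
  have hI := len_inv_le hD
  have hD0 : 0 ≤ D := dist_nonneg.trans (hD (φ 0))
  fin_cases i
  · exact mid_le hX hD _ ((len_mul p _ _).trans (by linarith [hI (φ 0), hD (φ 1)]))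
  · exact mid_le hX hD _ ((len_mul p _ _).trans (by linarith [hI (φ 6), hD (φ 12)]))
  · exact (dist_comm _ _).trans_le ((len_mul p _ _).trans (by linarith [hI (φ 7), hD (φ 6)]))
  · exact mid_le hX hD _ ((len_mul p _ _).trans (by linarith [hI (φ 6), hD (φ 7)]))
  · exact mid_le hX hD _ ((len_mul p _ _).trans (by linarith [hI (φ 0), hD (φ 13)]))
  · exact (dist_comm _ _).trans_le ((len_mul p _ _).trans (by linarith [hI (φ 1), hD (φ 0)]))
  · exact (dist_comm _ _).trans_le ((len_mul p _ _).trans (by linarith [hI (φ 19), hI (φ 18)]))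
  · exact (dist_comm _ _).trans_le ((hI (φ 0)).trans (by linarith))
  · exact (dist_comm _ _).trans_le ((hD (φ 0)).trans (by linarith))
  · exact (dist_comm _ _).trans_le ((hI (φ 6)).trans (by linarith))
  · exact (dist_comm _ _).trans_le ((hD (φ 6)).trans (by linarith))

theorem uF_le (φ : Fin 21 → P) (i : Fin 11) : dist p (uF p x φ i) ≤ D := by
  have hI := len_inv_le hD
  fin_cases i
  · exact hI _
  · exact hD _
  · exact hI _
  · exact hI _
  · exact hD _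
  · exact hI _
  · exact hD _
  · exact hD _
  · exact hD _
  · exact hD _
  · exact hD _

theorem LwF_le [Nonempty P] (φ : Fin 21 → P) (i : Fin 11) : LwF hX p x φ i ≤ 9 * D ^ 2 := by
  have h1 := qF_le hX hD φ i
  have h2 := uF_le hD φ i
  have h3 : dist (qF hX p x φ i) (uF p x φ i) ≤ 3 * D := by
    linarith [dist_triangle (qF hX p x φ i) p (uF p x φ i)]
  have h4 := pow_le_pow_left₀ dist_nonneg h3 2
  have h5 := sq_nonneg (dist (qF hX p x φ i) p)
  unfold LwF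
  nlinarith

theorem pair_le {g h : G} (hg : dist p (g • p) ≤ D) (hh : dist p (h • p) ≤ D) :
    dist (g • p) (h • p) ^ 2 ≤ 4 * D ^ 2 := by
  have h3 : dist (g • p) (h • p) ≤ 2 * D := by linarith [dist_le_len p g h]
  have h4 := pow_le_pow_left₀ dist_nonneg h3 2
  nlinarith

theorem PrF_le (φ : Fin 21 → P) (i : Fin 7) : 0 ≤ PrF p x φ i ∧ PrF p x φ i ≤ 4 * D ^ 2 := by
  have hI := len_inv_le hD
  fin_cases i
  · exact ⟨sq_nonneg _, pair_le hD (hD _) (hD _)⟩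
  · exact ⟨sq_nonneg _, pair_le hD (hD _) (hD _)⟩
  · exact ⟨sq_nonneg _, pair_le hD (hD _) (hD _)⟩
  · exact ⟨sq_nonneg _, pair_le hD (hI _) (hI _)⟩
  · exact ⟨sq_nonneg _, pair_le hD (hI _) (hI _)⟩
  · exact ⟨sq_nonneg _, pair_le hD (hI _) (hI _)⟩
  · exact ⟨sq_nonneg _, pair_le hD (hI _) (hD _)⟩

end Atoms

end Crest.Agent.R196
end

-- ▼ part PVa/R196/Geo
section

/-!
Task R196-G4: the fixed point theorem from the statistics.

Take `p` from `exists_harmonic`, `u c = x c • p`, `E = 𝔼 c, d²(p, u c)`, `A = 𝔼 s, 𝔼 t, d²(u s, u t) ≥ 2 E`.  If `E = 0` then `p` is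
fixed.  Assume `E > 0`.
1. *Boundedness*: `𝒢 = {c | d²(p, u c) ≤ 2 E}` has at least half of the labels (Markov); `Stat.hex` gives
   `d(p, u s) ≤ 5 √(2E)`, i.e. `d² ≤ 50 E` for all `s`.  So a word of length `≤ k` moves `p` by `d² ≤ 50 k² E`.
2. *Corner* (`A ≤ (2 + small) E`): `contr` for `c_s1` with `g₁ φ = x (φ 1)`, `g₂ φ = x (φ 6)`; `lb` for `c_s2` with
   `q φ = (x (φ 3))⁻¹ • p`; for `φ` with `Rel cS cT x φ`, `quad` on the vertices `y, z, R, w` gives
   `d²(x₁x₄p, x₆x₉p) + (d²(q, u (φ 12)) - d²(q, p)) ≤ d²(p, u (φ 12)) + d²(p, u (φ 13)) + d²(p, u (φ 8))`; use `c_u1`, `c_u2`,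
   `c_bad`.
3. *Eta*: define the atoms `Lw`, `Ed`, `Pr` as functions of `φ : Fin 21 → P` by words relative to the vertex `v` in question
   (table below); if `Rel eS eT x φ` with positions `pos`, they equal `Lw hX v`, `Ed v`, `Pr v` for `v i = pos i • p`
   (`pt_smul`, isometries).  Average `point` against `We j k` and over `(j, k)` (`(i, d) ↦ (i, i + d)` is a bijection):
   `(1 - γ) E ∑ α ≤ E ∑ β + A ∑ γ + small`, contradiction.
   `lb` is used with `u` or with `u ∘ σ` (the hypotheses on `u` are invariant under the bijection `σ`):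
   `L1`: `e_sC`, `a = 13`, `u ∘ σ`, `q = mid p (x₀⁻¹ x₁ p)`;  `L2`: `e_s1`, `13`, `u`, `q = mid p (x₁₂ x₆⁻¹ p)`;
   `L3`: `e_sB`, `1`, `u ∘ σ`, `q = x₇⁻¹ x₆ p`;  `L1'`: `e_sB`, `12`, `u ∘ σ`, `q = mid p (x₆⁻¹ x₇ p)`;
   `L2'`: `e_s2`, `12`, `u`, `q = mid p (x₁₃ x₀⁻¹ p)`;  `L3'`: `e_sC`, `7`, `u ∘ σ`, `q = x₁⁻¹ x₀ p`;
   `L4`: `e_s3`, `20`, `u`, `q = x₁₉⁻¹ x₁₈⁻¹ p`;  `T1`: `e_s4`, `3`, `u`, `q = x₀⁻¹ p`;  `T2`: `e_s4`, `1`, `u`, `q = x₀ p`;
   `T1'`: `e_s5`, `9`, `q = x₆⁻¹ p`;  `T2'`: `e_s5`, `7`, `q = x₆ p`   (`xᵢ = x (φ i)`).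
   Pairs: `πρ = d²(x₁₂ p, x₁₃ p)`, `πσ₁ = d²(x₁₄ p, x₁₅ p)`, `ρσ₃ = d²(x₁₆ p, x₁₇ p)`, `ac = d²(x₁₃⁻¹ p, x₀⁻¹ p)`,
   `cβ = d²(x₁⁻¹ p, x₇⁻¹ p)`, `aβ = d²(x₁₂⁻¹ p, x₆⁻¹ p)`, `σ₁w = d²(x₁₈⁻¹ p, x₁₉ p)`; each has uniform average `A`.
-/

set_option autoImplicit false

namespace Crest.Agent.R196

open Crest.Geometry
open scoped BigOperators

universe u

section Main

variable {X : Type u} [MetricSpace X] (hX : IsCAT0Space X) {G P : Type} [Group G] [MulAction G X]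
  [IsIsometricSMul G X] [Fintype P] [Nonempty P] {p : X} {x : P → G} {m : ℕ} [NeZero m]
  {Wc : Fin m → (Fin 15 → P) → ℝ} {We : Fin m → Fin m → (Fin 21 → P) → ℝ} {δ g E D : ℝ}

/-- The conclusion of `lb` for given data. -/
def LB (m : ℕ) (δ g E : ℝ) (p : X) (u : P → X) (V : Type) [Fintype V] [DecidableEq V] : Prop :=
  ∀ (W : Fin m → (V → P) → ℝ) (Z : Finset V) (e e' a : V), Samp W Z e e' δ → a = e ∨ a = e' →
    ∀ q : (V → P) → X, (∀ φ φ', (∀ z ∈ Z, φ z = φ' z) → q φ = q φ') →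
      (∀ φ, dist (q φ) p ^ 2 ≤ 1000 * E) →
      (1 - g) * E ≤ 𝔼 i, 𝔼 φ, W i φ * (dist (q φ) (u (φ a)) ^ 2 - dist (q φ) p ^ 2)

theorem lw_avg (S : Stat Wc We (Rel cS cT x) (Rel eS eT x) (RelH x) δ)
    (hD : ∀ c, dist p (x c • p) ≤ D) (hDE : D ^ 2 = 50 * E) (hE0 : 0 < E)
    (hL1 : LB m δ g E p (fun c => x c • p) (Fin 21))
    (hL2 : LB m δ g E p (fun c => (x c)⁻¹ • p) (Fin 21)) (i : Fin 11) :
    (1 - g) * E ≤ 𝔼 j, 𝔼 k, 𝔼 φ, We j k φ * LwF hX p x φ i := by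
  have hq : ∀ φ i, dist (qF hX p x φ i) p ^ 2 ≤ 1000 * E := fun φ i => by
    have h4 := pow_le_pow_left₀ dist_nonneg (qF_le hX hD φ i) 2
    nlinarith
  fin_cases i
  · exact le_expect_of_forall fun j => hL2 _ _ _ _ 13 (S.e_sC j) (Or.inl rfl)
        (fun φ => pt hX (1 / 2) p (((x (φ 0))⁻¹ * x (φ 1)) • p))
        (fun φ φ' h => by simp only [h 0 (by decide), h 1 (by decide)]) (fun φ => hq φ 0)
  · rw [expect_diag]
    exact le_expect_of_forall fun d => hL1 _ _ _ _ 13 (S.e_s1 d) (Or.inl rfl)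
        (fun φ => pt hX (1 / 2) p ((x (φ 12) * (x (φ 6))⁻¹) • p))
        (fun φ φ' h => by simp only [h 12 (by decide), h 6 (by decide)]) (fun φ => hq φ 1)
  · rw [Finset.expect_comm]
    exact le_expect_of_forall fun k => hL2 _ _ _ _ 1 (S.e_sB k) (Or.inl rfl)
        (fun φ => ((x (φ 7))⁻¹ * x (φ 6)) • p)
        (fun φ φ' h => by simp only [h 7 (by decide), h 6 (by decide)]) (fun φ => hq φ 2)
  · rw [Finset.expect_comm]
    exact le_expect_of_forall fun k => hL2 _ _ _ _ 12 (S.e_sB k) (Or.inr rfl)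
        (fun φ => pt hX (1 / 2) p (((x (φ 6))⁻¹ * x (φ 7)) • p))
        (fun φ φ' h => by simp only [h 6 (by decide), h 7 (by decide)]) (fun φ => hq φ 3)
  · rw [expect_diag]
    exact le_expect_of_forall fun d => hL1 _ _ _ _ 12 (S.e_s2 d) (Or.inl rfl)
        (fun φ => pt hX (1 / 2) p ((x (φ 13) * (x (φ 0))⁻¹) • p))
        (fun φ φ' h => by simp only [h 13 (by decide), h 0 (by decide)]) (fun φ => hq φ 4)
  · exact le_expect_of_forall fun j => hL2 _ _ _ _ 7 (S.e_sC j) (Or.inr rfl)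
        (fun φ => ((x (φ 1))⁻¹ * x (φ 0)) • p)
        (fun φ φ' h => by simp only [h 1 (by decide), h 0 (by decide)]) (fun φ => hq φ 5)
  · rw [expect_diag]
    exact le_expect_of_forall fun d => hL1 _ _ _ _ 20 (S.e_s3 d) (Or.inl rfl)
        (fun φ => ((x (φ 19))⁻¹ * (x (φ 18))⁻¹) • p)
        (fun φ φ' h => by simp only [h 19 (by decide), h 18 (by decide)]) (fun φ => hq φ 6)
  · rw [expect_diag]
    exact le_expect_of_forall fun d => hL1 _ _ _ _ 3 (S.e_s4 d) (Or.inl rfl)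
        (fun φ => (x (φ 0))⁻¹ • p)
        (fun φ φ' h => by simp only [h 0 (by decide)]) (fun φ => hq φ 7)
  · rw [expect_diag]
    exact le_expect_of_forall fun d => hL1 _ _ _ _ 1 (S.e_s4 d) (Or.inr rfl)
        (fun φ => x (φ 0) • p)
        (fun φ φ' h => by simp only [h 0 (by decide)]) (fun φ => hq φ 8)
  · rw [expect_diag]
    exact le_expect_of_forall fun d => hL1 _ _ _ _ 9 (S.e_s5 d) (Or.inl rfl)
        (fun φ => (x (φ 6))⁻¹ • p)
        (fun φ φ' h => by simp only [h 6 (by decide)]) (fun φ => hq φ 9)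
  · rw [expect_diag]
    exact le_expect_of_forall fun d => hL1 _ _ _ _ 7 (S.e_s5 d) (Or.inr rfl)
        (fun φ => x (φ 6) • p)
        (fun φ φ' h => by simp only [h 6 (by decide)]) (fun φ => hq φ 10)

omit [Nonempty P] in
theorem pair_avg (σ : P → P) (hσ : ∀ c, σ (σ c) = c) (hx : ∀ c, x (σ c) = (x c)⁻¹) :
    (𝔼 s, 𝔼 t, dist ((x s)⁻¹ • p) ((x t)⁻¹ • p) ^ 2) = (𝔼 s, 𝔼 t, dist (x s • p) (x t • p) ^ 2) ∧
    (𝔼 s, 𝔼 t, dist ((x s)⁻¹ • p) (x t • p) ^ 2) = 𝔼 s, 𝔼 t, dist (x s • p) (x t • p) ^ 2 := by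
  have e1 : ∀ F : G → ℝ, (𝔼 s, F (x s)⁻¹) = 𝔼 s, F (x s) := fun F =>
    (Fintype.expect_equiv (Function.Involutive.toPerm σ hσ) _ _ fun s => by
      rw [Function.Involutive.coe_toPerm, hx])
  refine ⟨?_, e1 fun g => 𝔼 t, dist (g • p) (x t • p) ^ 2⟩
  rw [e1 fun g => 𝔼 t, dist (g • p) ((x t)⁻¹ • p) ^ 2]
  exact Finset.expect_congr rfl fun s _ => e1 fun g => dist (x s • p) (g • p) ^ 2

theorem pr_avg (S : Stat Wc We (Rel cS cT x) (Rel eS eT x) (RelH x) δ)
    (σ : P → P) (hσ : ∀ c, σ (σ c) = c) (hx : ∀ c, x (σ c) = (x c)⁻¹)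
    (hD : ∀ c, dist p (x c • p) ≤ D) (hDE : D ^ 2 = 50 * E) (hE0 : 0 < E) (j k : Fin m)
    (i : Fin 7) :
    |(𝔼 φ, We j k φ * PrF p x φ i) - 𝔼 s, 𝔼 t, dist (x s • p) (x t • p) ^ 2| ≤ δ * (1000 * E) := by
  have hM : 0 < 1000 * E := by positivity
  have hI := len_inv_le hD
  have hb : ∀ {g h : G}, dist p (g • p) ≤ D → dist p (h • p) ≤ D →
      |dist (g • p) (h • p) ^ 2| ≤ 1000 * E := fun hg hh => by
    rw [abs_of_nonneg (sq_nonneg _)]
    have := pair_le hD hg hh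
    linarith
  obtain ⟨u1, u2, u3, u4, u5, u6, u7⟩ := S.e_u2 j k
  obtain ⟨a1, a2⟩ := pair_avg (p := p) σ hσ hx
  fin_cases i
  · exact u1.scaled (fun s t => dist (x s • p) (x t • p) ^ 2) hM fun s t => hb (hD s) (hD t)
  · exact u2.scaled (fun s t => dist (x s • p) (x t • p) ^ 2) hM fun s t => hb (hD s) (hD t)
  · exact u3.scaled (fun s t => dist (x s • p) (x t • p) ^ 2) hM fun s t => hb (hD s) (hD t)
  · rw [← a1]
    exact u4.scaled (fun s t => dist ((x s)⁻¹ • p) ((x t)⁻¹ • p) ^ 2) hM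
      fun s t => hb (hI s) (hI t)
  · rw [← a1]
    exact u5.scaled (fun s t => dist ((x s)⁻¹ • p) ((x t)⁻¹ • p) ^ 2) hM
      fun s t => hb (hI s) (hI t)
  · rw [← a1]
    exact u6.scaled (fun s t => dist ((x s)⁻¹ • p) ((x t)⁻¹ • p) ^ 2) hM
      fun s t => hb (hI s) (hI t)
  · rw [← a2]
    exact u7.scaled (fun s t => dist ((x s)⁻¹ • p) (x t • p) ^ 2) hM
      fun s t => hb (hI s) (hD t)

omit [IsIsometricSMul G X] [Nonempty P] in
theorem ed_avg {V : Type} [Fintype V] [DecidableEq V] {W : (V → P) → ℝ} {a : V} (h : Unif1 W a δ)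
    (hD : ∀ c, dist p (x c • p) ≤ D) (hDE : D ^ 2 = 50 * E) (hE0 : 0 < E)
    (hE : E = 𝔼 c, dist p (x c • p) ^ 2) :
    |(𝔼 φ, W φ * dist p (x (φ a) • p) ^ 2) - E| ≤ δ * (1000 * E) := by
  have := h.scaled (fun s => dist p (x s • p) ^ 2) (M := 1000 * E) (by positivity) fun s => by
    rw [abs_of_nonneg (sq_nonneg _)]
    have h4 := pow_le_pow_left₀ dist_nonneg (hD s) 2
    linarith
  rwa [← hE] at this

include hX in
theorem corner (S : Stat Wc We (Rel cS cT x) (Rel eS eT x) (RelH x) δ)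
    (hD : ∀ c, dist p (x c • p) ≤ D) (hDE : D ^ 2 = 50 * E) (hE0 : 0 < E)
    (hE : E = 𝔼 c, dist p (x c • p) ^ 2)
    (hL1 : LB m δ g E p (fun c => x c • p) (Fin 15))
    (hC : (𝔼 i, 𝔼 φ, Wc i φ * (dist (x (φ 1) • p) (x (φ 6) • p) ^ 2 -
      dist (x (φ 1) • x (φ 4) • p) (x (φ 6) • x (φ 9) • p) ^ 2)) ≤ g * E) :
    (𝔼 s, 𝔼 t, dist (x s • p) (x t • p) ^ 2) ≤ (2 + 2 * g) * E + 5 * (δ * (1000 * E)) := by
  have hI := len_inv_le hD
  have hM : 0 < 1000 * E := by positivity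
  have hL := hL1 Wc {3} 12 12 12 S.c_s2 (Or.inl rfl) (fun φ => (x (φ 3))⁻¹ • p)
    (fun φ φ' h => by simp only [h 3 (by decide)]) (fun φ => by
      have h4 := pow_le_pow_left₀ dist_nonneg (hI (φ 3)) 2
      rw [dist_comm]
      linarith)
  set A := 𝔼 s, 𝔼 t, dist (x s • p) (x t • p) ^ 2 with hA
  have key : ∀ i, A ≤ (𝔼 φ, Wc i φ * (dist (x (φ 1) • p) (x (φ 6) • p) ^ 2 -
      dist (x (φ 1) • x (φ 4) • p) (x (φ 6) • x (φ 9) • p) ^ 2)) -
      (𝔼 φ, Wc i φ * (dist ((x (φ 3))⁻¹ • p) (x (φ 12) • p) ^ 2 - dist ((x (φ 3))⁻¹ • p) p ^ 2)) +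
      (3 * E + 5 * (δ * (1000 * E))) := by
    intro i
    have b1 := (S.c_u2 i).scaled (fun s t => dist (x s • p) (x t • p) ^ 2) hM fun s t => by
      rw [abs_of_nonneg (sq_nonneg _)]
      have := pair_le hD (hD s) (hD t)
      linarith
    have b2 := ed_avg (S.c_u1 i 12) hD hDE hE0 hE
    have b3 := ed_avg (S.c_u1 i 13) hD hDE hE0 hE
    have b4 := ed_avg (S.c_u1 i 8) hD hDE hE0 hE
    have b5 := bad_le (S.c_nonneg i) (S.c_bad i) (fun φ =>
      dist (x (φ 1) • x (φ 4) • p) (x (φ 6) • x (φ 9) • p) ^ 2 +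
      (dist ((x (φ 3))⁻¹ • p) (x (φ 12) • p) ^ 2 - dist ((x (φ 3))⁻¹ • p) p ^ 2) -
      dist p (x (φ 12) • p) ^ 2 - dist p (x (φ 13) • p) ^ 2 - dist p (x (φ 8) • p) ^ 2) hM.le
      (fun φ h => corner_pt hX p x h) (fun φ => by
        have e1 := pair_le hD (hI (φ 3)) (hD (φ 12))
        have e2 : dist (x (φ 1) • x (φ 4) • p) (x (φ 6) • x (φ 9) • p) ≤ 4 * D := by
          rw [← mul_smul, ← mul_smul]
          linarith [dist_le_len p (x (φ 1) * x (φ 4)) (x (φ 6) * x (φ 9)),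
            len_mul p (x (φ 1)) (x (φ 4)), len_mul p (x (φ 6)) (x (φ 9)), hD (φ 1), hD (φ 4),
            hD (φ 6), hD (φ 9)]
        have e3 := pow_le_pow_left₀ dist_nonneg e2 2
        nlinarith [sq_nonneg (dist ((x (φ 3))⁻¹ • p) p), sq_nonneg (dist p (x (φ 12) • p)),
          sq_nonneg (dist p (x (φ 13) • p)), sq_nonneg (dist p (x (φ 8) • p))])
    simp only [mul_sub, mul_add, Finset.expect_sub_distrib, Finset.expect_add_distrib] at b5 ⊢
    rw [abs_le] at b1 b2 b3 b4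
    linarith [b1.1, b2.2, b3.2, b4.2]
  have h2 := le_expect_of_forall key
  rw [Finset.expect_add_distrib, Finset.expect_sub_distrib, Finset.expect_const Finset.univ_nonempty]
    at h2
  linarith

theorem eta (S : Stat Wc We (Rel cS cT x) (Rel eS eT x) (RelH x) δ)
    (σ : P → P) (hσ : ∀ c, σ (σ c) = c) (hx : ∀ c, x (σ c) = (x c)⁻¹)
    (hD : ∀ c, dist p (x c • p) ≤ D) (hDE : D ^ 2 = 50 * E) (hE0 : 0 < E)
    (hE : E = 𝔼 c, dist p (x c • p) ^ 2) {α : Fin 11 → ℝ} {β : Fin 21 → ℝ} {γ : Fin 7 → ℝ}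
    (hα : ∀ i, 0 ≤ α i)
    (hpt : ∀ v : Fin 14 → X, ∑ i, α i * Lw hX v i ≤ ∑ i, β i * Ed v i + ∑ i, γ i * Pr v i)
    {η : ℝ} (hη : |(𝔼 s, 𝔼 t, dist (x s • p) (x t • p) ^ 2) - 2 * E| ≤ η) (j k : Fin m) :
    ∑ i, α i * (𝔼 φ, We j k φ * LwF hX p x φ i) ≤ (∑ i, β i) * E + (∑ i, γ i) * (2 * E) +
      (∑ i, α i + ∑ i, |β i| + ∑ i, |γ i|) * (2 * (δ * (1000 * E)) + η) := by
  have hM : 0 < 1000 * E := by positivity
  have hη0 : 0 ≤ η := (abs_nonneg _).trans hη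
  have ha0 : 0 ≤ ∑ i, α i := Finset.sum_nonneg fun i _ => hα i
  have hb0 : 0 ≤ ∑ i, |β i| := Finset.sum_nonneg fun i _ => abs_nonneg _
  have hc0 : 0 ≤ ∑ i, |γ i| := Finset.sum_nonneg fun i _ => abs_nonneg _
  have hδ : 0 ≤ δ * (1000 * E) := (abs_nonneg _).trans (ed_avg (S.e_u1 j k 0) hD hDE hE0 hE)
  have b5 := bad_le (S.e_nonneg j k) (S.e_bad j k) (fun φ => ∑ i, α i * LwF hX p x φ i -
      ∑ i, β i * dist p (x (φ i) • p) ^ 2 - ∑ i, γ i * PrF p x φ i)
    (M := (∑ i, α i + ∑ i, |β i| + ∑ i, |γ i|) * (1000 * E)) (by positivity)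
    (fun φ h => by
      obtain ⟨v, h1, h2, h3⟩ := atoms hX p x h
      have := hpt v
      simp only [h1, h2, h3] at this
      linarith)
    (fun φ => by
      have e1 : ∑ i, α i * LwF hX p x φ i ≤ (∑ i, α i) * (1000 * E) := by
        rw [Finset.sum_mul]
        refine Finset.sum_le_sum fun i _ => mul_le_mul_of_nonneg_left ?_ (hα i)
        have := LwF_le hX hD φ i
        linarith
      have e2 : -∑ i, β i * dist p (x (φ i) • p) ^ 2 ≤ (∑ i, |β i|) * (1000 * E) := by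
        rw [Finset.sum_mul, ← Finset.sum_neg_distrib]
        refine Finset.sum_le_sum fun i _ => ?_
        have h4 := pow_le_pow_left₀ dist_nonneg (hD (φ i)) 2
        rw [← neg_mul]
        exact mul_le_mul (neg_le_abs _) (by linarith) (sq_nonneg _) (abs_nonneg _)
      have e3 : -∑ i, γ i * PrF p x φ i ≤ (∑ i, |γ i|) * (1000 * E) := by
        rw [Finset.sum_mul, ← Finset.sum_neg_distrib]
        refine Finset.sum_le_sum fun i _ => ?_
        obtain ⟨h4, h5⟩ := PrF_le hD φ i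
        rw [← neg_mul]
        exact mul_le_mul (neg_le_abs _) (by linarith) h4 (abs_nonneg _)
      linarith)
  have lin : ∀ {n : ℕ} (c : Fin n → ℝ) (F : (Fin 21 → P) → Fin n → ℝ),
      (𝔼 φ, We j k φ * ∑ i, c i * F φ i) = ∑ i, c i * 𝔼 φ, We j k φ * F φ i := by
    intro n c F
    simp only [Finset.mul_sum, Finset.mul_expect]
    rw [Finset.expect_sum_comm]
    exact Finset.sum_congr rfl fun i _ => Finset.expect_congr rfl fun φ _ => by ring
  simp only [mul_sub, Finset.expect_sub_distrib] at b5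
  rw [lin α (fun φ i => LwF hX p x φ i), lin β (fun φ i => dist p (x (φ i) • p) ^ 2),
    lin γ (fun φ i => PrF p x φ i)] at b5
  have e2 : ∑ i, β i * (𝔼 φ, We j k φ * dist p (x (φ i) • p) ^ 2) ≤
      (∑ i, β i) * E + (∑ i, |β i|) * (δ * (1000 * E)) := by
    rw [Finset.sum_mul, Finset.sum_mul, ← Finset.sum_add_distrib]
    refine Finset.sum_le_sum fun i _ => ?_
    have h1 := ed_avg (S.e_u1 j k i) hD hDE hE0 hE
    have h2 := mul_le_mul_of_nonneg_left h1 (abs_nonneg (β i))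
    rw [← abs_mul] at h2
    have h3 := le_abs_self (β i * ((𝔼 φ, We j k φ * dist p (x (φ i) • p) ^ 2) - E))
    linarith
  have e3 : ∑ i, γ i * (𝔼 φ, We j k φ * PrF p x φ i) ≤
      (∑ i, γ i) * (2 * E) + (∑ i, |γ i|) * (δ * (1000 * E) + η) := by
    rw [Finset.sum_mul, Finset.sum_mul, ← Finset.sum_add_distrib]
    refine Finset.sum_le_sum fun i _ => ?_
    have h0 := pr_avg S σ hσ hx hD hDE hE0 j k i
    have h1 : |(𝔼 φ, We j k φ * PrF p x φ i) - 2 * E| ≤ δ * (1000 * E) + η :=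
      (abs_sub_le _ _ _).trans (add_le_add h0 hη)
    have h2 := mul_le_mul_of_nonneg_left h1 (abs_nonneg (γ i))
    rw [← abs_mul] at h2
    have h3 := le_abs_self (γ i * ((𝔼 φ, We j k φ * PrF p x φ i) - 2 * E))
    linarith
  nlinarith [mul_nonneg ha0 hδ, mul_nonneg ha0 hη0, mul_nonneg hb0 hη0, mul_nonneg hb0 hδ,
    mul_nonneg hc0 hδ]

end Main

theorem geo : ∃ (m : ℕ) (_ : NeZero m) (δ : ℝ), 0 < δ ∧
    ∀ {G P : Type} [Group G] [Fintype P] [Nonempty P] (σ : P → P) (x : P → G),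
      (∀ c, σ (σ c) = c) → (∀ c, x (σ c) = (x c)⁻¹) →
      ∀ (Wc : Fin m → (Fin 15 → P) → ℝ) (We : Fin m → Fin m → (Fin 21 → P) → ℝ),
        Stat Wc We (Rel cS cT x) (Rel eS eT x) (RelH x) δ →
        ∀ (X : Type u) [MetricSpace X] [ProperSpace X] [Nonempty X] [MulAction G X],
          IsCAT0Space X → IsGeometricAction G X → ∃ p : X, ∀ c, x c • p = p := by
  obtain ⟨α, β, γ, hα, hsum, hpt⟩ := point.{u}
  set C : ℝ := ∑ i, α i + ∑ i, |β i| + ∑ i, |γ i| with hC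
  have ha0 : 0 ≤ ∑ i, α i := Finset.sum_nonneg fun i _ => hα i
  have hb0 : 0 ≤ ∑ i, |β i| := Finset.sum_nonneg fun i _ => abs_nonneg _
  have hc0 : 0 ≤ ∑ i, |γ i| := Finset.sum_nonneg fun i _ => abs_nonneg _
  have hC0 : 0 ≤ C := by positivity
  set g : ℝ := 1 / (200 * (C + 1)) with hg
  have hg0 : 0 < g := by positivity
  have hgC : C * g ≤ 1 / 200 := by
    rw [hg, mul_one_div, div_le_div_iff₀ (by positivity) (by norm_num)]
    linarith
  obtain ⟨m₁, δ₁, hδ₁, hlb⟩ := lb.{u} 1000 g (by norm_num) hg0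
  obtain ⟨m₂, δ₂, hδ₂, hco⟩ := contr.{u} 1000 g (by norm_num) hg0
  refine ⟨m₁ + m₂ + 1, ⟨by omega⟩, min (min δ₁ δ₂) (g / 4000), by positivity, ?_⟩
  set δ := min (min δ₁ δ₂) (g / 4000) with hδ
  have hδ0 : 0 < δ := by positivity
  have hd1 : δ ≤ δ₁ := (min_le_left _ _).trans (min_le_left _ _)
  have hd2 : δ ≤ δ₂ := (min_le_left _ _).trans (min_le_right _ _)
  have hd3 : δ ≤ g / 4000 := min_le_right _ _
  intro G P _ _ _ σ x hσ hx Wc We S X _ _ _ _ hX hG
  haveI := hG.1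
  obtain ⟨p, hv⟩ := exists_harmonic hX hG σ hσ x hx
  refine ⟨p, ?_⟩
  set E := 𝔼 c, dist p (x c • p) ^ 2 with hE
  have hEn : 0 ≤ E := Finset.expect_nonneg fun _ _ => sq_nonneg _
  rcases hEn.eq_or_lt with h0 | hE0
  · intro c
    have := (Finset.expect_eq_zero_iff_of_nonneg (s := Finset.univ)
      (f := fun c => dist p (x c • p) ^ 2) fun _ _ => sq_nonneg _).1 h0.symm c (Finset.mem_univ c)
    exact (dist_eq_zero.1 ((pow_eq_zero_iff two_ne_zero).1 this)).symm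
  exfalso
  have hD := bounded p x hE0 hE S.hex
  have hDE : (5 * √(2 * E)) ^ 2 = 50 * E := by
    rw [mul_pow, Real.sq_sqrt (by positivity)]
    ring
  set D := 5 * √(2 * E)
  have hI := len_inv_le hD
  have e1 : ∀ F : G → ℝ, (𝔼 s, F (x s)⁻¹) = 𝔼 s, F (x s) := fun F =>
    (Fintype.expect_equiv (Function.Involutive.toPerm σ hσ) _ _ fun s => by
      rw [Function.Involutive.coe_toPerm, hx])
  have hb1 : ∀ c, dist p (x c • p) ^ 2 ≤ 1000 * E := fun c => by
    have h4 := pow_le_pow_left₀ dist_nonneg (hD c) 2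
    linarith
  have hb2 : ∀ c, dist p ((x c)⁻¹ • p) ^ 2 ≤ 1000 * E := fun c => by
    have h4 := pow_le_pow_left₀ dist_nonneg (hI c) 2
    linarith
  have hL1 : LB (m₁ + m₂ + 1) δ g E p (fun c => x c • p) (Fin 21) :=
    hlb _ (by omega) δ hd1 hX p (fun c => x c • p) E hE hv hb1
  have hL1' : LB (m₁ + m₂ + 1) δ g E p (fun c => x c • p) (Fin 15) :=
    hlb _ (by omega) δ hd1 hX p (fun c => x c • p) E hE hv hb1
  have hL2 : LB (m₁ + m₂ + 1) δ g E p (fun c => (x c)⁻¹ • p) (Fin 21) :=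
    hlb _ (by omega) δ hd1 hX p (fun c => (x c)⁻¹ • p) E
      (hE.trans (e1 fun g => dist p (g • p) ^ 2).symm)
      (fun q => (hv q).trans_eq (e1 fun g => dist q (g • p) ^ 2).symm) hb2
  have hCo := hco _ (by omega) δ hd2 hX p (fun c => x c • p) E hE hv hb1 Wc {1, 6} 4 9 S.c_s1
    (fun φ => x (φ 1)) (fun φ => x (φ 6))
    (fun φ φ' h => by simp only [h 1 (by decide), h 6 (by decide), and_self]) (fun φ => by
      have := pair_le hD (hD (φ 1)) (hD (φ 6))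
      linarith)
  have hA1 := corner hX S hD hDE hE0 hE hL1' hCo
  have hA2 : 2 * E ≤ 𝔼 s, 𝔼 t, dist (x s • p) (x t • p) ^ 2 := by
    have h1 : (𝔼 s, (dist p (x s • p) ^ 2 + E)) ≤ 𝔼 s, 𝔼 t, dist (x s • p) (x t • p) ^ 2 :=
      Finset.expect_le_expect fun s _ => by
        rw [dist_comm p]
        exact hv (x s • p)
    rw [Finset.expect_add_distrib, Finset.expect_const Finset.univ_nonempty, ← hE] at h1
    linarith
  have hη : |(𝔼 s, 𝔼 t, dist (x s • p) (x t • p) ^ 2) - 2 * E| ≤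
      2 * g * E + 5 * (δ * (1000 * E)) := by
    rw [abs_of_nonneg (by linarith)]
    linarith
  have h1 := expect_le_of_forall fun j => expect_le_of_forall fun k =>
    eta hX S σ hσ hx hD hDE hE0 hE hα (hpt hX) hη j k
  have h2 : (∑ i, α i) * ((1 - g) * E) ≤
      𝔼 j, 𝔼 k, ∑ i, α i * (𝔼 φ, We j k φ * LwF hX p x φ i) := by
    simp only [Finset.expect_sum_comm, ← Finset.mul_expect]
    rw [Finset.sum_mul]
    exact Finset.sum_le_sum fun i _ =>
      mul_le_mul_of_nonneg_left (lw_avg hX S hD hDE hE0 hL1 hL2 i) (hα i)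
  have h3 := h2.trans h1
  rw [← hC] at h3
  have h4 : C * (δ * 1000) ≤ 1 / 800 := by
    have := mul_le_mul_of_nonneg_left hd3 hC0
    nlinarith
  have h5 : (∑ i, α i) * g ≤ 1 / 200 := by
    have : ∑ i, α i ≤ C := by rw [hC]; linarith
    nlinarith
  have h6 := mul_le_mul_of_nonneg_right hsum hE0.le
  have h7 := mul_le_mul_of_nonneg_right h4 hE0.le
  have h8 := mul_le_mul_of_nonneg_right h5 hE0.le
  have h9 := mul_le_mul_of_nonneg_right hgC hE0.le
  nlinarith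

end Crest.Agent.R196
end

-- ▼ part PVa/R177/Hyp

/-!
Task R177-H: a linear isoperimetric inequality for `𝔽₂`-chains implies word-hyperbolicity.

Proof (Besicovitch lemma + doubling).
* `area`: a loop made of four paths `A B C D`, two `1`-Lipschitz functions `ρ, f` with `f = 0` on `A`,
  `ρ ≥ p` on `B`, `f ≥ q` on `C`, `ρ = 0` on `D`: then `p q ≤ C * perimeter`.
* `Bad R m`: a quadruple in a ball of radius `R` with four-point defect at least `m`.  If `m` is large,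
  `Bad R m → Bad (2 R) (4 m)`: otherwise the four legs of the quadrilateral can be cut by shortcuts of length
  `≤ 8 m`, and `area` gives a contradiction.  As `Bad R m → m ≤ 4 R`, the defect is bounded.
-/

set_option autoImplicit false

namespace Crest.Agent.R177

namespace Hyp

open Crest.GroupTheory

variable {G L : Type} [Group G] (x : L → G)

/-- word metric -/
noncomputable def d (g h : G) : ℕ := wordLength (Set.range x) (g⁻¹ * h)

/-- all vertices of the path satisfy `Q` -/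
def Pth (Q : G → Prop) : G → List L → Prop
  | u, [] => Q u
  | u, a :: w => Q u ∧ Pth Q (u * x a) w

/-- there is a short path inside `Q` -/
def Conn (Q : G → Prop) (n : ℕ) (u v : G) : Prop :=
  ∃ w : List L, w.length ≤ n ∧ u * (w.map x).prod = v ∧ Pth x Q u w

variable {x}

theorem Pth.head {Q : G → Prop} {u : G} {w : List L} (h : Pth x Q u w) : Q u := by
  cases w with
  | nil => exact h
  | cons a w => exact h.1

theorem Pth.mono {Q Q' : G → Prop} (hQ : ∀ v, Q v → Q' v) {w : List L} :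
    ∀ {u : G}, Pth x Q u w → Pth x Q' u w := by
  induction w with
  | nil => exact fun h => hQ _ h
  | cons a w ih => exact fun h => ⟨hQ _ h.1, ih h.2⟩

theorem Pth.append {Q : G → Prop} {w w' : List L} :
    ∀ {u : G}, Pth x Q u w → Pth x Q (u * (w.map x).prod) w' → Pth x Q u (w ++ w') := by
  induction w with
  | nil => intro u _ h; simpa using h
  | cons a w ih =>
    intro u h h'
    refine ⟨h.1, ih h.2 ?_⟩
    simpa [mul_assoc] using h'

theorem Conn.mono {Q Q' : G → Prop} {n n' : ℕ} {u v : G} (h : Conn x Q n u v)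
    (hQ : ∀ v, Q v → Q' v) (hn : n ≤ n') : Conn x Q' n' u v := by
  obtain ⟨w, h1, h2, h3⟩ := h
  exact ⟨w, h1.trans hn, h2, h3.mono hQ⟩

theorem Conn.trans {Q : G → Prop} {n n' : ℕ} {u v z : G} (h : Conn x Q n u v)
    (h' : Conn x Q n' v z) : Conn x Q (n + n') u z := by
  obtain ⟨w, h1, h2, h3⟩ := h
  obtain ⟨w', h1', h2', h3'⟩ := h'
  refine ⟨w ++ w', by simp; omega, ?_, h3.append (h2 ▸ h3')⟩
  rw [List.map_append, List.prod_append, ← mul_assoc, h2, h2']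

theorem d_le {g h : G} {w : List L} (H : g * (w.map x).prod = h) : d x g h ≤ w.length := by
  apply Nat.sInf_le
  refine ⟨w.map x, by simp, ?_, ?_⟩
  · intro y hy
    obtain ⟨a, -, rfl⟩ := List.mem_map.1 hy
    exact Or.inl ⟨a, rfl⟩
  · rw [← H]; simp

theorem d_step (g : G) (a : L) : d x g (g * x a) ≤ 1 := d_le (w := [a]) (by simp)

theorem d_self (g : G) : d x g g = 0 := Nat.le_zero.1 (d_le (w := []) (by simp))

theorem pathSum_append {M : Type} [AddCommMonoid M] (ξ : G × L → M) (w w' : List L) :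
    ∀ g : G, pathSum x ξ g (w ++ w') =
      pathSum x ξ g w + pathSum x ξ (g * (w.map x).prod) w' := by
  induction w with
  | nil => intro g; simp [pathSum]
  | cons a w ih => intro g; simp [pathSum, ih, add_assoc, mul_assoc]

theorem pathSum_translate {M : Type} [AddCommMonoid M] (ξ : G × L → M) (g0 : G) (w : List L) :
    ∀ g : G, pathSum x (fun e => ξ (g0 * e.1, e.2)) g w = pathSum x ξ (g0 * g) w := by
  induction w with
  | nil => intro g; rfl
  | cons a w ih => intro g; simp only [pathSum, ih, mul_assoc]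

/-- the test cochain -/
def E (ρ f : G → ℕ) (s t : ℕ) (u v : G) : ZMod 2 :=
  if ¬ (ρ u ≤ s ↔ ρ v ≤ s) ∧ f u ≤ t ∧ f v ≤ t then 1 else 0

theorem E_symm (ρ f : G → ℕ) (s t : ℕ) (u v : G) : E ρ f s t u v = E ρ f s t v u := by
  unfold E
  congr 1
  exact propext ⟨by tauto, by tauto⟩

theorem pathSum_zero {ξ : G × L → ZMod 2} {Q : G → Prop}
    (hQ : ∀ u a, Q u → Q (u * x a) → ξ (u, a) = 0) {w : List L} :
    ∀ {u : G}, Pth x Q u w → pathSum x ξ u w = 0 := by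
  induction w with
  | nil => intro u _; rfl
  | cons a w ih => intro u h; rw [pathSum, ih h.2, hQ u a h.1 h.2.head, add_zero]

theorem pathSum_A (ρ f : G → ℕ) (s t : ℕ) {w : List L} :
    ∀ {u : G}, Pth x (fun v => f v = 0) u w →
      pathSum x (fun e => E ρ f s t e.1 (e.1 * x e.2)) u w =
        (if ρ u ≤ s then 1 else 0) + (if ρ (u * (w.map x).prod) ≤ s then 1 else 0) := by
  induction w with
  | nil =>
    intro u _
    simp only [pathSum, List.map_nil, List.prod_nil, mul_one]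
    split_ifs <;> decide
  | cons a w ih =>
    intro u h
    have h1 : f u = 0 := h.1
    have h2 : f (u * x a) = 0 := h.2.head
    rw [pathSum, ih h.2, List.map_cons, List.prod_cons, ← mul_assoc]
    simp only [E, h1, h2, zero_le, and_true]
    by_cases a1 : ρ u ≤ s <;> by_cases a2 : ρ (u * x a) ≤ s <;>
      by_cases a3 : ρ (u * x a * (w.map x).prod) ≤ s <;> simp [a1, a2, a3] <;> decide

theorem tri (ρ f : G → ℕ) (s t : ℕ) (u v z : G)
    (h1 : ρ u ≤ ρ v + 1 ∧ ρ v ≤ ρ u + 1) (h2 : ρ v ≤ ρ z + 1 ∧ ρ z ≤ ρ v + 1)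
    (h3 : ρ z ≤ ρ u + 1 ∧ ρ u ≤ ρ z + 1)
    (k1 : f u ≤ f v + 1 ∧ f v ≤ f u + 1) (k2 : f v ≤ f z + 1 ∧ f z ≤ f v + 1)
    (k3 : f z ≤ f u + 1 ∧ f u ≤ f z + 1)
    (H : E ρ f s t u v + E ρ f s t v z + E ρ f s t z u ≠ 0) :
    min (ρ u) (min (ρ v) (ρ z)) = s ∧ min (f u) (min (f v) (f z)) = t := by
  unfold E at H
  by_cases a1 : ρ u ≤ s <;> by_cases a2 : ρ v ≤ s <;> by_cases a3 : ρ z ≤ s <;>
    by_cases b1 : f u ≤ t <;> by_cases b2 : f v ≤ t <;> by_cases b3 : f z ≤ t <;>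
    simp only [a1, a2, a3, b1, b2, b3] at H <;>
    first
      | exact absurd (by decide) H
      | (constructor <;> omega)

theorem area {inv : L → L} (hx : ∀ a, x (inv a) = (x a)⁻¹) {C : ℕ} (hC : ChainIso x inv C)
    (ρ f : G → ℕ) (hρ : ∀ g a, ρ g ≤ ρ (g * x a) + 1 ∧ ρ (g * x a) ≤ ρ g + 1)
    (hf : ∀ g a, f g ≤ f (g * x a) + 1 ∧ f (g * x a) ≤ f g + 1) {p q n1 n2 n3 n4 : ℕ}
    {v1 v2 v3 v4 : G} (hA : Conn x (fun v => f v = 0) n1 v1 v2)
    (hB : Conn x (fun v => p ≤ ρ v) n2 v2 v3) (hC' : Conn x (fun v => q ≤ f v) n3 v3 v4)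
    (hD : Conn x (fun v => ρ v = 0) n4 v4 v1) (h1 : ρ v1 = 0) :
    p * q ≤ C * (n1 + n2 + n3 + n4) := by
  classical
  obtain ⟨w1, l1, e1, p1⟩ := hA
  obtain ⟨w2, l2, e2, p2⟩ := hB
  obtain ⟨w3, l3, e3, p3⟩ := hC'
  obtain ⟨w4, l4, e4, p4⟩ := hD
  obtain ⟨T, hT1, hT2, hT3⟩ := hC (w1 ++ (w2 ++ (w3 ++ w4))) (by
    apply mul_left_cancel (a := v1)
    simp only [List.map_append, List.prod_append, ← mul_assoc, e1, e2, e3, e4, mul_one])
  let key : G × L × L × L → ℕ × ℕ := fun t =>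
    (min (ρ (v1 * t.1)) (min (ρ (v1 * t.1 * x t.2.1)) (ρ (v1 * t.1 * x t.2.1 * x t.2.2.1))),
      min (f (v1 * t.1)) (min (f (v1 * t.1 * x t.2.1)) (f (v1 * t.1 * x t.2.1 * x t.2.2.1))))
  have hsub : Finset.range p ×ˢ Finset.range q ⊆ (T.map key).toFinset := by
    rintro ⟨s, t⟩ hst
    simp only [Finset.mem_product, Finset.mem_range] at hst
    obtain ⟨hs, ht⟩ := hst
    let ξ : G × L → ZMod 2 := fun e => E ρ f s t e.1 (e.1 * x e.2)
    have h2 := hT3 (fun e => ξ (v1 * e.1, e.2)) (by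
      intro g a
      simp only [ξ, hx, mul_assoc, mul_inv_cancel, mul_one]
      exact E_symm _ _ _ _ _ _)
    rw [pathSum_translate, mul_one, pathSum_append, pathSum_append, pathSum_append, e1, e2, e3,
      pathSum_A ρ f s t p1, pathSum_zero _ p2, pathSum_zero _ p3, pathSum_zero _ p4, e1,
      if_pos (by omega), if_neg (by have := p2.head; omega)] at h2
    rotate_left
    · intro u a h h'
      simp only [ξ, E]; rw [if_neg]; omega
    · intro u a h h'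
      simp only [ξ, E]; rw [if_neg]; omega
    · intro u a h h'
      simp only [ξ, E]; rw [if_neg]; omega
    by_contra hn
    rw [List.sum_eq_zero] at h2
    · revert h2; decide
    · intro y hy
      obtain ⟨tt, htt, rfl⟩ := List.mem_map.1 hy
      by_contra hne
      apply hn
      rw [List.mem_toFinset, List.mem_map]
      refine ⟨tt, htt, ?_⟩
      have e : v1 * tt.1 * x tt.2.1 * x tt.2.2.1 * x tt.2.2.2 = v1 * tt.1 := by
        rw [mul_assoc (v1 * tt.1), mul_assoc (v1 * tt.1), hT2 tt htt, mul_one]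
      have r3 := hρ (v1 * tt.1 * x tt.2.1 * x tt.2.2.1) tt.2.2.2
      have f3 := hf (v1 * tt.1 * x tt.2.1 * x tt.2.2.1) tt.2.2.2
      rw [e] at r3 f3
      have := tri ρ f s t _ _ _ (hρ (v1 * tt.1) tt.2.1) (hρ _ tt.2.2.1) r3
        (hf (v1 * tt.1) tt.2.1) (hf _ tt.2.2.1) f3 (by
          simp only [ξ, ← mul_assoc, e] at hne
          exact hne)
      exact Prod.ext this.1 this.2
  have h3 := Finset.card_le_card hsub
  rw [Finset.card_product, Finset.card_range, Finset.card_range] at h3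
  refine h3.trans ((List.toFinset_card_le _).trans ?_)
  rw [List.length_map]
  refine hT1.trans (Nat.mul_le_mul_left _ ?_)
  simp only [List.length_append]
  omega

section metric
variable {inv : L → L} (hx : ∀ a, x (inv a) = (x a)⁻¹)
  (hgen : Subgroup.closure (Set.range x) = ⊤)
include hx

theorem prod_rev (w : List L) : ((w.reverse.map inv).map x).prod = ((w.map x).prod)⁻¹ := by
  induction w with
  | nil => simp
  | cons a w ih =>
    rw [List.reverse_cons, List.map_append, List.map_append, List.prod_append, ih]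
    simp [hx]

include hgen

theorem exists_word (g h : G) : ∃ w : List L, w.length = d x g h ∧ g * (w.map x).prod = h := by
  have hne : {n : ℕ | ∃ l : List G, l.length = n ∧
      (∀ y ∈ l, y ∈ Set.range x ∨ y⁻¹ ∈ Set.range x) ∧ l.prod = g⁻¹ * h}.Nonempty := by
    have : ∀ k ∈ Subgroup.closure (Set.range x), ∃ w : List L, (w.map x).prod = k := by
      intro k hk
      induction hk using Subgroup.closure_induction with
      | mem y hy => obtain ⟨a, rfl⟩ := hy; exact ⟨[a], by simp⟩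
      | one => exact ⟨[], rfl⟩
      | mul a b _ _ ha hb =>
        obtain ⟨w, rfl⟩ := ha
        obtain ⟨w', rfl⟩ := hb
        exact ⟨w ++ w', by simp⟩
      | inv a _ ha =>
        obtain ⟨w, rfl⟩ := ha
        exact ⟨_, prod_rev hx w⟩
    obtain ⟨w, hw⟩ := this (g⁻¹ * h) (hgen ▸ Subgroup.mem_top _)
    refine ⟨_, w.map x, rfl, ?_, hw⟩
    intro y hy
    obtain ⟨a, -, rfl⟩ := List.mem_map.1 hy
    exact Or.inl ⟨a, rfl⟩
  obtain ⟨l, h1, h2, h3⟩ := Nat.sInf_mem hne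
  have : ∃ w : List L, w.map x = l := by
    clear h1 h3
    induction l with
    | nil => exact ⟨[], rfl⟩
    | cons y l ih =>
      obtain ⟨w, rfl⟩ := ih (fun z hz => h2 z (List.mem_cons_of_mem _ hz))
      rcases h2 y List.mem_cons_self with ⟨a, rfl⟩ | ⟨a, ha⟩
      · exact ⟨a :: w, rfl⟩
      · exact ⟨inv a :: w, by simp [hx, ha]⟩
  obtain ⟨w, rfl⟩ := this
  refine ⟨w, ?_, by rw [h3]; simp⟩
  rw [List.length_map] at h1
  exact h1

theorem d_tri (g h k : G) : d x g k ≤ d x g h + d x h k := by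
  obtain ⟨w, h1, h2⟩ := exists_word hx hgen g h
  obtain ⟨w', h1', h2'⟩ := exists_word hx hgen h k
  rw [← h1, ← h1', ← List.length_append]
  apply d_le
  rw [List.map_append, List.prod_append, ← mul_assoc, h2, h2']

theorem d_comm (g h : G) : d x g h = d x h g := by
  have : ∀ g h : G, d x h g ≤ d x g h := by
    intro g h
    obtain ⟨w, h1, h2⟩ := exists_word hx hgen g h
    have := d_le (x := x) (g := h) (h := g) (w := w.reverse.map inv) (by
      rw [prod_rev hx, ← h2]; simp)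
    simpa [h1] using this
  exact le_antisymm (this _ _) (this _ _)

theorem d_lip (v g : G) (a : L) :
    d x v g ≤ d x v (g * x a) + 1 ∧ d x v (g * x a) ≤ d x v g + 1 := by
  have h1 := d_step (x := x) g a
  have h2 := d_tri hx hgen v g (g * x a)
  have h3 := d_tri hx hgen v (g * x a) g
  have h4 := d_comm hx hgen g (g * x a)
  omega

theorem geod (g h : G) : Conn x (fun v => d x g v + d x v h ≤ d x g h) (d x g h) g h := by
  have : ∀ (w : List L) (u : G), u * (w.map x).prod = h → d x g u + w.length ≤ d x g h →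
      Pth x (fun v => d x g v + d x v h ≤ d x g h) u w := by
    intro w
    induction w with
    | nil =>
      intro u h1 h2
      have := d_le h1
      simp only [Pth, List.length_nil] at *
      omega
    | cons a w ih =>
      intro u h1 h2
      have h3 := d_le h1
      have h4 := d_lip hx hgen g u a
      simp only [List.length_cons] at h2 h3
      refine ⟨by omega, ih _ ?_ (by omega)⟩
      simpa [mul_assoc] using h1
  obtain ⟨w, h1, h2⟩ := exists_word hx hgen g h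
  exact ⟨w, h1.le, h2, this w g h2 (by rw [d_self]; omega)⟩

theorem exists_point (g h : G) {r : ℕ} (hr : r ≤ d x g h) :
    ∃ m, d x g m = r ∧ r + d x m h = d x g h := by
  obtain ⟨w, h1, h2⟩ := exists_word hx hgen g h
  refine ⟨g * ((w.take r).map x).prod, ?_⟩
  have a1 := d_le (x := x) (g := g) (w := w.take r) rfl
  have a2 := d_le (x := x) (g := g * ((w.take r).map x).prod) (h := h) (w := w.drop r) (by
    rw [mul_assoc, ← List.prod_append, ← List.map_append, List.take_append_drop, h2])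
  have a3 := d_tri hx hgen g (g * ((w.take r).map x).prod) h
  rw [List.length_take] at a1
  rw [List.length_drop] at a2
  omega

theorem two_points (g h : G) {r r' : ℕ} (hr : r + r' ≤ d x g h) :
    ∃ m m', d x g m = r ∧ d x h m' = r' ∧ r + d x m m' + r' = d x g h := by
  obtain ⟨m, h1, h2⟩ := exists_point hx hgen g h (r := r) (by omega)
  obtain ⟨m', h3, h4⟩ := exists_point hx hgen m h (r := d x m h - r') (by omega)
  have := d_comm hx hgen h m'
  exact ⟨m, m', h1, by omega, by omega⟩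

end metric

theorem exists_r {X Y : ℕ} (h : X ≤ Y) (Δ : ℕ) :
    ∃ r, 2 * r + X ≤ Y ∧ (r = 0 ∨ 2 * r + 4 * Δ + X ≤ Y) ∧ Y ≤ 2 * r + X + 4 * Δ + 1 :=
  ⟨(Y - X) / 2 - 2 * Δ, by omega, by omega, by omega⟩

theorem arith {P Q C n m : ℕ} (key : P / 2 * (Q / 2) ≤ C * n) (hm : 600 * C + 2 ≤ m) (hP : m ≤ P)
    (hQ : m ≤ Q) (hn : n ≤ P + Q + 96 * m + 4) : False := by
  have hp1 : 300 * C + 1 ≤ P / 2 := by omega
  have hq1 : 300 * C + 1 ≤ Q / 2 := by omega
  rcases le_total (P / 2) (Q / 2) with hpq | hpq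
  · have h1 : n ≤ 300 * (Q / 2) := by omega
    have h2 := Nat.mul_le_mul_left C h1
    have h3 := Nat.mul_le_mul_right (Q / 2) hp1
    have h4 : 1 ≤ Q / 2 := by omega
    generalize Q / 2 = q at *
    nlinarith
  · have h1 : n ≤ 300 * (P / 2) := by omega
    have h2 := Nat.mul_le_mul_left C h1
    have h3 := Nat.mul_le_mul_left (P / 2) hq1
    have h4 : 1 ≤ P / 2 := by omega
    generalize P / 2 = q at *
    nlinarith

variable (x) in
/-- a quadruple in a ball of radius `R` with defect at least `m` -/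
def Bad (R m : ℕ) : Prop :=
  ∃ o a b c e : G, d x o a ≤ R ∧ d x o b ≤ R ∧ d x o c ≤ R ∧ d x o e ≤ R ∧
    d x a b + d x c e + m ≤ d x a c + d x b e ∧ d x b c + d x a e + m ≤ d x a c + d x b e

section main
variable {inv : L → L} (hx : ∀ a, x (inv a) = (x a)⁻¹)
  (hgen : Subgroup.closure (Set.range x) = ⊤)
include hx hgen

theorem Bad.le {R m : ℕ} (h : Bad x R m) : m ≤ 4 * R := by
  obtain ⟨o, a, b, c, e, h1, h2, h3, h4, h5, -⟩ := h
  have := d_tri hx hgen a o c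
  have := d_tri hx hgen b o e
  have := d_comm hx hgen a o
  have := d_comm hx hgen b o
  omega

/-- shortcut at the corner `a` with neighbours `b`, `e` -/
theorem shortcut {R Δ : ℕ} (hn : ¬ Bad x R Δ) {a b e a1 a2 : G} {r : ℕ} (hb : d x a b ≤ R)
    (he : d x a e ≤ R) (hr : 2 * r + d x b e ≤ d x a b + d x a e)
    (h1 : d x a a1 = r) (h1' : r + d x a1 b ≤ d x a b)
    (h2 : d x a a2 = r) (h2' : r + d x a2 e ≤ d x a e) : d x a2 a1 ≤ 2 * Δ := by
  have c1 := d_comm hx hgen a a1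
  have c2 := d_comm hx hgen a a2
  have c3 := d_comm hx hgen b e
  have c4 := d_comm hx hgen a e
  have c5 := d_comm hx hgen a1 a2
  have c6 := d_comm hx hgen a2 e
  have s0 := d_self (x := x) a
  have k1 : d x a1 e + r ≤ d x a e + Δ := by
    by_contra hc
    exact hn ⟨a, a1, a, e, b, by omega, by omega, he, hb, by omega, by omega⟩
  by_contra hc
  exact hn ⟨a, a1, a, a2, e, by omega, by omega, by omega, he, by omega, by omega⟩

/-- a side of the octagon -/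
theorem side {R Δ : ℕ} (hn : ¬ Bad x R Δ) {a b e a1 a2 b2 e1 : G} {r r' r'' : ℕ}
    (hb : d x a b ≤ R) (he : d x a e ≤ R)
    (hr : 2 * r + d x b e ≤ d x a b + d x a e)
    (hr' : r = 0 ∨ 2 * r + 4 * Δ + d x b e ≤ d x a b + d x a e)
    (h1 : d x a a1 = r) (h2 : d x b b2 = r') (h3 : r + d x a1 b2 + r' = d x a b)
    (h4 : d x e e1 = r'') (h5 : d x a a2 = r) (h6 : r'' + d x e1 a2 + r = d x e a) :
    Conn x (fun v => d x a v + d x b v ≤ d x a b ∨ 2 * d x a v + d x b e ≤ d x a b + d x a e)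
      (2 * Δ + d x a1 b2) a2 b2 := by
  have t0 := d_tri hx hgen b a e
  have c0 := d_comm hx hgen a b
  have c1 := d_comm hx hgen a e
  have t1 := d_tri hx hgen a1 b2 b
  have c2 := d_comm hx hgen b b2
  have t2 := d_tri hx hgen e e1 a2
  have c3 := d_comm hx hgen e a2
  have hs := shortcut hx hgen hn hb he (r := r) hr h1 (by omega) h5 (by omega)
  refine Conn.trans (v := a1) ((geod hx hgen a2 a1).mono ?_ hs) ((geod hx hgen a1 b2).mono ?_ le_rfl)
  · intro v hv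
    right
    have := d_tri hx hgen a a2 v
    have := d_tri hx hgen a2 a a1
    have := d_comm hx hgen a a2
    omega
  · intro v hv
    left
    have := d_tri hx hgen a a1 v
    have := d_tri hx hgen b b2 v
    have := d_comm hx hgen v b2
    omega

/-- the coordinate function -/
theorem coord (a b c e : G) (hp : d x b c + d x a e ≤ d x a c + d x b e) :
    ∃ f : G → ℕ, (∀ g y, f g ≤ f (g * x y) + 1 ∧ f (g * x y) ≤ f g + 1) ∧
      (∀ v, d x a v + d x b v ≤ d x a b ∨ 2 * d x a v + d x b e ≤ d x a b + d x a e → f v = 0) ∧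
      (∀ v, d x c v + d x e v ≤ d x c e ∨ 2 * d x c v + d x e b ≤ d x c e + d x c b →
        (d x a c + d x b e - (d x a b + d x c e)) / 2 ≤ f v) := by
  refine ⟨fun v => min (d x a v + d x b v - d x a b)
    (2 * d x a v + d x b e - (d x a b + d x a e)) / 2, ?_, ?_, ?_⟩
  · intro g y
    have := d_lip hx hgen a g y
    have := d_lip hx hgen b g y
    beta_reduce
    omega
  · intro v hv
    beta_reduce
    omega
  · intro v hv
    have := d_tri hx hgen a v c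
    have := d_tri hx hgen a v e
    have := d_tri hx hgen b v c
    have := d_tri hx hgen b v e
    have := d_comm hx hgen v c
    have := d_comm hx hgen v e
    have := d_comm hx hgen b c
    have := d_comm hx hgen b e
    beta_reduce
    omega

theorem Bad.step {C : ℕ} (hC : ChainIso x inv C) {R m : ℕ} (h : Bad x R m)
    (hm : 600 * C + 2 ≤ m) : Bad x (2 * R) (4 * m) := by
  by_contra hn
  obtain ⟨o, a, b, c, e, ha, hb, hc, he, h1, h2⟩ := h
  have hR : ∀ u v, d x o u ≤ R → d x o v ≤ R → d x u v ≤ 2 * R := by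
    intro u v hu hv
    have := d_tri hx hgen u o v
    have := d_comm hx hgen u o
    omega
  have c1 := d_comm hx hgen a b
  have c2 := d_comm hx hgen a c
  have c3 := d_comm hx hgen a e
  have c4 := d_comm hx hgen b c
  have c5 := d_comm hx hgen b e
  have c6 := d_comm hx hgen c e
  have t1 := d_tri hx hgen b a e
  have t2 := d_tri hx hgen c b a
  have t3 := d_tri hx hgen e c b
  have t4 := d_tri hx hgen a e c
  have t1' : d x b e ≤ d x a b + d x a e := by omega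
  have t2' : d x c a ≤ d x b c + d x b a := by omega
  have t3' : d x e b ≤ d x c e + d x c b := by omega
  have t4' : d x a c ≤ d x e a + d x e c := by omega
  obtain ⟨ra, hra, hra', hra''⟩ := exists_r t1' (4 * m)
  obtain ⟨rb, hrb, hrb', hrb''⟩ := exists_r t2' (4 * m)
  obtain ⟨rc, hrc, hrc', hrc''⟩ := exists_r t3' (4 * m)
  obtain ⟨re, hre, hre', hre''⟩ := exists_r t4' (4 * m)
  have u1 : ra + rb ≤ d x a b := by clear hra' hrb' hrc' hre'; omega
  have u2 : rb + rc ≤ d x b c := by clear hra' hrb' hrc' hre'; omega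
  have u3 : rc + re ≤ d x c e := by clear hra' hrb' hrc' hre'; omega
  have u4 : re + ra ≤ d x e a := by clear hra' hrb' hrc' hre'; omega
  obtain ⟨a1, b2, ha1, hb2, hab⟩ := two_points hx hgen a b u1
  obtain ⟨b1, c2', hb1, hc2, hbc⟩ := two_points hx hgen b c u2
  obtain ⟨c1', e2, hc1, he2, hce⟩ := two_points hx hgen c e u3
  obtain ⟨e1, a2, he1, ha2, hea⟩ := two_points hx hgen e a u4
  have sA := side hx hgen hn (hR _ _ ha hb) (hR _ _ ha he) hra hra' ha1 hb2 hab he1 ha2 hea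
  have sB := side hx hgen hn (hR _ _ hb hc) (hR _ _ hb ha) hrb hrb' hb1 hc2 hbc ha1 hb2 hab
  have sC := side hx hgen hn (hR _ _ hc he) (hR _ _ hc hb) hrc hrc' hc1 he2 hce hb1 hc2 hbc
  have sD := side hx hgen hn (hR _ _ he ha) (hR _ _ he hc) hre hre' he1 ha2 hea hc1 he2 hce
  clear hra' hrb' hrc' hre'
  obtain ⟨f, f1, f2, f3⟩ := coord hx hgen a b c e (by omega)
  obtain ⟨ρ, r1, r2, r3⟩ := coord hx hgen e a b c (by omega)
  have key := area hx hC ρ f r1 f1 (sA.mono f2 le_rfl) (sB.mono r3 le_rfl) (sC.mono f3 le_rfl)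
    (sD.mono r2 le_rfl) (r2 a2 (by
      left
      have := d_tri hx hgen e e1 a2
      omega))
  obtain ⟨P, hP⟩ : ∃ P, d x e b + d x a c = d x e a + d x b c + P :=
    Nat.exists_eq_add_of_le (by omega)
  obtain ⟨Q, hQ⟩ : ∃ Q, d x a c + d x b e = d x a b + d x c e + Q :=
    Nat.exists_eq_add_of_le (by omega)
  rw [hP, hQ, Nat.add_sub_cancel_left, Nat.add_sub_cancel_left] at key
  exact arith key hm (by omega) (by omega) (by omega)

theorem not_bad {C : ℕ} (hC : ChainIso x inv C) (R : ℕ) : ¬ Bad x R (600 * C + 2) := by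
  intro h
  have H : ∀ j, Bad x (2 ^ j * R) (4 ^ j * (600 * C + 2)) := by
    intro j
    induction j with
    | zero => simpa using h
    | succ j ih =>
      have := ih.step hx hgen hC (Nat.le_mul_of_pos_left _ (by positivity))
      rwa [← mul_assoc, ← mul_assoc, ← pow_succ', ← pow_succ'] at this
  have h1 := (H (4 * R)).le hx hgen
  have h2 : 4 * R < 2 ^ (4 * R) := Nat.lt_two_pow_self
  have h3 : 4 ^ (4 * R) = 2 ^ (4 * R) * 2 ^ (4 * R) := by rw [← mul_pow]; norm_num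
  rw [h3] at h1
  generalize 2 ^ (4 * R) = N at *
  have h4 : N * N ≤ N * N * (600 * C + 2) := Nat.le_mul_of_pos_right _ (by positivity)
  nlinarith

end main

end Hyp

open Hyp Crest.GroupTheory in
theorem hyperbolic_of_chainIso {G L : Type} [Group G] [Fintype L] (x : L → G) (inv : L → L)
    (hinv : ∀ a, inv (inv a) = a) (hx : ∀ a, x (inv a) = (x a)⁻¹)
    (hgen : Subgroup.closure (Set.range x) = ⊤) (C : ℕ) (hC : ChainIso x inv C) :
    Crest.GroupTheory.IsHyperbolicGroup G := by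
  classical
  have hS : ((Finset.univ.image x : Finset G) : Set G) = Set.range x := by simp
  refine ⟨Finset.univ.image x, by rw [hS, hgen], ((600 * C + 2 : ℕ) : ℝ), Nat.cast_nonneg _, ?_⟩
  intro w a b c
  rw [hS]
  have hd : ∀ g h, wordDist (Set.range x) g h = (d x g h : ℝ) := fun _ _ => rfl
  simp only [gromovProduct, hd]
  have hn := not_bad hx hgen hC (d x w a + d x w b + d x w c)
  have s0 := d_self (x := x) w
  have : d x a c + d x b w < d x a b + d x c w + (600 * C + 2) ∨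
      d x a c + d x b w < d x b c + d x a w + (600 * C + 2) := by
    by_contra hc
    exact hn ⟨w, a, b, c, w, by omega, by omega, by omega, by omega, by omega, by omega⟩
  have h0 : (0 : ℝ) ≤ ((600 * C + 2 : ℕ) : ℝ) := Nat.cast_nonneg _
  rcases this with h | h
  · have h' : (d x a c + d x b w : ℝ) < d x a b + d x c w + ((600 * C + 2 : ℕ) : ℝ) := by
      exact_mod_cast h
    have := min_le_left (((d x a w : ℝ) + d x b w - d x a b) / 2)
      (((d x b w : ℝ) + d x c w - d x b c) / 2)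
    linarith
  · have h' : (d x a c + d x b w : ℝ) < d x b c + d x a w + ((600 * C + 2 : ℕ) : ℝ) := by
      exact_mod_cast h
    have := min_le_right (((d x a w : ℝ) + d x b w - d x a b) / 2)
      (((d x b w : ℝ) + d x c w - d x b c) / 2)
    linarith

end Crest.Agent.R177
private theorem rz_33a9a1bac9 : type_of% @_root_.Crest.Agent.R177.Hyp.Pth.eq_def := @_root_.Crest.Agent.R177.Hyp.Pth.eq_def -- L29
private theorem rz_f184c5890c : type_of% @_root_.Crest.Agent.R177.Hyp.Pth.eq_1 := @_root_.Crest.Agent.R177.Hyp.Pth.eq_1 -- L29
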