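import Crest.Agent.PVa.R177.Cluster_Mg
import Crest.Agent.PVa.R177.VKb
import Crest.Agent.PVa.R177.Defs

-- ▼ part PVa/R196/Iso
section

/-!
Task R196-B3: the isoperimetric inequality, and the non-triviality of the generators.

`Sys.isoP`: take `R177.cluster` with `lam = 1` and `r`, `b₀` such that `ε = 4/r + (4r+22)/b₀ ≤ 1/(360 K₀ + 1)`, `B = 12 b₀`.  Apply
`Sys.loc` to `U_y = In ∩ cl⁻¹ y` and sum over `y`: a dart counted in `a_y` has `α d ∉ In` or `cl (α d) ≠ cl d`; the number of darts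
with `α d ∉ In` is at most `J = card D - card In` (injectivity), same for `φ`.  So
`card In ≤ 15 K₀ (13 J + 12 ε card D)` and `card D = card In + J`.

`card_le_of_trivial`: for `b : I → ZMod 2` let `κ (g, h) = ∑ i, b i * [h = p i 0 ∨ h = τ (p i 0)]`; `CS` gives `ψ`.  Since all `x c = 1`,
`R177.gx_rel` shows that `y_{vert (p i j)}` does not depend on `j`; call it `y i`.  Summing the `CS` identity at `g = (y i)⁻¹` over
`j : Fin 4` gives `b i = ∑ j, ψ (1, inl (col (p i j)))`.  So `a ↦ (i ↦ ∑ j, a (col (p i j)))` is a surjection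
`(P → ZMod 2) → (I → ZMod 2)`.
-/

set_option autoImplicit false

namespace Crest.Agent.R196

open Finset

open Classical in
theorem sum_cut {D Y : Type} [Fintype D] (In : Finset D) (cl : D → Y) (f : D → D)
    (hf : Function.Injective f) :
    ∑ y ∈ In.image cl, ((In.filter (fun d => cl d = y)).filter
      (fun d => f d ∉ In.filter (fun d => cl d = y))).card ≤
      (univ.filter (fun d => cl (f d) ≠ cl d)).card + (Fintype.card D - In.card) := by
  have h1 : (univ.filter (fun d => f d ∉ In)).card ≤ Fintype.card D - In.card := by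
    rw [← card_compl]
    refine card_le_card_of_injOn f ?_ hf.injOn
    intro d hd
    simpa using hd
  let Z := In.filter (fun d => f d ∉ In ∨ cl (f d) ≠ cl d)
  have h2 : Z.card = ∑ y ∈ In.image cl, (Z.filter (fun d => cl d = y)).card :=
    Finset.card_eq_sum_card_fiberwise (fun d hd => mem_image_of_mem _ (mem_filter.mp hd).1)
  have h3 : Z ⊆ univ.filter (fun d => cl (f d) ≠ cl d) ∪ univ.filter (fun d => f d ∉ In) := by
    intro d hd
    simp only [Z, mem_filter, mem_union, mem_univ, true_and] at hd ⊢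
    tauto
  have h4 := (card_le_card h3).trans (card_union_le _ _)
  refine le_trans (Finset.sum_le_sum fun y _ => card_le_card ?_) (h2.symm.le.trans (by omega))
  intro d hd
  simp only [Z, mem_filter, not_and] at hd ⊢
  refine ⟨⟨hd.1.1, ?_⟩, hd.1.2⟩
  by_cases h : f d ∈ In
  · exact Or.inr (by rw [hd.1.2]; exact hd.2 h)
  · exact Or.inl h

theorem Sys.isoP (K₀ : ℕ) : ∃ B C : ℕ, ∀ {Hf V P Q Cp : Type} (Y : Sys Hf V P Q Cp),
    Y.K₀ = K₀ → Y.B = B → R177.IsoP Y.S Y.σ Y.τ C := by
  classical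
  refine ⟨12 * ((4 * (2880 * K₀ + 8) + 22) * (720 * K₀ + 2)), 390 * K₀ + 1, ?_⟩
  intro Hf V P Q Cp Y hK hB D _ R
  obtain ⟨cl, h1, h2⟩ := R177.cluster R.φ R.α R.αα R.α_ne R.pl 1 (2880 * K₀ + 8)
    ((4 * (2880 * K₀ + 8) + 22) * (720 * K₀ + 2)) one_pos (by omega) (by positivity)
  set ac := (univ.filter (fun d => cl (R.α d) ≠ cl d)).card
  set bc := (univ.filter (fun d => cl (R.φ d) ≠ cl d)).card
  have h3 : (360 * K₀ + 1) * (ac + bc) ≤ Fintype.card D := by
    have e : (4 / ((2880 * K₀ + 8 : ℕ) : ℝ) + (4 * ((2880 * K₀ + 8 : ℕ) : ℝ) + 22) * ((1 : ℕ) : ℝ) /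
        (((4 * (2880 * K₀ + 8) + 22) * (720 * K₀ + 2) : ℕ) : ℝ)) = 1 / (360 * K₀ + 1) := by
      push_cast
      field_simp
      ring
    rw [e, Nat.cast_one, one_mul, one_div, inv_mul_eq_div, le_div_iff₀ (by positivity)] at h2
    have : (((360 * K₀ + 1) * (ac + bc) : ℕ) : ℝ) ≤ Fintype.card D := by
      push_cast
      linarith
    exact_mod_cast this
  have h4 := sum_cut R.In cl R.α (Function.Involutive.injective R.αα)
  have h5 := sum_cut R.In cl R.φ R.φ.injective
  have h6 : R.In.card = ∑ y ∈ R.In.image cl, (R.In.filter (fun d => cl d = y)).card :=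
    Finset.card_eq_sum_card_fiberwise (fun d hd => mem_image_of_mem _ hd)
  have h7 := Finset.sum_le_sum (s := R.In.image cl) fun y _ =>
    Y.loc R (R.In.filter (fun d => cl d = y)) (filter_subset _ _) (by
      have := (card_le_card (filter_subset_filter (fun d => cl d = y) (subset_univ R.In))).trans
        (h1 y)
      omega)
  rw [← h6, ← Finset.mul_sum, Finset.sum_add_distrib, ← Finset.mul_sum, hK] at h7
  have h8 : R.In.card ≤ 15 * K₀ * (ac + (Fintype.card D - R.In.card) +
      12 * (bc + (Fintype.card D - R.In.card))) := by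
    refine h7.trans (Nat.mul_le_mul_left _ (Nat.add_le_add ?_ (Nat.mul_le_mul_left _ ?_)))
    · convert h4
    · convert h5
  have h9 : R.In.card ≤ Fintype.card D := card_le_univ _
  obtain ⟨J, hJ⟩ := Nat.exists_eq_add_of_le h9
  rw [hJ, Nat.add_sub_cancel_left] at h8 ⊢
  rw [hJ] at h3
  nlinarith [Nat.zero_le (K₀ * ac), Nat.zero_le (ac + bc)]

theorem card_le_of_trivial {Hf V P I : Type} [Fintype P] [Fintype I] (S : R177.HS Hf V P)
    (σ : P → P) (τ : Hf → Hf) (hτ : ∀ h, τ (τ h) = h) (hC : R177.CS S σ τ) (p : I → Fin 4 → Hf)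
    (hp : Cyc S τ p) (h1 : ∀ c, R177.gx S σ τ (Sum.inl c) = 1) :
    Fintype.card I ≤ Fintype.card P := by
  classical
  have hsurj : Function.Surjective
      (fun (a : P → ZMod 2) (i : I) => ∑ j : Fin 4, a (S.col (p i j))) := by
    intro b
    obtain ⟨ψ, -, hψ⟩ := hC (ZMod 2)
      (fun z => ∑ i, if z.2 = p i 0 ∨ z.2 = τ (p i 0) then b i else 0) (by
        intro g h
        rw [ZMod.neg_eq_self_mod_two]
        refine Finset.sum_congr rfl fun i _ => if_congr ?_ rfl rfl
        dsimp only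
        constructor
        · rintro (e | e)
          · exact Or.inr (by rw [← e, hτ])
          · exact Or.inl (by rw [← hτ h, e, hτ])
        · rintro (e | e)
          · exact Or.inr (by rw [e])
          · exact Or.inl (by rw [e, hτ]))
    refine ⟨fun c => ψ (1, Sum.inl c), funext fun i => ?_⟩
    have hy : ∀ j, R177.gx S σ τ (Sum.inr (S.vert (p i (j + 1)), true)) =
        R177.gx S σ τ (Sum.inr (S.vert (p i j), true)) := by
      intro j
      rw [← hp.1, ← R177.gx_rel, h1, mul_one]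
    set y := R177.gx S σ τ (Sum.inr (S.vert (p i 0), true)) with hy0
    have hy1 := hy 0
    have hy2 := hy 1
    have hy3 := hy 2
    have hk : ∀ j : Fin 4, (∑ i', if p i j = p i' 0 ∨ p i j = τ (p i' 0) then b i' else 0) =
        if j = 0 then b i else 0 := by
      intro j
      rw [Finset.sum_eq_single i]
      · refine if_congr ⟨fun h => (hp.2 _ _ _ h).2, fun h => Or.inl (by rw [h])⟩ rfl rfl
      · intro i' _ hi'
        rw [if_neg fun h => hi' (hp.2 _ _ _ h).1.symm]
      · simp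
    have e0 := hψ y⁻¹ (p i 0)
    have e1 := hψ y⁻¹ (p i 1)
    have e2 := hψ y⁻¹ (p i 2)
    have e3 := hψ y⁻¹ (p i 3)
    simp only [hk, hp.1] at e0 e1 e2 e3
    simp only [Fin.isValue, zero_add, Fin.reduceAdd] at hy1 hy2 hy3 e0 e1 e2 e3
    rw [hy3, hy2, hy1, ← hy0, inv_mul_cancel] at e3
    rw [hy2, hy1, ← hy0, inv_mul_cancel] at e2
    rw [hy1, ← hy0, inv_mul_cancel] at e1
    rw [← hy0, inv_mul_cancel] at e0
    simp only [Fin.sum_univ_four]
    simp only [Fin.isValue, ↓reduceIte, Fin.reduceEq] at e0 e1 e2 e3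
    linear_combination e0 + e1 + e2 + e3
  have h2 := Fintype.card_le_of_surjective _ hsurj
  simp only [Fintype.card_pi, ZMod.card, prod_const, card_univ] at h2
  exact (Nat.pow_le_pow_iff_right (by norm_num)).mp h2

end Crest.Agent.R196
end

-- ▼ part PVa/R177/VK
section

/-!
Task R177-V: van Kampen diagrams.  From `IsoP` to `CS` (asphericity) and to `ChainIso`.

Let `G = Grp S σ τ`, `L = Ltr V P`, `inv = linv σ`, and `F = PresentedGroup {x_c x_{σ c}}` on `P ⊕ V`, with
`X : L → F`, `X (inv a) = (X a)⁻¹`, `π₀ : F →* G` surjective, `ker π₀ = normalClosure {r h}`,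
`r h = X (y_{vert h}) X (x_{col h}) X (y_{vert (τ h)})⁻¹`, `r (τ h) = (r h)⁻¹`.
(NF) a non-empty word `w : List L` with no `a, inv a` adjacent has `(w.map X).prod ≠ 1`: let `F` act on
reduced words (`a • w = tail w` if `w` starts with `inv a`, else `a :: w`).

**The big graph.**  Half-edges `Hf⋆ = Hf ⊕ (V × Bool) ⊕ (F × L)`, vertices `V⋆ = Option V ⊕ F`, colours `L`:
`h : Hf` as in `S`; `(u,true)` at the hub `none` with colour `inr (u,true)`, `(u,false)` at `some u` with colour
`inr (u,false)`, `τ⋆ (u,b) = (u,!b)`; `(f,a)` at `f` with colour `a`, `τ⋆ (f,a) = (f * X a, inv a)`.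
`pos : V⋆ → G`, `pos none = 1`, `pos (some u) = y_u`, `pos f = π₀ f`; `pos (vert⋆ h) * gx (col⋆ h) = pos (vert⋆ (τ⋆ h))`,
`τ⋆` is an involution without fixed points.

**States.**  Fix a finite type `D` and functions `lab : D → L`, `π : D → G`, `ε : D → Hf⋆`, `tv : D → V⋆`, `Out : Finset D`
(never modified).  A state is `(A : Finset D, φ : Perm D, α : D → D)` with `Out ⊆ A`, `φ d ∈ Out ↔ d ∈ Out`, and
* `d ∈ A`: `α d ∈ A`, `α (α d) = d`, `α d ≠ d`, `lab (α d) = inv (lab d)`, `π (φ d) = π d * gx (lab d)`, `π (α d) = π (φ d)`;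
* `d ∈ A \ Out`: `col⋆ (ε d) = lab d`, `vert⋆ (ε d) = tv d`, `vert⋆ (τ⋆ (ε d)) = tv (φ d)`;
* `d ∉ A` (dead): `π (φ d) = π d`, `tv (φ d) = tv d`;
* PL: for all `χ : D → 𝔽₂` with `χ (φ d) = χ d` on dead darts and the equation of `PL` on `A`, there is a
  `φ`-invariant `κ` with `χ (α d) + κ (α d) = χ (φ d) + κ d` on `A`.
`gp d = π d * (pos (tv d))⁻¹` is `φ`-invariant off `Out`.  For antisymmetric `κ : G × Hf → M`, extended by `0` to `Hf⋆`,
`ev = ∑_{d ∈ A \ Out} κ (gp d, ε d)`.  Surgeries keep `ev` and decrease `2 |A| + |{d | φ d ≠ d}|`: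
* DEL: `z` dead, `φ z ≠ z`: `φ' = φ * swap (φ⁻¹ z) z` (for PL redefine `χ z := χ (φ z)`).
* MERGE: `d, d' = α d ∉ Out`, `ε d' = τ⋆ (ε d)`: `φ' = φ * swap d d'`, `A' = A \ {d,d'}` (the old `κ` has `κ d = κ d'`).
* FOLD: `d, d' = φ d ∈ A \ Out`, `ε d' = τ⋆ (ε d)`, `α d ≠ d'`: same `φ'`, `A'`, and `α'` exchanges `e = α d`, `e' = α d'`
  (for PL redefine `χ d' := χ d + χ (φ e) + χ e`).
In a minimal state dead darts are `φ`-fixed, so `φ` restricts to `A` (`Equiv.Perm.subtypePerm`).  There are no darts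
over the tree part (the labels along a `φ`-cycle would contradict (NF)); a dart over `V × Bool` has its `α`-partner in `Out`
(there is only one half-edge of each colour `inr _` outside the tree part).  With `In` = darts over `Hf` we get an
`RPS` on `A` with at most `2 |Out|` junk darts (`ε` on junk: any element of the nonempty `Hf`; consecutive genuine darts
satisfy `path`).  So `|In| ≤ 2 C |Out|`.

**Initial states.**  A *pre-diagram based at `s : G`*: finite `D`, a `Nodup` list `l` of *tree darts*, a permutation `φR`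
fixing the elements of `l`, `α`, `lab`, `π`, `ε`, `tv`, `Out` satisfying the state axioms (with `A = univ`) for darts outside `l`,
`π (α d) = π d * gx (lab d)` for all `d`, `π` is a chain along `l` from `s` to `s` (`Ch f st s [] t ↔ s = t`,
`Ch f st s (d :: l) t ↔ f d = s ∧ Ch f st (s * st d) l t`), and linear PL: for all `α`-invariant `ω : D → 𝔽₂`, all `χ` with
`χ (φR d) = χ d + ω d` off `l`, and all `s₀` there is `ψ` which is an additive chain along `l` from `s₀` to `s₀` with
`ψ (φR d) = ψ d + ω d` off `l` and `ψ (α d) = ψ d + ω d` everywhere.  Its *word* is `((l.map lab).map X).prod`.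
Constructors: empty; concatenation (`D₁ ⊕ D₂`); conjugation by a letter (`D ⊕ Bool`, two new tree darts paired with each other,
inner diagram based at `s * gx a`); double polygon (`ZMod b × Bool` or `Fin b × Bool`: tree darts `(i,false)` spell a closed
word, darts `(i,true)` form the reversed face) used for the triangle `r h` (face in the cone part of the big graph) and
for the outer word.  If the word is `1 ∈ F`, `φ = φR * l.formPerm` and `ε d = (prefix product, lab d)` on `l` give a state.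
Consequences: (Z) for fixed `κ`, the submonoid (= subgroup) `𝒮 ≤ F × Multiplicative M` generated by
`(f * r h * f⁻¹, κ (π₀ f, h))` meets `{1} × M` trivially, and it projects onto `ker π₀`.  This defines an additive map
`ζ : ker π₀ → M`; with a section `s : G → F` put `ψ (g, a) = ζ (s g * X a * (s (g * gx a))⁻¹)`.
For `ChainIso`: take a minimal state with outer word `w`; `T` = triangles `(gp d, y_u, x_c, y_{u'}⁻¹)` of the genuine darts.
For symmetric `ξ`, `∑_{d ∈ A} ξ (π d, lab d) = 0` (pair `d, α d`), and for `d ∈ A \ Out`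
`ξ (π d, lab d) = [d genuine] ∂T d + sp d + sp (φ d)` with `sp d = ξ (gp d, y_u)` if `tv d = some u`, `0` at the hub.
-/

set_option autoImplicit false

namespace Crest.Agent.R177

namespace VK

open Finset

variable {Hf V P X' : Type} {S : HS Hf V P} {σ : P → P} {τ : Hf → Hf} {cmp : V → X'}
  (hσ : ∀ c, σ (σ c) = c) (hτ : IsMatch S σ cmp τ) {M N : Type} [AddCommGroup M] [AddCommMonoid N]

/-- extension of a cochain by zero -/
def ext0 (κ : Grp S σ τ × Hf → M) (y : Grp S σ τ × HB Hf V σ) : M :=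
  Sum.elim (fun h => κ (y.1, h)) (fun _ => 0) y.2

theorem ext0_anti {κ : Grp S σ τ × Hf → M} (hκ : ∀ g h, κ (g, τ h) = - κ (g, h)) (g : Grp S σ τ)
    (k : HB Hf V σ) : ext0 κ (g, (big S σ τ hσ hτ).τ k) = - ext0 κ (g, k) := by
  rcases k with h | ⟨u, b⟩ | ⟨f, a⟩
  · exact hκ g h
  · simp [ext0, big]
  · simp [ext0, big]

/-- pre-diagrams between two elements of the free product -/
def PreF (κ : Grp S σ τ × Hf → M) (ξ : Grp S σ τ × Ltr V P → N) (s t : F V σ) (m : M) (n : N) :
    Prop :=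
  Pre (big S σ τ hσ hτ) (ext0 κ) ξ (Sum.inr s) (Sum.inr t) (π₀ S σ τ s) m n

variable {hσ hτ} {κ : Grp S σ τ × Hf → M} {ξ : Grp S σ τ × Ltr V P → N}

theorem PreF.refl [Nonempty Hf] (s : F V σ) : PreF hσ hτ κ ξ s s 0 0 :=
  Pre.refl (Sum.inl (Classical.arbitrary Hf)) _ _

theorem PreF.trans {s t u : F V σ} {m m' : M} {n n' : N} (hst : π₀ S σ τ s = π₀ S σ τ t)
    (h : PreF hσ hτ κ ξ s t m n) (h' : PreF hσ hτ κ ξ t u m' n') :
    PreF hσ hτ κ ξ s u (m + m') (n + n') :=
  Pre.trans h (by rw [hst]; exact h')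

theorem PreF.conj {s t : F V σ} {m : M} {n : N} (a : Ltr V P)
    (h : PreF hσ hτ κ ξ (s * X σ a) (t * X σ a) m n) : PreF hσ hτ κ ξ s t m n := by
  refine Pre.conj (B := big S σ τ hσ hτ) (Sum.inr (Sum.inr (s, a))) (Sum.inr (Sum.inr (t, a))) rfl
    (fun _ => rfl) (fun _ => rfl) ?_
  unfold PreF at h
  rw [map_mul, π₀_X] at h
  exact h

theorem PreF.conj' {m : M} {n : N} (f : F V σ) : ∀ {s t : F V σ},
    PreF hσ hτ κ ξ (s * f) (t * f) m n → PreF hσ hτ κ ξ s t m n := by
  induction f using F_induction with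
  | h1 => intro s t h; simpa using h
  | hm a f ih =>
    intro s t h
    rw [← mul_assoc, ← mul_assoc] at h
    exact PreF.conj a (ih h)

theorem PreF.tri (s : F V σ) (h : Hf) :
    PreF hσ hτ κ ξ s (s * X σ (Sum.inr (S.vert h, true)) * X σ (Sum.inl (S.col h)) *
      X σ (Sum.inr (S.vert (τ h), false))) (κ (π₀ S σ τ s, τ h)) 0 := by
  let a : ℕ → Ltr V P := fun i => match i with
    | 0 => Sum.inr (S.vert h, true)
    | 1 => Sum.inl (S.col h)
    | _ => Sum.inr (S.vert (τ h), false)
  let q : ℕ → F V σ := fun i => match i with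
    | 0 => s
    | 1 => s * X σ (Sum.inr (S.vert h, true))
    | 2 => s * X σ (Sum.inr (S.vert h, true)) * X σ (Sum.inl (S.col h))
    | _ => s * X σ (Sum.inr (S.vert h, true)) * X σ (Sum.inl (S.col h)) *
      X σ (Sum.inr (S.vert (τ h), false))
  let e' : ℕ → HB Hf V σ := fun i => match i with
    | 0 => Sum.inr (Sum.inl (S.vert h, false))
    | 1 => Sum.inl (τ h)
    | _ => Sum.inr (Sum.inl (S.vert (τ h), true))
  let v' : ℕ → WB V σ := fun i => match i with
    | 1 => Sum.inl (some (S.vert h))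
    | 2 => Sum.inl (some (S.vert (τ h)))
    | _ => Sum.inl none
  have hr := gx_rel S σ τ h
  have key := Pre.polygon (B := big S σ τ hσ hτ) (κ := ext0 κ) (ξ := ξ) 3
    (fun i => Sum.inr (Sum.inr (q i, a i))) e' (fun i => Sum.inr (q i)) v'
    (fun i => π₀ S σ τ (q i)) False (fun _ _ => rfl)
    (fun i hi => by interval_cases i <;> rfl)
    (fun i hi => by interval_cases i <;> simp only [q, a, big, map_mul, π₀_X])
    (by
      simp only [q, map_mul, π₀_X]
      rw [mul_assoc (π₀ S σ τ s), hr]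
      simp [gx])
    (fun _ _ _ => rfl)
    (fun _ => ⟨fun i hi => by
      interval_cases i <;> simp [e', v', a, big, linv, hτ.col, hτ.invol], rfl⟩)
  simp only [if_false, sum_range_succ, range_zero, sum_empty, zero_add] at key
  unfold PreF
  convert key using 1
  · rfl
  · rfl
  · rfl
  · simp only [e', v', q, ext0, big, Sum.elim_inl, Sum.elim_inr, map_mul, π₀_X, add_zero, zero_add]
    rw [mul_assoc (π₀ S σ τ s), hr, mul_inv_cancel_right]

theorem PreF.exists [Nonempty Hf] {s t : F V σ} (hst : π₀ S σ τ s = π₀ S σ τ t) :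
    ∃ m, PreF hσ hτ κ ξ s t m 0 := by
  let Q : F V σ → Prop := fun f => π₀ S σ τ f = 1 ∧ ∀ s, ∃ m, PreF hσ hτ κ ξ s (s * f) m 0
  have Qm : ∀ f g, Q f → Q g → Q (f * g) := by
    rintro f g ⟨a1, a2⟩ ⟨b1, b2⟩
    refine ⟨by rw [map_mul, a1, b1, one_mul], fun s => ?_⟩
    obtain ⟨m, hm⟩ := a2 s
    obtain ⟨m', hm'⟩ := b2 (s * f)
    have := hm.trans (by rw [map_mul, a1, mul_one]) hm'
    rw [add_zero, mul_assoc] at this
    exact ⟨_, this⟩
  have Qc : ∀ f g, Q f → Q (g * f * g⁻¹) := by
    rintro f g ⟨a1, a2⟩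
    refine ⟨by simp [a1], fun s => ?_⟩
    obtain ⟨m, hm⟩ := a2 (s * g)
    refine ⟨m, PreF.conj' g ?_⟩
    convert hm using 1
    group
  have Qr : ∀ h, Q (X σ (Sum.inr (S.vert h, true)) * X σ (Sum.inl (S.col h)) *
      X σ (Sum.inr (S.vert (τ h), false))) := by
    intro h
    refine ⟨?_, fun s => ⟨_, by simpa only [mul_assoc] using PreF.tri s h⟩⟩
    simp only [map_mul, π₀_X]
    rw [gx_rel]; simp [gx]
  let K : Subgroup (F V σ) :=
    { carrier := {f | Q f ∧ Q f⁻¹}
      one_mem' := by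
        have : Q 1 := ⟨map_one _, fun s => ⟨0, by simpa using PreF.refl s⟩⟩
        exact ⟨this, by simpa using this⟩
      mul_mem' := fun {f g} a b => ⟨Qm _ _ a.1 b.1, by rw [mul_inv_rev]; exact Qm _ _ b.2 a.2⟩
      inv_mem' := fun {f} a => ⟨a.2, by simpa using a.1⟩ }
  have : K.Normal := ⟨fun f a g => ⟨Qc _ _ a.1, by
    have := Qc _ g a.2
    convert this using 1; group⟩⟩
  obtain ⟨Φ, h1, h2⟩ := grp_lift S σ τ (H := F V σ ⧸ K)
    (fun c => QuotientGroup.mk' K (X σ (Sum.inl c)))
    (fun u => QuotientGroup.mk' K (X σ (Sum.inr (u, true))))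
    (fun c => by
      rw [← map_mul]
      have := X_linv (V := V) σ (Sum.inl c)
      simp only [linv] at this
      rw [this, mul_inv_cancel, map_one])
    (fun h => by
      rw [← map_mul, ← mul_inv_eq_one, ← map_inv, ← map_mul, QuotientGroup.mk'_apply,
        QuotientGroup.eq_one_iff]
      refine ⟨Qr h, ?_⟩
      have := Qr (τ h)
      rw [hτ.invol, hτ.col] at this
      convert this using 1
      have e := X_linv (V := V) σ (Sum.inl (S.col h))
      simp only [linv] at e
      rw [e]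
      simp [X, mul_assoc])
  have h3 : ∀ f, Φ (π₀ S σ τ f) = QuotientGroup.mk' K f := by
    intro f
    induction f using F_induction with
    | h1 => simp
    | hm a f ih =>
      rw [map_mul, map_mul, map_mul, ih, π₀_X]
      congr 1
      rcases a with c | ⟨u, _ | _⟩
      · exact h1 c
      · have e1 := gx_linv S σ τ (Sum.inr (u, true))
        have e2 := X_linv (V := V) σ (Sum.inr (u, true))
        simp only [linv, Bool.not_true] at e1 e2
        rw [e1, e2, map_inv, map_inv, h2]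
      · exact h2 u
  have h4 : s⁻¹ * t ∈ K := by
    rw [← QuotientGroup.eq_one_iff, ← QuotientGroup.mk'_apply, ← h3, map_mul, map_inv, hst,
      inv_mul_cancel, map_one]
  simpa using h4.1.2 s

theorem PreF.zero [Nonempty Hf] {C : ℕ} (hI : IsoP S σ τ C)
    (hκ : ∀ g h, κ (g, τ h) = - κ (g, h)) {s : F V σ} {m : M}
    (h : PreF hσ hτ κ (fun _ => (1 : ℕ)) s s m 0) : m = 0 := by
  obtain ⟨D, _, _, T, A, φ, α, a1, a2, a3, a4, a5, a6, a7⟩ := Pre.min (ext0_anti hσ hτ hκ) h
  have := card_in hI a1 a2 a5 a6 a7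
  rw [← card_eq_sum_ones] at a4
  rw [a4, mul_zero, Nat.le_zero, card_eq_zero, filter_eq_empty_iff] at this
  rw [← a3]
  refine sum_eq_zero fun d hd => ?_
  have := this hd
  rcases hε : T.ε d with k | k
  · rw [hε] at this; simp at this
  · rfl

theorem π₀_surj : Function.Surjective (π₀ S σ τ) := by
  rw [← MonoidHom.range_eq_top, eq_top_iff, ← gx_closure, Subgroup.closure_le]
  rintro _ ⟨a, rfl⟩
  exact ⟨X σ a, π₀_X S σ τ a⟩

theorem pathSum_eq {G L M : Type} [Group G] [AddCommMonoid M] (x : L → G) (ξ : G × L → M) (d : L)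
    (w : List L) : ∀ g, pathSum x ξ g w =
      ∑ i ∈ range w.length, ξ (g * ((w.take i).map x).prod, w.getD i d) := by
  induction w with
  | nil => intro g; simp [pathSum]
  | cons a w ih =>
    intro g
    rw [pathSum, ih, List.length_cons, sum_range_succ', add_comm]
    simp [mul_assoc]

theorem PreF.word [Nonempty Hf] (w : List (Ltr V P)) (hw : (w.map (gx S σ τ)).prod = 1)
    (d : Ltr V P) :
    PreF hσ hτ κ ξ 1 (w.map (X σ)).prod 0 (∑ i ∈ range w.length,
      ξ (((w.take i).map (gx S σ τ)).prod * gx S σ τ (w.getD i d), linv σ (w.getD i d))) := by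
  have hπ : ∀ l : List (Ltr V P), π₀ S σ τ (l.map (X σ)).prod = (l.map (gx S σ τ)).prod := by
    intro l
    rw [map_list_prod, List.map_map]
    congr 2
    funext a; exact π₀_X S σ τ a
  have hs : ∀ i < w.length, ((w.take (i + 1)).map (X σ)).prod =
      ((w.take i).map (X σ)).prod * X σ (w.getD i d) := by
    intro i hi
    rw [List.take_add_one, List.getD_eq_getElem _ _ hi, List.getElem?_eq_getElem hi,
      List.map_append, List.prod_append]
    simp
  have key := Pre.polygon (B := big S σ τ hσ hτ) (κ := ext0 κ) (ξ := ξ) w.length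
    (fun i => Sum.inr (Sum.inr (((w.take i).map (X σ)).prod, w.getD i d)))
    (fun _ => Sum.inl (Classical.arbitrary Hf))
    (fun i => Sum.inr ((w.take i).map (X σ)).prod) (fun _ => Sum.inl none)
    (fun i => π₀ S σ τ ((w.take i).map (X σ)).prod) True (fun _ _ => rfl)
    (fun i hi => by rw [hs i hi]; rfl)
    (fun i hi => by rw [hs i hi, map_mul, π₀_X]; rfl)
    (by simp [hπ, hw]) (fun _ _ _ => rfl) (fun a => absurd trivial a)
  simp only [if_true, List.take_length, List.take_zero, List.map_nil, List.prod_nil] at key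
  unfold PreF
  convert key using 1
  refine sum_congr rfl fun i hi => ?_
  rw [hs i (mem_range.1 hi), map_mul, π₀_X, hπ]; rfl

end VK

open VK Finset

theorem cs_of_isoP {Hf V P X : Type} [Nonempty Hf] (S : HS Hf V P) {σ : P → P}
    (hσ : ∀ c, σ (σ c) = c) (cmp : V → X) (τ : Hf → Hf) (hτ : IsMatch S σ cmp τ) (C : ℕ)
    (hI : IsoP S σ τ C) : CS S σ τ := by
  classical
  intro M _ κ hκ
  have ex : ∀ s t : F V σ, ∃ m, π₀ S σ τ s = π₀ S σ τ t →
      PreF hσ hτ κ (fun _ => (1 : ℕ)) s t m 0 := by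
    intro s t
    by_cases h : π₀ S σ τ s = π₀ S σ τ t
    · obtain ⟨m, hm⟩ := PreF.exists (hσ := hσ) (hτ := hτ) (κ := κ) (ξ := fun _ => (1 : ℕ)) h
      exact ⟨m, fun _ => hm⟩
    · exact ⟨0, fun a => absurd a h⟩
  choose ζ hζ using ex
  have uniq : ∀ s t m, π₀ S σ τ s = π₀ S σ τ t → PreF hσ hτ κ (fun _ => (1 : ℕ)) s t m 0 →
      ζ s t = m := by
    intro s t m h hm
    have a1 := ((hζ s t h).trans h (hζ t s h.symm)).zero hI hκ
    have a2 := (hm.trans h (hζ t s h.symm)).zero hI hκ
    exact add_right_cancel (a1.trans a2.symm)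
  have add : ∀ s t u, π₀ S σ τ s = π₀ S σ τ t → π₀ S σ τ t = π₀ S σ τ u →
      ζ s u = ζ s t + ζ t u := fun s t u h h' =>
    uniq s u _ (h.trans h') ((hζ s t h).trans h (hζ t u h'))
  have neg : ∀ s t, π₀ S σ τ s = π₀ S σ τ t → ζ t s = - ζ s t := fun s t h =>
    eq_neg_of_add_eq_zero_right (((hζ s t h).trans h (hζ t s h.symm)).zero hI hκ)
  have cj : ∀ s t f, π₀ S σ τ s = π₀ S σ τ t → ζ s t = ζ (s * f) (t * f) := fun s t f h =>
    uniq s t _ h (PreF.conj' f (hζ _ _ (by rw [map_mul, map_mul, h])))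
  choose sec hsec using (π₀_surj (S := S) (σ := σ) (τ := τ))
  refine ⟨fun y => ζ (sec y.1 * VK.X σ y.2) (sec (y.1 * gx S σ τ y.2)), fun g a => ?_,
    fun g h => ?_⟩
  · simp only
    rw [cj _ _ (VK.X σ a) (by simp [hsec, π₀_X]), ← neg _ _ (by simp [hsec, π₀_X]), X_linv,
      gx_linv, inv_mul_cancel_right, mul_inv_cancel_right]
  · simp only
    have hr := gx_rel S σ τ h
    have e1 : VK.X σ (Sum.inr (S.vert (τ h), false)) =
        (VK.X σ (Sum.inr (S.vert (τ h), true)))⁻¹ := rfl
    rw [cj _ _ (VK.X σ (Sum.inl (S.col h))) (by simp [hsec, π₀_X]),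
      ← add _ _ _ (by simp [hsec, π₀_X]) (by simp [hsec, π₀_X]), mul_assoc g, hr, sub_eq_add_neg,
      ← neg _ _ (by simp [hsec, π₀_X]),
      ← add _ _ _ (by simp [hsec, π₀_X, mul_assoc, hr]) (by simp [hsec, π₀_X]),
      cj _ _ (VK.X σ (Sum.inr (S.vert (τ h), false))) (by simp [π₀_X, mul_assoc, hr])]
    have e2 : π₀ S σ τ (sec g) = π₀ S σ τ (sec g * VK.X σ (Sum.inr (S.vert h, true)) *
        VK.X σ (Sum.inl (S.col h)) * VK.X σ (Sum.inr (S.vert (τ h), false))) := by
      rw [e1]; simp [π₀_X, mul_assoc, ← hr]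
    have e3 := uniq _ _ _ e2 (PreF.tri (sec g) h)
    conv_lhs => enter [2]; rw [e1, mul_inv_cancel_right]
    rw [neg _ _ e2, e3, hκ, neg_neg, hsec]

theorem chainIso_of_isoP {Hf V P X : Type} [Nonempty Hf] (S : HS Hf V P) {σ : P → P}
    (hσ : ∀ c, σ (σ c) = c) (cmp : V → X) (τ : Hf → Hf) (hτ : IsMatch S σ cmp τ) (C : ℕ)
    (hI : IsoP S σ τ C) : ChainIso (gx S σ τ) (linv σ) (2 * C) := by
  classical
  intro w hw
  let ξ₀ : Grp S σ τ × Ltr V P → ℕ × ((Grp S σ τ × Ltr V P → ZMod 2) → ZMod 2) :=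
    fun y => (1, fun ξ => ξ y)
  let d₀ : Ltr V P := Sum.inl (S.col (Classical.arbitrary Hf))
  have p1 := PreF.word (hσ := hσ) (hτ := hτ) (κ := fun _ => (0 : ZMod 2)) (ξ := ξ₀) w hw d₀
  have hπ : π₀ S σ τ 1 = π₀ S σ τ (w.map (VK.X σ)).prod := by
    rw [map_list_prod, List.map_map, map_one, ← hw]
    congr 2
    funext a; exact (π₀_X S σ τ a).symm
  obtain ⟨m, p2⟩ := PreF.exists (hσ := hσ) (hτ := hτ) (κ := fun _ => (0 : ZMod 2)) (ξ := ξ₀) hπ.symm
  obtain ⟨D, _, _, T, A, φ, α, a1, a2, -, a4, a5, a6, a7⟩ :=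
    Pre.min (ext0_anti hσ hτ (by simp)) (p1.trans hπ p2)
  have hc := card_in hI a1 a2 a5 a6 a7
  rw [add_zero] at a4
  have b1 : (A ∩ T.Out).card = w.length := by
    have := congrArg Prod.fst a4
    simpa [Prod.fst_sum, ξ₀] using this
  have b2 : ∀ ξ : Grp S σ τ × Ltr V P → ZMod 2, (∀ g a, ξ (g * gx S σ τ a, linv σ a) = ξ (g, a)) →
      ∑ x ∈ A ∩ T.Out, ξ (T.π x, T.lab x) = pathSum (gx S σ τ) ξ 1 w := by
    intro ξ hξ
    have := congrFun (congrArg Prod.snd a4) ξ
    simp only [Prod.snd_sum, ξ₀, Finset.sum_apply, hξ] at this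
    rw [this, pathSum_eq _ _ d₀]
    simp
  set B := big S σ τ hσ hτ with hB
  let e : D → Hf := fun d => Sum.elim id (fun _ => Classical.arbitrary Hf) (T.ε d)
  let tri : D → Grp S σ τ × Ltr V P × Ltr V P × Ltr V P := fun d =>
    (gp B T d, Sum.inr (S.vert (e d), true), Sum.inl (S.col (e d)),
      Sum.inr (S.vert (τ (e d)), false))
  refine ⟨(((A \ T.Out).filter fun d => (T.ε d).isLeft).toList).map tri, ?_, ?_, fun ξ hξ => ?_⟩
  · rw [List.length_map, length_toList, ← b1]; exact hc
  · intro t ht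
    obtain ⟨d, -, rfl⟩ := List.mem_map.1 ht
    simp only [tri]
    rw [gx_rel]; simp [gx]
  · rw [List.map_map, Finset.sum_map_toList, ← b2 ξ hξ, sum_filter]
    have two : ∀ a : ZMod 2, a + a = 0 := by decide
    have s1 : ∑ x ∈ A, ξ (T.π x, T.lab x) = 0 := by
      refine sum_involution (fun d _ => α d) (fun d hd => ?_) (fun d hd _ => a1.α_ne d hd)
        (fun d hd => a1.αA d hd) (fun d hd => a1.αα d hd)
      rw [a1.πα d hd, a1.lab d hd]
      exact (congrArg (ξ (T.π d, T.lab d) + ·) (hξ _ _)).trans (two _)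
    let sp : D → ZMod 2 := fun d => match T.tv d with
      | Sum.inl (some u) => ξ (gp B T d, Sum.inr (u, true))
      | _ => 0
    have s2 : ∑ x ∈ A \ T.Out, sp (φ x) = ∑ x ∈ A \ T.Out, sp x :=
      sum_equiv φ (fun x => by simp only [mem_sdiff, mem_φ a5, a1.out]) (fun _ _ => rfl)
    have s3 : ∀ d ∈ A \ T.Out, ξ (T.π d, T.lab d) = (if (T.ε d).isLeft then
        ((fun t : Grp S σ τ × Ltr V P × Ltr V P × Ltr V P => ξ (t.1, t.2.1) +
          ξ (t.1 * gx S σ τ t.2.1, t.2.2.1) +
          ξ (t.1 * gx S σ τ t.2.1 * gx S σ τ t.2.2.1, t.2.2.2)) ∘ tri) d else 0) +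
        (sp (φ d) + sp d) := by
      intro d hd
      obtain ⟨d1, d2⟩ := mem_sdiff.1 hd
      have c1 := a1.col d d1 d2
      have c2 := a1.vert d d1 d2
      have c3 := (a2 d d2).1 d1
      have c4 := gp_φ a1 (a2 d) d2
      have c5 : T.π d = gp B T d * B.pos (T.tv d) := by simp [gp]
      simp only [sp, c4, tri, e, Function.comp]
      rw [c5, c3, ← c1, ← c2]
      generalize gp B T d = g
      rcases hε : T.ε d with k | ⟨u, _ | _⟩ | y
      · have f1 := hξ g (Sum.inr (S.vert (τ k), true))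
        simp only [linv, Bool.not_true] at f1
        simp only [hB, big, Sum.isLeft_inl, if_true, Sum.elim_inl, id]
        rw [mul_assoc g, gx_rel, f1]
        generalize ξ (g, Sum.inr (S.vert (τ k), true)) = a
        generalize ξ (g, Sum.inr (S.vert k, true)) = b
        generalize ξ (g * gx S σ τ (Sum.inr (S.vert k, true)), Sum.inl (S.col k)) = c
        revert a b c; decide
      · have f1 := hξ g (Sum.inr (u, true))
        simp only [linv, Bool.not_true] at f1
        simp [hB, big, f1]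
      · simp [hB, big]
      · exact absurd hε (no_tree a1 a2 a5 a6 d d1 d2 y)
    rw [← sum_inter_add_sum_sdiff A T.Out, sum_congr rfl s3, sum_add_distrib, sum_add_distrib, s2,
      two, add_zero] at s1
    exact (by decide : ∀ a b : ZMod 2, a + b = 0 → a = b) _ _ s1

end Crest.Agent.R177
end

-- ▼ part PVa/R177/TF
section

/-!
Task R177-TF: triangular presentation, torsion-freeness, residual finiteness; afterwards the final files
`Crest/Agent/S0267.lean`, `S0274.lean`, `S0303.lean` (from `two_core`, `cs_of_isoP`, `chainIso_of_isoP`, `gx_closure`,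
`gx_linv`, `linv_linv`, `TriPres.hasFiniteClassifyingComplex`, `hyperbolic_of_chainIso`; `Grp` is finitely presented because `rels` is
finite; zero divisors: `(1 - b a) b = 0`).

## `exists_triPres`
Choose `P₊ ⊆ P` containing exactly one of `c, σ c`; generators `P₊ ⊕ V`, triangles `{h // col h ∈ P₊}`, `a = y_{vert h}`, `b = x_{col h}`,
`c = y_{vert (τ h)}`; `univ` from `grp_lift`, `cs` from `CS` (extend `κ` antisymmetrically).

## `TriPres.torsionFree`
Let `t` have order `k ≥ 2`; cochains with values in `ℤ`: `C⁰ = G → ℤ`, `C¹ = G × S → ℤ`, `C² = G × T → ℤ`, `t` acts by left translation, `N = ∑_{i<k} tⁱ`.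
For a free action of the cyclic group: `t f = f → ∃ f', f = N f'` and `N f = 0 → ∃ f', f = t f' - f'` (orbit representatives).
`δ¹ ψ = 0 → ψ = δ⁰ b` (use `univ` with `(Equiv.Perm (G × ℤ))ᵐᵒᵖ`), `δ⁰ b = 0 → b` constant (`gen`), `δ¹` onto (`cs`).  Chase: `1 = N a₀`,
`δ a₀ = (t-1) a₁`, `δ a₁ = N a₂`, `a₂ = δ b₁`, `a₁ - N b₁ = δ b₀`, `a₀ - (t-1) b₀ = ` constant `c`, so `1 = k c`.

## `not_residuallyFinite`
If `G` is residually finite pick a finite quotient injective on the support of `b a - 1`; `𝔽₂[G/N]` is finite, so `a b = 1` gives `b a = 1` there.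
-/

set_option autoImplicit false

namespace Crest.Agent.R177

theorem exists_triPres {Hf V P X : Type} [Fintype Hf] [Fintype V] [Fintype P] (S : HS Hf V P)
    {σ : P → P} (hσ : ∀ c, σ (σ c) = c) (hne : ∀ c, σ c ≠ c) (cmp : V → X) (τ : Hf → Hf)
    (hτ : IsMatch S σ cmp τ) (hcs : CS S σ τ) :
    ∃ (S' T : Type) (_ : Finite S') (_ : Finite T), Nonempty (TriPres (Grp S σ τ) S' T) := by
  classical
  let e := Fintype.equivFin P
  let pos : P → Prop := fun c => e c < e (σ c)
  have h1 : ∀ c, ¬ pos c → pos (σ c) := by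
    intro c hc
    show e (σ c) < e (σ (σ c))
    rw [hσ]
    exact lt_of_le_of_ne (not_lt.1 hc) fun h => hne c (e.injective h)
  have h2 : ∀ c, pos c → ¬ pos (σ c) := by
    intro c hc hc'
    have hc'' : e (σ c) < e (σ (σ c)) := hc'
    rw [hσ] at hc''
    exact lt_asymm hc hc''
  have h3 : ∀ h, ¬ pos (S.col h) → pos (S.col (τ h)) := fun h hh => by
    rw [hτ.col]; exact h1 _ hh
  refine ⟨{c // pos c} ⊕ V, {h // pos (S.col h)}, inferInstance, inferInstance, ⟨{
    x := Sum.elim (fun c => gx S σ τ (Sum.inl c.1)) (fun u => gx S σ τ (Sum.inr (u, true)))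
    a := fun h => Sum.inr (S.vert h.1)
    b := fun h => Sum.inl ⟨S.col h.1, h.2⟩
    c := fun h => Sum.inr (S.vert (τ h.1))
    rel := fun h => gx_rel S σ τ h.1
    gen := ?_
    univ := ?_
    cs := ?_ }⟩⟩
  · rw [eq_top_iff, ← gx_closure S σ τ, Subgroup.closure_le]
    rintro _ ⟨c | ⟨u, _ | _⟩, rfl⟩
    · by_cases hc : pos c
      · exact Subgroup.subset_closure ⟨Sum.inl ⟨c, hc⟩, rfl⟩
      · have : gx S σ τ (Sum.inl c) = (gx S σ τ (Sum.inl (σ c)))⁻¹ :=
          eq_inv_of_mul_eq_one_left (gx_x S σ τ c)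
        rw [this]
        exact Subgroup.inv_mem _ (Subgroup.subset_closure ⟨Sum.inl ⟨σ c, h1 c hc⟩, rfl⟩)
    · exact Subgroup.inv_mem _ (Subgroup.subset_closure ⟨Sum.inr u, rfl⟩)
    · exact Subgroup.subset_closure ⟨Sum.inr u, rfl⟩
  · intro H _ f hf
    obtain ⟨F, hF1, hF2⟩ := grp_lift S σ τ
      (fun c => if h : pos c then f (Sum.inl ⟨c, h⟩) else (f (Sum.inl ⟨σ c, h1 c h⟩))⁻¹)
      (fun u => f (Sum.inr u)) (by
        intro c
        by_cases hc : pos c
        · rw [dif_pos hc, dif_neg (h2 c hc)]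
          simp only [hσ, mul_inv_cancel]
        · rw [dif_neg hc, dif_pos (h1 c hc), inv_mul_cancel]) (by
        intro h
        by_cases hc : pos (S.col h)
        · rw [dif_pos hc]; exact hf ⟨h, hc⟩
        · rw [dif_neg hc]
          have := hf ⟨τ h, h3 h hc⟩
          simp only [hτ.invol, hτ.col] at this
          rw [← this, mul_inv_cancel_right])
    refine ⟨F, ?_⟩
    rintro (⟨c, hc⟩ | u)
    · simp only [Sum.elim_inl, hF1, dif_pos hc]
    · simp only [Sum.elim_inr, hF2]
  · intro M _ κ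
    obtain ⟨ψ, -, hψ⟩ := hcs M (fun y => if h : pos (S.col y.2) then κ (y.1, ⟨y.2, h⟩)
      else - κ (y.1, ⟨τ y.2, h3 _ h⟩)) (by
        intro g h
        by_cases hc : pos (S.col h)
        · have hc' : ¬ pos (S.col (τ h)) := by rw [hτ.col]; exact h2 _ hc
          simp only [dif_pos hc, dif_neg hc', hτ.invol]
        · simp only [dif_neg hc, dif_pos (h3 h hc), neg_neg])
    refine ⟨fun y => Sum.elim (fun c => ψ (y.1, Sum.inl c.1)) (fun u => ψ (y.1, Sum.inr (u, true)))
      y.2, fun g t => ?_⟩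
    have := hψ g t.1
    simp only [dif_pos t.2] at this
    exact this

namespace TF

theorem exists_phase {G : Type} [Group G] (t : G) (ht : IsOfFinOrder t) :
    ∃ (n : G → ℕ) (r : G → G), (∀ g, n g < orderOf t) ∧ (∀ g, t ^ n g * r g = g) ∧
      ∀ g, r (t * g) = r g := by
  classical
  let r : G → G := fun g => (Quotient.mk (QuotientGroup.rightRel (Subgroup.zpowers t)) g).out
  have h1 : ∀ g, ∃ n < orderOf t, t ^ n * r g = g := by
    intro g
    have h2 : (QuotientGroup.rightRel (Subgroup.zpowers t)) (r g) g := Quotient.mk_out g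
    rw [QuotientGroup.rightRel_apply, ht.mem_zpowers_iff_mem_range_orderOf] at h2
    obtain ⟨n, hn, h3⟩ := Finset.mem_image.1 h2
    exact ⟨n, Finset.mem_range.1 hn, by rw [h3]; simp⟩
  choose n hn hn' using h1
  refine ⟨n, r, hn, hn', fun g => ?_⟩
  have : Quotient.mk (QuotientGroup.rightRel (Subgroup.zpowers t)) (t * g) =
      Quotient.mk (QuotientGroup.rightRel (Subgroup.zpowers t)) g := by
    apply Quotient.sound
    show (QuotientGroup.rightRel (Subgroup.zpowers t)) (t * g) g
    rw [QuotientGroup.rightRel_apply]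
    simp
  simp only [r, this]

theorem norm_shift {G A : Type} [Group G] [AddCommGroup A] (t : G) (f : G → A) (g : G) :
    ∑ i ∈ Finset.range (orderOf t), (f (t * (t ^ i * g)) - f (t ^ i * g)) = 0 := by
  have := Finset.sum_range_sub (fun i => f (t ^ i * g)) (orderOf t)
  simp only [pow_orderOf_eq_one, pow_zero, sub_self, pow_succ', mul_assoc] at this
  exact this

theorem exists_norm {G A : Type} [Group G] [AddCommGroup A] (t : G) (ht : IsOfFinOrder t)
    (f : G → A) (hf : ∀ g, f (t * g) = f g) :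
    ∃ f' : G → A, ∀ g, f g = ∑ i ∈ Finset.range (orderOf t), f' (t ^ i * g) := by
  classical
  obtain ⟨n, r, hn, hnr, hr⟩ := exists_phase t ht
  have hr' : ∀ i g, r (t ^ i * g) = r g := by
    intro i g
    induction i with
    | zero => simp
    | succ i ih => rw [pow_succ', mul_assoc, hr, ih]
  have hf' : ∀ i g, f (t ^ i * g) = f g := by
    intro i g
    induction i with
    | zero => simp
    | succ i ih => rw [pow_succ', mul_assoc, hf, ih]
  refine ⟨fun g => if g = r g then f g else 0, fun g => ?_⟩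
  have hk := ht.orderOf_pos
  have h0 : t ^ ((orderOf t - n g) % orderOf t) * g = r g := by
    rw [pow_mod_orderOf]
    conv_lhs => rw [← hnr g, ← mul_assoc, hnr g, ← pow_add, Nat.sub_add_cancel (hn g).le,
      pow_orderOf_eq_one, one_mul]
  rw [Finset.sum_eq_single ((orderOf t - n g) % orderOf t)]
  · beta_reduce
    rw [hr', if_pos h0, hf']
  · intro i hi hne
    beta_reduce
    rw [hr', if_neg]
    intro h
    rw [← h0] at h
    exact hne (pow_injOn_Iio_orderOf (Finset.mem_range.1 hi) (Nat.mod_lt _ hk)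
      (mul_right_cancel h))
  · intro h; exact (h (Finset.mem_range.2 (Nat.mod_lt _ hk))).elim

theorem exists_diff {G A : Type} [Group G] [AddCommGroup A] (t : G) (ht : IsOfFinOrder t)
    (f : G → A) (hf : ∀ g, ∑ i ∈ Finset.range (orderOf t), f (t ^ i * g) = 0) :
    ∃ f' : G → A, ∀ g, f g = f' (t * g) - f' g := by
  obtain ⟨n, r, hn, hnr, hr⟩ := exists_phase t ht
  refine ⟨fun g => ∑ j ∈ Finset.range (n g), f (t ^ j * r g), fun g => ?_⟩
  have h1 : t ^ n (t * g) = t ^ (n g + 1) := by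
    apply mul_right_cancel (b := r g)
    rw [pow_succ', mul_assoc, hnr, ← hr g, hnr]
  simp only [hr]
  rcases (Nat.succ_le_of_lt (hn g)).lt_or_eq with h | h
  · rw [pow_injOn_Iio_orderOf (hn (t * g)) h h1, Finset.sum_range_succ, hnr]
    simp
  · have h' : n g + 1 = orderOf t := h
    rw [h', pow_orderOf_eq_one, ← pow_zero t] at h1
    rw [pow_injOn_Iio_orderOf (hn (t * g)) ht.orderOf_pos h1]
    have := hf (r g)
    rw [← h', Finset.sum_range_succ, hnr] at this
    simp only [Finset.range_zero, Finset.sum_empty, zero_sub]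
    exact eq_neg_of_add_eq_zero_right this

variable {G : Type} [Group G] {S T : Type} (Q : TriPres G S T)

/-- coboundary of a `0`-cochain -/
def d0 (b : G → ℤ) : G → S → ℤ := fun g s => b (g * Q.x s) - b g

/-- coboundary of a `1`-cochain -/
def d1 (ψ : G → S → ℤ) : G → T → ℤ :=
  fun g t => ψ g (Q.a t) + ψ (g * Q.x (Q.a t)) (Q.b t) - ψ g (Q.c t)

theorem const_of_d0 {b : G → ℤ} (h : ∀ g s, d0 Q b g s = 0) (g : G) : b g = b 1 := by
  have key : ∀ g ∈ Subgroup.closure (Set.range Q.x), ∀ h, b (h * g) = b h := by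
    intro g hg
    induction hg using Subgroup.closure_induction with
    | mem y hy => obtain ⟨s, rfl⟩ := hy; intro k; exact sub_eq_zero.1 (h k s)
    | one => simp
    | mul y z _ _ ihy ihz => intro k; rw [← mul_assoc, ihz, ihy]
    | inv y _ ih => intro k; rw [← ih (k * y⁻¹)]; simp
  simpa using key g (by rw [Q.gen]; trivial) 1

theorem exact_of_d1 {ψ : G → S → ℤ} (h : ∀ g t, d1 Q ψ g t = 0) :
    ∃ b : G → ℤ, ∀ g s, ψ g s = d0 Q b g s := by
  let p : S → Equiv.Perm (G × ℤ) := fun s =>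
    { toFun := fun y => (y.1 * Q.x s, y.2 + ψ y.1 s)
      invFun := fun y => (y.1 * (Q.x s)⁻¹, y.2 - ψ (y.1 * (Q.x s)⁻¹) s)
      left_inv := fun y => by simp
      right_inv := fun y => by simp }
  obtain ⟨F, hF⟩ := Q.univ (Equiv.Perm (G × ℤ))ᵐᵒᵖ (fun s => MulOpposite.op (p s)) (by
    intro t
    rw [← MulOpposite.op_mul]
    congr 1
    ext y
    · simp [p, mul_assoc, Q.rel]
    · have := h y.1 t
      simp only [d1] at this
      simp only [p, Equiv.Perm.mul_apply, Equiv.coe_fn_mk]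
      linarith)
  have key : ∀ g ∈ Subgroup.closure (Set.range Q.x), ∀ y, ((F g).unop y).1 = y.1 * g := by
    intro g hg
    induction hg using Subgroup.closure_induction with
    | mem y hy => obtain ⟨s, rfl⟩ := hy; intro k; rw [hF]; rfl
    | one => simp
    | mul y z _ _ ihy ihz =>
      intro k; rw [map_mul, MulOpposite.unop_mul, Equiv.Perm.mul_apply, ihz, ihy, mul_assoc]
    | inv y _ ih =>
      intro k
      have := ih ((F y⁻¹).unop k)
      rw [← Equiv.Perm.mul_apply, ← MulOpposite.unop_mul, ← map_mul, inv_mul_cancel, map_one]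
        at this
      simp only [MulOpposite.unop_one, Equiv.Perm.coe_one, id_eq] at this
      rw [this]; simp
  refine ⟨fun g => ((F g).unop (1, 0)).2, fun g s => ?_⟩
  have h1 := key g (by rw [Q.gen]; trivial) (1, 0)
  simp only [d0, map_mul, MulOpposite.unop_mul, Equiv.Perm.mul_apply, hF, MulOpposite.unop_op, p,
    Equiv.coe_fn_mk, h1, one_mul]
  ring

end TF

open TF in
theorem TriPres.torsionFree {G : Type} [Group G] {S T : Type} (Q : TriPres G S T) (g : G)
    (hg : IsOfFinOrder g) : g = 1 := by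
  set k := orderOf g with hk
  obtain ⟨a0, ha0⟩ := exists_norm g hg (fun _ => (1 : ℤ)) fun _ => rfl
  obtain ⟨a1, ha1⟩ := exists_diff g hg (d0 Q a0) (by
    intro h
    ext s
    simp only [d0, Finset.sum_apply, Finset.sum_sub_distrib, mul_assoc, ← ha0, sub_self,
      Pi.zero_apply])
  obtain ⟨a2, ha2⟩ := exists_norm g hg (d1 Q a1) (by
    intro h
    ext t
    have e1 := congrFun (ha1 h) (Q.a t)
    have e2 := congrFun (ha1 (h * Q.x (Q.a t))) (Q.b t)
    have e3 := congrFun (ha1 h) (Q.c t)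
    simp only [d0, Pi.sub_apply, mul_assoc, Q.rel] at e1 e2 e3
    simp only [d1, mul_assoc]
    linarith)
  obtain ⟨b1, hb1⟩ := Q.cs ℤ (fun y => a2 y.1 y.2)
  obtain ⟨b0, hb0⟩ := exact_of_d1 Q
    (ψ := fun h s => a1 h s - ∑ i ∈ Finset.range k, b1 (g ^ i * h, s)) (by
      intro h t
      have e1 := congrFun (ha2 h) t
      simp only [Finset.sum_apply, d1, ← hb1, Finset.sum_add_distrib, Finset.sum_sub_distrib,
        mul_assoc, ← hk] at e1
      simp only [d1]
      linarith)
  have h1 : ∀ h, a0 h - (b0 (g * h) - b0 h) = a0 1 - (b0 (g * 1) - b0 1) :=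
    const_of_d0 Q (b := fun h => a0 h - (b0 (g * h) - b0 h)) (by
      intro h s
      have e1 := congrFun (ha1 h) s
      have e2 := hb0 h s
      have e3 := hb0 (g * h) s
      have e4 := norm_shift g (fun y => b1 (y, s)) h
      simp only [d0, Pi.sub_apply, mul_assoc] at e1 e2 e3 ⊢
      simp only [Finset.sum_sub_distrib, ← hk, ← mul_assoc, ← pow_succ'] at e4
      simp only [← mul_assoc g, ← mul_assoc (g ^ _), ← pow_succ] at e3
      simp only [mul_assoc] at e3
      linarith)
  have h2 := ha0 1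
  have h3 := norm_shift g b0 1
  have h4 : ∑ i ∈ Finset.range k, (a0 (g ^ i * 1) - (b0 (g * (g ^ i * 1)) - b0 (g ^ i * 1))) =
      k * (a0 1 - (b0 (g * 1) - b0 1)) := by
    simp only [h1, Finset.sum_const, Finset.card_range, nsmul_eq_mul]
  rw [Finset.sum_sub_distrib, h3, ← h2, sub_zero] at h4
  have h5 : (k : ℤ) = 1 := Int.eq_one_of_mul_eq_one_right (Int.natCast_nonneg k) h4.symm
  exact orderOf_eq_one_iff.1 (by exact_mod_cast h5)


end Crest.Agent.R177
end

-- ▼ part PVa/R177/TopDefs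
section

/-!
The Cayley complex of a triangular presentation: abstract interface.
-/

set_option autoImplicit false

namespace Crest.Agent.R177

open unitInterval

/-- The triangle, with barycentric coordinates `(1 - p.1 - p.2, p.1, p.2)`. -/
abbrev Tri : Type := {p : ℝ × ℝ // 0 ≤ p.1 ∧ 0 ≤ p.2 ∧ p.1 + p.2 ≤ 1}

/-- The side from vertex `0` to vertex `1`. -/
def d01 : C(I, Tri) :=
  ⟨fun r => ⟨((r : ℝ), 0), r.2.1, le_rfl, by simpa using r.2.2⟩, by fun_prop⟩

/-- The side from vertex `1` to vertex `2`. -/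
def d12 : C(I, Tri) :=
  ⟨fun r => ⟨(1 - (r : ℝ), (r : ℝ)), by simpa using r.2.2, r.2.1, by simp⟩, by fun_prop⟩

/-- The side from vertex `0` to vertex `2`. -/
def d02 : C(I, Tri) :=
  ⟨fun r => ⟨(0, (r : ℝ)), le_rfl, r.2.1, by simpa using r.2.2⟩, by fun_prop⟩

/-- Compatible maps from the cells of the Cayley complex to a space `E`. -/
structure CellMaps {G : Type} [Group G] {S T : Type} (Q : TriPres G S T) (E : Type)
    [TopologicalSpace E] where
  v : G → E
  e : G × S → C(I, E)
  f : G × T → C(Tri, E)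
  e0 : ∀ g s, e (g, s) 0 = v g
  e1 : ∀ g s, e (g, s) 1 = v (g * Q.x s)
  f01 : ∀ g t r, f (g, t) (d01 r) = e (g, Q.a t) r
  f12 : ∀ g t r, f (g, t) (d12 r) = e (g * Q.x (Q.a t), Q.b t) r
  f02 : ∀ g t r, f (g, t) (d02 r) = e (g, Q.c t) r

/-- `E` is the colimit of its cells. -/
structure IsCellSpace {G : Type} [Group G] {S T : Type} {Q : TriPres G S T} {E : Type}
    [TopologicalSpace E] (c : CellMaps Q E) : Prop where
  surj : ∀ z : E, (∃ g, c.v g = z) ∨ (∃ i r, c.e i r = z) ∨ ∃ i p, c.f i p = z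
  glue : ∀ (Y : Type) [TopologicalSpace Y] (c' : CellMaps Q Y), ∃ F : C(E, Y),
    (∀ g, F (c.v g) = c'.v g) ∧ (∀ i r, F (c.e i r) = c'.e i r) ∧ ∀ i p, F (c.f i p) = c'.f i p

end Crest.Agent.R177
end

-- ▼ part PVa/R177/TopA1
section

/-! Task R177-TA, part 1: spaces of paths over a cell, the action of loops in the loop space. -/

set_option autoImplicit false

namespace Crest.Agent.R177.TopA

open unitInterval Set

variable {E : Type} [TopologicalSpace E]

/-- clamp to the unit interval -/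
noncomputable abbrev pj (x : ℝ) : I := projIcc (0 : ℝ) 1 zero_le_one x

/-- two paths, parametrised by `[-1, 0]` and `[0, 1]` -/
noncomputable def cext (γ γ' : C(I, E)) (τ : ℝ) : E :=
  if τ ≤ 0 then γ (pj (τ + 1)) else γ' (pj τ)

lemma continuous_cext {Z : Type*} [TopologicalSpace Z] {A B : Z → C(I, E)} (hA : Continuous A)
    (hB : Continuous B) (h : ∀ z, A z 1 = B z 0) {w : Z → ℝ} (hw : Continuous w) :
    Continuous fun z => cext (A z) (B z) (w z) := by
  unfold cext
  refine Continuous.if_le ?_ ?_ hw continuous_const ?_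
  · exact hA.eval (continuous_projIcc.comp (hw.add continuous_const))
  · exact hB.eval (continuous_projIcc.comp hw)
  · intro z hz
    simp [hz, h z]

lemma cext_sub_one (γ γ' : C(I, E)) (t : I) : cext γ γ' ((t : ℝ) - 1) = γ t := by
  have : (t : ℝ) - 1 ≤ 0 := by linarith [t.2.2]
  simp [cext, this]

lemma cext_neg (γ γ' : C(I, E)) (t : I) : cext γ γ' (-(t : ℝ)) = γ (σ t) := by
  rw [← cext_sub_one γ γ' (σ t)]
  congr 1
  simp

lemma cext_coe {γ γ' : C(I, E)} (h : γ 1 = γ' 0) (t : I) : cext γ γ' (t : ℝ) = γ' t := by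
  unfold cext
  split_ifs with ht
  · have : t = 0 := Subtype.ext (le_antisymm ht t.2.1)
    subst this
    simpa using h
  · simp

/-- concatenation -/
noncomputable def cat (γ γ' : C(I, E)) (h : γ 1 = γ' 0) : C(I, E) :=
  ⟨fun t => cext γ γ' (2 * (t : ℝ) - 1),
    continuous_cext continuous_const continuous_const (fun _ => h) (by fun_prop)⟩

lemma cat_apply (γ γ' : C(I, E)) (h : γ 1 = γ' 0) (t : I) :
    cat γ γ' h t = cext γ γ' (2 * (t : ℝ) - 1) := rfl

lemma cat_zero (γ γ' : C(I, E)) (h : γ 1 = γ' 0) : cat γ γ' h 0 = γ 0 := by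
  rw [← cext_sub_one γ γ' 0, cat_apply]; simp

lemma cat_one (γ γ' : C(I, E)) (h : γ 1 = γ' 0) : cat γ γ' h 1 = γ' 1 := by
  rw [← cext_coe h 1, cat_apply]; norm_num

lemma continuous_cat {Z : Type*} [TopologicalSpace Z] {A B : Z → C(I, E)} (hA : Continuous A)
    (hB : Continuous B) (h : ∀ z, A z 1 = B z 0) : Continuous fun z => cat (A z) (B z) (h z) := by
  refine ContinuousMap.continuous_of_continuous_uncurry _ ?_
  exact continuous_cext (Z := Z × I) (hA.comp continuous_fst) (hB.comp continuous_fst)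
    (fun z => h z.1) (w := fun z => 2 * (z.2 : ℝ) - 1) (by fun_prop)

lemma cat_congr {γ₁ γ₂ γ₁' γ₂' : C(I, E)} (e1 : γ₁ = γ₂) (e2 : γ₁' = γ₂') (h : γ₁ 1 = γ₁' 0)
    (h' : γ₂ 1 = γ₂' 0) : cat γ₁ γ₁' h = cat γ₂ γ₂' h' := by
  subst e1 e2; rfl

lemma cat_eq_trans {x y z : E} (p : Path x y) (q : Path y z)
    (h : p.toContinuousMap 1 = q.toContinuousMap 0) :
    cat p.toContinuousMap q.toContinuousMap h = (p.trans q).toContinuousMap := by
  ext t
  rw [cat_apply, Path.coe_toContinuousMap, Path.trans_apply]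
  unfold cext
  by_cases ht : (t : ℝ) ≤ 1 / 2
  · rw [if_pos (by linarith), dif_pos ht, Path.coe_toContinuousMap]
    congr 1
    rw [sub_add_cancel]
    exact projIcc_of_mem _ _
  · rw [if_neg (by linarith), dif_neg ht, Path.coe_toContinuousMap]
    congr 1
    exact projIcc_of_mem _ _

variable {K : Type} [TopologicalSpace K]

/-- points of the cell with a path to the base point -/
abbrev PP (o : E) (χ : C(K, E)) : Type := {y : K × C(I, E) // y.2 0 = χ y.1 ∧ y.2 1 = o}

/-- the loop space -/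
abbrev Om (o : E) : Type := PP o (ContinuousMap.const Unit o)

/-- the constant loop -/
def cst (o : E) : Om o := ⟨((), ContinuousMap.const I o), rfl, rfl⟩

variable {o : E} {χ : C(K, E)}

/-- constructor -/
def mkP (k : K) (γ : C(I, E)) (h0 : γ 0 = χ k) (h1 : γ 1 = o) : PP o χ := ⟨(k, γ), h0, h1⟩

lemma continuous_mkP {Z : Type*} [TopologicalSpace Z] {a : Z → K} {A : Z → C(I, E)}
    (ha : Continuous a) (hA : Continuous A) (h0 : ∀ z, A z 0 = χ (a z)) (h1 : ∀ z, A z 1 = o) :
    Continuous fun z => mkP (a z) (A z) (h0 z) (h1 z) :=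
  Continuous.subtype_mk (Continuous.prodMk ha hA) _

lemma mu_aux (y : PP o χ) (ω : Om o) : y.1.2 1 = ω.1.2 0 := y.2.2.trans ω.2.1.symm

noncomputable def mu (y : PP o χ) (ω : Om o) : PP o χ :=
  mkP y.1.1 (cat y.1.2 ω.1.2 (mu_aux y ω)) ((cat_zero _ _ _).trans y.2.1)
    ((cat_one _ _ _).trans ω.2.2)

lemma continuous_mu {Z : Type*} [TopologicalSpace Z] {A : Z → PP o χ} {B : Z → Om o}
    (hA : Continuous A) (hB : Continuous B) : Continuous fun z => mu (A z) (B z) :=
  continuous_mkP (a := fun z => (A z).1.1) (by fun_prop)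
    (continuous_cat (A := fun z => (A z).1.2) (B := fun z => (B z).1.2) (by fun_prop) (by fun_prop)
      (fun z => mu_aux (A z) (B z))) _ _

/-- reparametrised pair of paths -/
noncomputable def rep (γ γ' : C(I, E)) (h : γ 1 = γ' 0) (w : I → ℝ) (hw : Continuous w) : C(I, E) :=
  ⟨fun t => cext γ γ' (w t), continuous_cext continuous_const continuous_const (fun _ => h) hw⟩

lemma rep_apply (γ γ' : C(I, E)) (h : γ 1 = γ' 0) (w : I → ℝ) (hw : Continuous w) (t : I) :
    rep γ γ' h w hw t = cext γ γ' (w t) := rfl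

lemma continuous_rep {Z : Type*} [TopologicalSpace Z] {A B : Z → C(I, E)} (hA : Continuous A)
    (hB : Continuous B) (h : ∀ z, A z 1 = B z 0) {w : Z → I → ℝ}
    (hw : Continuous fun z : Z × I => w z.1 z.2) (hw' : ∀ z, Continuous (w z)) :
    Continuous fun z => rep (A z) (B z) (h z) (w z) (hw' z) := by
  refine ContinuousMap.continuous_of_continuous_uncurry _ ?_
  exact continuous_cext (Z := Z × I) (hA.comp continuous_fst) (hB.comp continuous_fst)
    (fun z => h z.1) hw

noncomputable def UU (o : E) (χ : C(K, E)) : C(PP o χ, PP o χ) :=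
  ⟨fun y => mu y (cst o), continuous_mu continuous_id continuous_const⟩

noncomputable def JJ (y : PP o χ) : C(Om o, PP o χ) :=
  ⟨fun ω => mu y ω, continuous_mu continuous_const continuous_id⟩

/-- `γ · const ≃ γ` -/
noncomputable def trH (o : E) (χ : C(K, E)) : (UU o χ).Homotopy (ContinuousMap.id _) where
  toFun z := mkP z.2.1.1 (rep z.2.1.2 (ContinuousMap.const I o) z.2.2.2
      (fun t => (2 - (z.1 : ℝ)) * t - 1) (by fun_prop))
      (by
        refine Eq.trans ?_ ((cext_sub_one z.2.1.2 (ContinuousMap.const I o) 0).trans z.2.2.1)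
        simp [rep_apply])
      (by
        refine Eq.trans ?_ (cext_coe (γ' := ContinuousMap.const I o) z.2.2.2 (σ z.1))
        rw [rep_apply]
        congr 1
        simp only [Icc.coe_one, coe_symm_eq]
        ring)
  continuous_toFun := by
    refine continuous_mkP ?_ (continuous_rep ?_ ?_ _ ?_ _) _ _ <;> fun_prop
  map_zero_left y := by
    refine Subtype.ext (Prod.ext rfl ?_)
    ext t
    simp [UU, mu, mkP, cat_apply, cst, rep_apply]
  map_one_left y := by
    refine Subtype.ext (Prod.ext rfl ?_)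
    ext t
    refine Eq.trans ?_ (cext_sub_one y.1.2 (ContinuousMap.const I o) t)
    simp only [mkP, rep_apply, Icc.coe_one]
    congr 1
    ring

/-- homotopy classes of paths -/
abbrev Q {X : Type} [TopologicalSpace X] (x y : X) : Type := Path.Homotopic.Quotient x y

section groupoid
open Path.Homotopic.Quotient
variable {X Y : Type} [TopologicalSpace X] [TopologicalSpace Y] {x y z : X}

lemma symm_trans_cancel (a : Q x y) (b : Q y z) : a.symm.trans (a.trans b) = b := by
  rw [← trans_assoc, symm_trans, refl_trans]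

lemma trans_symm_cancel (a : Q y x) (b : Q y z) : a.trans (a.symm.trans b) = b := by
  rw [← trans_assoc, trans_symm, refl_trans]

lemma cancel_left (a : Q x y) {b c : Q y z} (h : a.trans b = a.trans c) : b = c := by
  rw [← symm_trans_cancel a b, h, symm_trans_cancel]


lemma map_trans' (a : Q x y) (b : Q y z) (f : C(X, Y)) :
    (a.trans b).map f = (a.map f).trans (b.map f) :=
  (FundamentalGroupoid.map f).map_comp (X := ⟨x⟩) (Y := ⟨y⟩) (Z := ⟨z⟩) a b

lemma map_symm' (a : Q x y) (f : C(X, Y)) : a.symm.map f = (a.map f).symm := by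
  apply cancel_left (a.map f)
  rw [← map_trans', trans_symm, trans_symm]
  rfl

lemma symm_trans' (a : Q x y) (b : Q y z) : (a.trans b).symm = b.symm.trans a.symm := by
  apply cancel_left (a.trans b)
  rw [trans_symm, trans_assoc, trans_symm_cancel, trans_symm]

lemma symm_symm' (a : Q x y) : a.symm.symm = a := by
  apply cancel_left a.symm
  rw [trans_symm, symm_trans]

lemma map_id' (a : Q x y) : a.map (ContinuousMap.id X) = a := by
  induction a using Path.Homotopic.Quotient.ind
  rfl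

lemma nat_homotopy {f g : C(X, Y)} (H : f.Homotopy g) (m : Q x y) :
    (m.map f).trans (mk (H.evalAt y)) = (mk (H.evalAt x)).trans (m.map g) := by
  induction m using Path.Homotopic.Quotient.ind with
  | mk p => exact Path.Homotopic.Quotient.eq.2 (Path.Homotopic.map_trans_evalAt H p)

end groupoid

open Path.Homotopic.Quotient

noncomputable def trq (y : PP o χ) : Q (mu y (cst o)) y := mk ((trH o χ).evalAt y)

noncomputable def muq (y : PP o χ) {ω ω' : Om o} (A : Q ω ω') : Q (mu y ω) (mu y ω') :=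
  A.map (JJ y)

noncomputable def mapU {y y' : PP o χ} (m : Q y y') : Q (mu y (cst o)) (mu y' (cst o)) :=
  m.map (UU o χ)

lemma muq_trans (y : PP o χ) {ω ω' ω'' : Om o} (A : Q ω ω') (B : Q ω' ω'') :
    muq y (A.trans B) = (muq y A).trans (muq y B) := map_trans' A B (JJ y)

lemma muq_symm (y : PP o χ) {ω ω' : Om o} (A : Q ω ω') : muq y A.symm = (muq y A).symm :=
  map_symm' A (JJ y)

lemma trq_nat {y y' : PP o χ} (m : Q y y') : (mapU m).trans (trq y') = (trq y).trans m := by
  have := nat_homotopy (trH o χ) m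
  rw [map_id'] at this
  exact this

lemma muq_nat {y y' : PP o χ} (m : Q y y') (A : Q (cst o) (cst o)) :
    (mapU m).trans (muq y' A) = (muq y A).trans (mapU m) := by
  induction A using Path.Homotopic.Quotient.ind with
  | mk A =>
    let H : (UU o χ).Homotopy (UU o χ) :=
      { toFun := fun z => mu z.2 (A z.1)
        continuous_toFun := continuous_mu continuous_snd (by fun_prop)
        map_zero_left := fun y => by simp [UU]
        map_one_left := fun y => by simp [UU] }
    exact nat_homotopy H m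

/-- the action of loops in the loop space -/
noncomputable def act (y : PP o χ) (A : Q (cst o) (cst o)) : Q y y :=
  (trq y).symm.trans ((muq y A).trans (trq y))

lemma act_trans (y : PP o χ) (A B : Q (cst o) (cst o)) :
    act y (A.trans B) = (act y A).trans (act y B) := by
  simp only [act, muq_trans, trans_assoc, trans_symm_cancel]

lemma act_nat {y y' : PP o χ} (m : Q y y') (A : Q (cst o) (cst o)) :
    (act y A).trans m = m.trans (act y' A) := by
  apply cancel_left (trq y)
  simp only [act, trans_assoc, trans_symm_cancel]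
  rw [← trq_nat, ← trans_assoc, ← muq_nat, ← trans_assoc (trq y), ← trq_nat]
  simp only [trans_assoc, trans_symm_cancel]

lemma ab_aux {G H : Type*} [Group G] [Group H] (φ : G → H) (h1 : ∀ a b, φ (a * b) = φ a * φ b)
    (h2 : ∀ a m, m * φ a = φ a * m) {A B C D : G}
    (h : Abelianization.of A * Abelianization.of B / Abelianization.of C = Abelianization.of D) :
    φ B * φ A = φ D * φ C := by
  let _ : CommGroup (Subgroup.center H) :=
    { (inferInstance : Group (Subgroup.center H)) with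
      mul_comm := fun a b => Subtype.ext (Subgroup.mem_center_iff.1 b.2 a) }
  let f : G →* Subgroup.center H := MonoidHom.mk'
    (fun a => ⟨φ a, Subgroup.mem_center_iff.2 (h2 a)⟩) (fun a b => Subtype.ext (h1 a b))
  have h3 := congrArg (Abelianization.lift f) h
  simp only [map_div, map_mul, Abelianization.lift_apply_of] at h3
  rw [div_eq_iff_eq_mul, mul_comm (f A)] at h3
  exact congrArg Subtype.val h3

lemma act_of_ab (y : PP o χ) {A B C D : FundamentalGroup (Om o) (cst o)}
    (h : Abelianization.of A * Abelianization.of B / Abelianization.of C = Abelianization.of D) :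
    (act y A).trans (act y B) = (act y C).trans (act y D) :=
  ab_aux (G := FundamentalGroup (Om o) (cst o)) (H := FundamentalGroup (PP o χ) y)
    (fun A => act y A) (fun A B => act_trans y B A)
    (fun A m => act_nat m A) h

/-- face maps -/
def face {K' : Type} [TopologicalSpace K'] {χ' : C(K', E)} (d : C(K', K)) (hd : ∀ k, χ (d k) = χ' k) :
    C(PP o χ', PP o χ) :=
  ⟨fun y => mkP (d y.1.1) y.1.2 (y.2.1.trans (hd _).symm) y.2.2,
    by refine continuous_mkP ?_ ?_ _ _ <;> fun_prop⟩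

lemma act_face {K' : Type} [TopologicalSpace K'] {χ' : C(K', E)} (d : C(K', K))
    (hd : ∀ k, χ (d k) = χ' k) (y : PP o χ') (A : Q (cst o) (cst o)) :
    (act y A).map (face d hd) = act (face d hd y) A := by
  induction A using Path.Homotopic.Quotient.ind with
  | mk A =>
    unfold act
    rw [map_trans', map_trans', map_symm']
    rfl

lemma act_face_cast {K' : Type} [TopologicalSpace K'] {χ' : C(K', E)} (d : C(K', K))
    (hd : ∀ k, χ (d k) = χ' k) {y y' : PP o χ'} (A : Q (cst o) (cst o)) (η : Q y y')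
    {z z' : PP o χ} (h : z = face d hd y) (h' : z' = face d hd y') :
    (((act y A).trans η).map (face d hd)).cast h h' =
      (act z A).trans ((η.map (face d hd)).cast h h') := by
  subst h h'
  rw [cast_rfl_rfl, cast_rfl_rfl, map_trans', act_face]

lemma joined_of_homotopic {x : E} (k : K) (hk : x = χ k) {p q : Path x o} (h : p.Homotopic q) :
    Joined (⟨(k, p.toContinuousMap), p.source.trans hk, p.target⟩ : PP o χ)
      ⟨(k, q.toContinuousMap), q.source.trans hk, q.target⟩ := by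
  obtain ⟨H⟩ := h
  refine ⟨⟨⟨fun s => ⟨(k, H.toContinuousMap.curry s), (H.source s).trans hk, H.target s⟩,
    by fun_prop⟩, ?_, ?_⟩⟩
  · refine Subtype.ext (Prod.ext rfl ?_)
    ext t
    exact H.apply_zero t
  · refine Subtype.ext (Prod.ext rfl ?_)
    ext t
    exact H.apply_one t

/-- segments in a convex cell -/
structure Seg (K : Type) [TopologicalSpace K] where
  s : C(K × K × I, K)
  s0 : ∀ k k', s (k, k', 0) = k
  s1 : ∀ k k', s (k, k', 1) = k'
  sk : ∀ k u, s (k, k, u) = k

/-- the image of a segment -/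
def Seg.path (S : Seg K) (χ : C(K, E)) (k k' : K) : C(I, E) :=
  ⟨fun u => χ (S.s (k, k', u)), by fun_prop⟩

lemma Seg.path_apply (S : Seg K) (χ : C(K, E)) (k k' : K) (u : I) :
    S.path χ k k' u = χ (S.s (k, k', u)) := rfl

lemma Seg.continuous_path (S : Seg K) (χ : C(K, E)) {Z : Type*} [TopologicalSpace Z] {a b : Z → K}
    (ha : Continuous a) (hb : Continuous b) : Continuous fun z => S.path χ (a z) (b z) := by
  refine ContinuousMap.continuous_of_continuous_uncurry _ ?_
  change Continuous fun z : Z × I => χ (S.s (a z.1, b z.1, z.2))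
  fun_prop

lemma Seg.homotopic (S : Seg K) {k k' : K} (p q : Path k k') : p.Homotopic q :=
  ⟨{ toFun := fun z => S.s (p z.2, q z.2, z.1)
     continuous_toFun := by fun_prop
     map_zero_left := fun t => S.s0 _ _
     map_one_left := fun t => S.s1 _ _
     prop' := fun s t ht => by
       rcases ht with rfl | rfl
       · simp [S.sk]
       · simp [S.sk] }⟩

lemma Seg.path_one (S : Seg K) (k : K) (y : PP o χ) : S.path χ k y.1.1 1 = y.1.2 0 := by
  rw [S.path_apply, S.s1, y.2.1]

/-- move to the base point `k₀` of the cell -/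
noncomputable def DD (S : Seg K) (o : E) (χ : C(K, E)) (k₀ : K) : C(PP o χ, PP o χ) :=
  ⟨fun y => mkP k₀ (cat (S.path χ k₀ y.1.1) y.1.2 (S.path_one k₀ y))
      (by rw [cat_zero, S.path_apply, S.s0]) ((cat_one _ _ _).trans y.2.2),
    by refine continuous_mkP ?_ (continuous_cat (S.continuous_path χ ?_ ?_) ?_ _) _ _ <;> fun_prop⟩

noncomputable def slideH (S : Seg K) (o : E) (χ : C(K, E)) (k₀ : K) :
    (ContinuousMap.id _).Homotopy (DD S o χ k₀) where
  toFun z := mkP (S.s (k₀, z.2.1.1, σ z.1)) (rep (S.path χ k₀ z.2.1.1) z.2.1.2 (S.path_one k₀ z.2)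
      (fun t => (1 + (z.1 : ℝ)) * t - z.1) (by fun_prop))
      (by
        refine Eq.trans ?_ (cext_neg (S.path χ k₀ z.2.1.1) z.2.1.2 z.1)
        simp [rep_apply])
      (by
        refine Eq.trans ?_ ((cext_coe (S.path_one k₀ z.2) 1).trans z.2.2.2)
        simp [rep_apply])
  continuous_toFun := by
    refine continuous_mkP ?_ (continuous_rep (S.continuous_path χ ?_ ?_) ?_ _ ?_ _) _ _ <;> fun_prop
  map_zero_left y := by
    refine Subtype.ext (Prod.ext (by simp [S.s1, mkP]) ?_)
    ext t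
    refine Eq.trans ?_ (cext_coe (S.path_one k₀ y) t)
    simp [mkP, rep_apply]
  map_one_left y := by
    refine Subtype.ext (Prod.ext (by simp [S.s0, DD, mkP]) ?_)
    ext t
    simp only [DD, mkP, rep_apply, ContinuousMap.coe_mk, cat_apply, Icc.coe_one]
    congr 1
    ring

/-- reversed path -/
def rev (γ : C(I, E)) : C(I, E) := ⟨fun t => γ (σ t), by fun_prop⟩

lemma rev_one (S : Seg K) (y₀ y : PP o χ) : rev y₀.1.2 1 = (DD S o χ y₀.1.1 y).1.2 0 := by
  rw [(DD S o χ y₀.1.1 y).2.1]
  simpa [rev, DD, mkP] using y₀.2.1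

noncomputable def RR (S : Seg K) (y₀ : PP o χ) : C(PP o χ, Om o) :=
  ⟨fun y => mkP () (cat (rev y₀.1.2) (DD S o χ y₀.1.1 y).1.2 (rev_one S y₀ y))
      (by rw [cat_zero]; simpa [rev] using y₀.2.2)
      ((cat_one _ _ _).trans (DD S o χ y₀.1.1 y).2.2),
    by
      refine continuous_mkP ?_ (continuous_cat ?_ ?_ _) _ _
      · fun_prop
      · fun_prop
      · exact continuous_snd.comp (continuous_subtype_val.comp (DD S o χ y₀.1.1).continuous)⟩

noncomputable def foldH (S : Seg K) (y₀ : PP o χ) :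
    (DD S o χ y₀.1.1).Homotopy ((JJ y₀).comp (RR S y₀)) where
  toFun z := mkP y₀.1.1 (rep (rev y₀.1.2) (DD S o χ y₀.1.1 z.2).1.2 (rev_one S y₀ z.2)
      (fun t => (1 - (z.1 : ℝ)) * t + z.1 * max (-(2 * (t : ℝ))) (4 * t - 3)) (by fun_prop))
      (by
        refine Eq.trans ?_ ((cext_coe (rev_one S y₀ z.2) 0).trans (DD S o χ y₀.1.1 z.2).2.1)
        simp [rep_apply])
      (by
        refine Eq.trans ?_ ((cext_coe (rev_one S y₀ z.2) 1).trans (DD S o χ y₀.1.1 z.2).2.2)
        simp only [rep_apply, Icc.coe_one]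
        congr 1
        norm_num)
  continuous_toFun := by
    refine continuous_mkP ?_ (continuous_rep ?_ ?_ _ ?_ _) _ _
    · fun_prop
    · fun_prop
    · exact continuous_snd.comp (continuous_subtype_val.comp
        ((DD S o χ y₀.1.1).continuous.comp continuous_snd))
    · fun_prop
  map_zero_left y := by
    refine Subtype.ext (Prod.ext rfl ?_)
    ext t
    refine Eq.trans ?_ (cext_coe (rev_one S y₀ y) t)
    simp [mkP, rep_apply]
  map_one_left y := by
    refine Subtype.ext (Prod.ext rfl ?_)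
    ext t
    change cext _ _ _ = cext y₀.1.2 (cat (rev y₀.1.2) _ (rev_one S y₀ y)) (2 * (t : ℝ) - 1)
    simp only [Icc.coe_one, sub_self, zero_mul, one_mul, zero_add]
    by_cases ht : (t : ℝ) ≤ 1 / 2
    · have h2 : 2 * (t : ℝ) ∈ I := ⟨by linarith [t.2.1], by linarith⟩
      rw [max_eq_left (by linarith), cext_neg _ _ ⟨_, h2⟩, cext_sub_one _ _ ⟨_, h2⟩]
      simp [rev]
    · have h2 : 2 * (t : ℝ) - 1 ∈ I := ⟨by linarith, by linarith [t.2.2]⟩
      rw [max_eq_right (by linarith), cext_coe _ ⟨_, h2⟩, cat_apply]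
      · congr 1
        ring
      · rw [cat_zero]; simp [rev]

lemma joined_RR (S : Seg K) (y₀ : PP o χ) : Joined (cst o) (RR S y₀ y₀) := by
  let P : Path (χ y₀.1.1) o := ⟨y₀.1.2, y₀.2.1, y₀.2.2⟩
  have h : (Path.refl o).Homotopic (P.symm.trans ((Path.refl _).trans P)) :=
    ((((Path.Homotopic.refl _).hcomp (Path.Homotopic.refl_trans P))).trans
      (Path.Homotopic.symm_trans P)).symm
  have := joined_of_homotopic (χ := ContinuousMap.const Unit o) () rfl h
  refine (congrArg (Joined (cst o)) ?_).mpr this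
  refine Subtype.ext (Prod.ext rfl ?_)
  change cat _ _ (rev_one S y₀ y₀) = (P.symm.trans ((Path.refl _).trans P)).toContinuousMap
  rw [← cat_eq_trans _ _ (by simp)]
  refine cat_congr rfl ?_ _ _
  rw [← cat_eq_trans _ _ (by simp)]
  refine cat_congr ?_ rfl (S.path_one y₀.1.1 y₀) _
  ext u
  simp [S.path_apply, S.sk]

/-- every loop over a convex cell comes from the loop space -/
lemma act_surj (S : Seg K) (y₀ : PP o χ) (m : Q y₀ y₀) : ∃ A, act y₀ A = m := by
  obtain ⟨ρ⟩ := joined_RR S y₀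
  let τ : Q y₀ (mu y₀ (RR S y₀ y₀)) := mk (((slideH S o χ y₀.1.1).trans (foldH S y₀)).evalAt y₀)
  let m' : Q (RR S y₀ y₀) (RR S y₀ y₀) := m.map (RR S y₀)
  have h1 : m.trans τ = τ.trans (muq y₀ m') := by
    have := nat_homotopy ((slideH S o χ y₀.1.1).trans (foldH S y₀)) m
    rw [map_id', map_comp] at this
    exact this
  refine ⟨(mk ρ).trans (m'.trans (mk ρ).symm), ?_⟩
  set A := (mk ρ).trans (m'.trans (mk ρ).symm) with hA
  let n : Q y₀ y₀ := (trq y₀).symm.trans ((muq y₀ (mk ρ)).trans τ.symm)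
  have h2 : (act y₀ A).trans n = n.trans m := by
    simp only [act, hA, n, muq_trans, muq_symm, trans_assoc, trans_symm_cancel, symm_trans_cancel]
    congr 2
    apply cancel_left τ
    rw [trans_symm_cancel, ← trans_assoc, ← h1, trans_assoc, trans_symm, trans_refl]
  rw [act_nat] at h2
  exact cancel_left n h2

end Crest.Agent.R177.TopA
end

-- ▼ part PVa/R177/TopA2
section

/-! Task R177-TA, part 2: filling triangles, segments, the non-abelian cocycle lemma. -/

set_option autoImplicit false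

namespace Crest.Agent.R177.TopA

open unitInterval Set

/-- segments in the interval -/
def segI : Seg I where
  s := ⟨fun z => ⟨(1 - (z.2.2 : ℝ)) * z.1 + z.2.2 * z.2.1, by
      have := z.1.2.1; have := z.2.1.2.1; have := z.2.2.2.1; have := z.2.2.2.2
      nlinarith, by
      have := z.1.2.2; have := z.2.1.2.2; have := z.2.2.2.1; have := z.2.2.2.2
      nlinarith⟩, by fun_prop⟩
  s0 k k' := by simp
  s1 k k' := by simp
  sk k u := by ext; simp; ring

lemma segI_coe (a b u : I) : (segI.s (a, b, u) : ℝ) = (1 - (u : ℝ)) * a + u * b := rfl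

/-- segments in the triangle -/
def segT : Seg Tri where
  s := ⟨fun z => ⟨((1 - (z.2.2 : ℝ)) * z.1.1.1 + z.2.2 * z.2.1.1.1,
      (1 - (z.2.2 : ℝ)) * z.1.1.2 + z.2.2 * z.2.1.1.2), by
      have := z.1.2.1; have := z.2.1.2.1; have := z.2.2.2.1; have := z.2.2.2.2
      dsimp only
      nlinarith, by
      have := z.1.2.2.1; have := z.2.1.2.2.1; have := z.2.2.2.1; have := z.2.2.2.2
      dsimp only
      nlinarith, by
      have := z.1.2.2.2; have := z.2.1.2.2.2; have := z.2.2.2.1; have := z.2.2.2.2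
      dsimp only
      nlinarith⟩, by fun_prop⟩
  s0 k k' := by simp
  s1 k k' := by simp
  sk k u := by ext <;> simp <;> ring

lemma segT_coe (a b : Tri) (u : I) : (segT.s (a, b, u)).1 =
    ((1 - (u : ℝ)) * a.1.1 + u * b.1.1, (1 - (u : ℝ)) * a.1.2 + u * b.1.2) := rfl

lemma seg_d01 (a b u : I) : segT.s (d01 a, d01 b, u) = d01 (segI.s (a, b, u)) := by
  apply Subtype.ext
  simp [segT_coe, d01, segI_coe]

lemma seg_d12 (a b u : I) : segT.s (d12 a, d12 b, u) = d12 (segI.s (a, b, u)) := by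
  apply Subtype.ext
  simp only [segT_coe, d12, segI_coe, ContinuousMap.coe_mk, Prod.mk.injEq, and_true]
  ring

lemma seg_d02 (a b u : I) : segT.s (d02 a, d02 b, u) = d02 (segI.s (a, b, u)) := by
  apply Subtype.ext
  simp [segT_coe, d02, segI_coe]

lemma d_00 : d02 0 = d01 0 := by apply Subtype.ext; simp [d01, d02]
lemma d_11 : d12 0 = d01 1 := by apply Subtype.ext; simp [d01, d12]
lemma d_22 : d12 1 = d02 1 := by apply Subtype.ext; simp [d02, d12]

/-- the square onto the triangle -/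
noncomputable def sq : C(I × I, Tri) :=
  ⟨fun z => ⟨(2 * (1 - (z.1 : ℝ)) * min (z.2 : ℝ) (1 - z.2),
      (z.2 : ℝ) - (1 - (z.1 : ℝ)) * min (z.2 : ℝ) (1 - z.2)), by
    have h1 := z.1.2.1; have h2 := z.1.2.2; have h3 := z.2.2.1; have h4 := z.2.2.2
    have h5 := min_le_left (z.2 : ℝ) (1 - z.2)
    have h6 := min_le_right (z.2 : ℝ) (1 - z.2)
    have h7 : 0 ≤ min (z.2 : ℝ) (1 - z.2) := le_min h3 (by linarith)
    dsimp only
    refine ⟨by nlinarith, by nlinarith, by nlinarith⟩⟩, by fun_prop⟩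

lemma sq_coe (s u : I) : (sq (s, u)).1 = (2 * (1 - (s : ℝ)) * min (u : ℝ) (1 - u),
    (u : ℝ) - (1 - (s : ℝ)) * min (u : ℝ) (1 - u)) := rfl

lemma sq_surj : Function.Surjective sq := by
  rintro ⟨⟨a, b⟩, ha, hb, hab⟩
  dsimp only at ha hb hab
  have hu : b + a / 2 ∈ I := ⟨by linarith, by linarith⟩
  set m := min (b + a / 2) (1 - (b + a / 2)) with hm
  have h1 : a / 2 ≤ m := le_min (by linarith) (by linarith)
  by_cases h0 : m = 0
  · refine ⟨(0, ⟨_, hu⟩), Subtype.ext ?_⟩
    have : a = 0 := by linarith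
    rw [sq_coe]
    simp only [← hm, h0]
    simp [this]
  · have hm0 : 0 < m := lt_of_le_of_ne (by linarith) (Ne.symm h0)
    have hs : 1 - a / (2 * m) ∈ I := by
      constructor
      · rw [sub_nonneg, div_le_one (by linarith)]; linarith
      · have : 0 ≤ a / (2 * m) := by positivity
        linarith
    refine ⟨(⟨_, hs⟩, ⟨_, hu⟩), Subtype.ext ?_⟩
    rw [sq_coe]
    simp only [← hm, Prod.mk.injEq]
    constructor <;> field_simp <;> ring

lemma sq_inj {s u s' u' : I} (h : sq (s, u) = sq (s', u')) :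
    u = u' ∧ (s = s' ∨ u = 0 ∨ u = 1) := by
  have h1 := congrArg Subtype.val h
  rw [sq_coe, sq_coe, Prod.mk.injEq] at h1
  have hu : u = u' := Subtype.ext (by linarith [h1.1, h1.2])
  subst hu
  refine ⟨rfl, ?_⟩
  have h2 : ((s : ℝ) - s') * min (u : ℝ) (1 - u) = 0 := by linarith [h1.1]
  rcases mul_eq_zero.1 h2 with h3 | h3
  · exact Or.inl (Subtype.ext (by linarith))
  · rcases min_eq_iff.1 h3 with h4 | h4
    · exact Or.inr (Or.inl (Subtype.ext h4.1))
    · exact Or.inr (Or.inr (Subtype.ext (show (u : ℝ) = 1 by linarith [h4.1])))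

lemma fill {Y : Type} [TopologicalSpace Y] {y₀ y₁ y₂ : Y} (p : Path y₀ y₁) (q : Path y₁ y₂)
    (r : Path y₀ y₂) (h : (p.trans q).Homotopic r) :
    ∃ Gm : C(Tri, Y), (∀ t, Gm (d01 t) = p t) ∧ (∀ t, Gm (d12 t) = q t) ∧ ∀ t, Gm (d02 t) = r t := by
  obtain ⟨H⟩ := h
  have hq : Topology.IsQuotientMap sq := sq.continuous.isClosedMap.isQuotientMap sq.continuous sq_surj
  have hf : Function.FactorsThrough H.toContinuousMap sq := by
    rintro ⟨s, u⟩ ⟨s', u'⟩ h
    obtain ⟨rfl, h | rfl | rfl⟩ := sq_inj h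
    · rw [h]
    · exact (H.source s).trans (H.source s').symm
    · exact (H.target s).trans (H.target s').symm
  have key : ∀ z, hq.lift H.toContinuousMap hf (sq z) = H z := fun z =>
    congrFun (congrArg DFunLike.coe (hq.lift_comp H.toContinuousMap hf)) z
  refine ⟨hq.lift H.toContinuousMap hf, fun t => ?_, fun t => ?_, fun t => ?_⟩
  · have ht : (t : ℝ) / 2 ∈ I := ⟨by linarith [t.2.1], by linarith [t.2.1, t.2.2]⟩
    have : d01 t = sq (0, ⟨_, ht⟩) := by
      apply Subtype.ext
      rw [sq_coe, min_eq_left (by simp only; linarith [t.2.2])]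
      simp only [d01, ContinuousMap.coe_mk, Icc.coe_zero, Prod.mk.injEq]
      constructor <;> ring
    rw [this, key, H.apply_zero, Path.coe_toContinuousMap, Path.trans_apply,
      dif_pos (by simp only; linarith [t.2.2])]
    congr 1
    ext; simp only; ring
  · have ht : (1 + (t : ℝ)) / 2 ∈ I := ⟨by linarith [t.2.1], by linarith [t.2.1, t.2.2]⟩
    have : d12 t = sq (0, ⟨_, ht⟩) := by
      apply Subtype.ext
      rw [sq_coe, min_eq_right (by simp only; linarith [t.2.1])]
      simp only [d12, ContinuousMap.coe_mk, Icc.coe_zero, Prod.mk.injEq]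
      constructor <;> ring
    rw [this, key, H.apply_zero, Path.coe_toContinuousMap, Path.trans_apply]
    split_ifs with h
    · have h0 : t = 0 := Subtype.ext (by simp only at h; linarith [t.2.1, Icc.coe_zero (R := ℝ)])
      subst h0
      rw [q.source]
      refine Eq.trans ?_ p.target
      congr 1
      ext; simp
    · congr 1
      ext; simp only; ring
  · have : d02 t = sq (1, t) := by
      apply Subtype.ext
      rw [sq_coe]
      simp [d02]
    rw [this, key, H.apply_one, Path.coe_toContinuousMap]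

/-- non-abelian `1`-cocycles on the Cayley complex are coboundaries -/
lemma cocycle {G : Type} [Group G] {S T : Type} (Q : TriPres G S T) {H : Type} [Group H]
    (l : G × S → H) (hl : ∀ g t, l (g * Q.x (Q.a t), Q.b t) * l (g, Q.a t) = l (g, Q.c t)) :
    ∃ w : G → H, ∀ g s, w (g * Q.x s) = l (g, s) * w g := by
  let φ : S → Equiv.Perm (G × H) := fun s =>
    { toFun := fun z => (z.1 * Q.x s, l (z.1, s) * z.2)
      invFun := fun z => (z.1 * (Q.x s)⁻¹, (l (z.1 * (Q.x s)⁻¹, s))⁻¹ * z.2)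
      left_inv := fun z => by simp
      right_inv := fun z => by simp }
  have hφ : ∀ s z, φ s z = (z.1 * Q.x s, l (z.1, s) * z.2) := fun _ _ => rfl
  obtain ⟨F, hF⟩ := Q.univ (Equiv.Perm (G × H)) (fun s => (φ s)⁻¹) (fun t => by
    rw [← mul_inv_rev]
    congr 1
    ext z
    · simp [hφ, mul_assoc, Q.rel]
    · simp [hφ, ← mul_assoc, hl])
  have h1 : ∀ g : G, ∀ z, ((F g)⁻¹ z).1 = z.1 * g := by
    intro g
    have hg : g ∈ Subgroup.closure (Set.range Q.x) := Q.gen ▸ Subgroup.mem_top g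
    induction hg using Subgroup.closure_induction with
    | mem x hx =>
      obtain ⟨s, rfl⟩ := hx
      intro z
      rw [hF, inv_inv, hφ]
    | one => intro z; simp
    | mul x y _ _ hx hy =>
      intro z
      rw [map_mul, mul_inv_rev, Equiv.Perm.mul_apply, hy, hx, mul_assoc]
    | inv x _ hx =>
      intro z
      have := hx ((F x⁻¹)⁻¹ z)
      rw [← Equiv.Perm.mul_apply, ← mul_inv_rev, ← map_mul, inv_mul_cancel, map_one, inv_one,
        Equiv.Perm.one_apply] at this
      rw [this, mul_inv_cancel_right]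
  refine ⟨fun g => ((F g)⁻¹ (1, 1)).2, fun g s => ?_⟩
  simp only
  rw [map_mul, mul_inv_rev, Equiv.Perm.mul_apply, hF, inv_inv, hφ, h1, one_mul]

end Crest.Agent.R177.TopA
end

-- ▼ part PVa/R177/TopA
section

/-!
Task R177-TA: the Cayley complex is contractible (obstruction theory by hand).

`o = c.v 1`.  For a space `K` and `χ : C(K, E)` let `𝒫 χ = {(k, γ) : K × C(I, E) | γ 0 = χ k ∧ γ 1 = o}`; a map
`d : C(K', K)` with `χ ∘ d = χ'` induces `𝒫 χ' → 𝒫 χ`.  `Ω = {γ : C(I,E) | γ 0 = o ∧ γ 1 = o}`.  `cat` = concatenation of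
composable elements of `C(I,E)` (continuous on the subtype of composable pairs: uncurry and `continuous_if_le`, or
`Continuous.path_trans`).
1. `H = Perm (Σ g, Path.Homotopic.Quotient (v g) o)`; the generator `s` acts by
   `(g * x s, q) ↦ (g, e (g,s) · q)` (bijective); `f (g,t)` and convexity of `Tri` give the relations; `Q.univ` gives an
   action of `G`, and with `Q.gen` one gets paths `p g` from `v g` to `o` with `e (g,s) · p (g * x s) ≃ p g`
   (`p g` = class obtained from `(1, refl)` by `g⁻¹`-ish; check by `Subgroup.closure_induction` that the action moves the first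
   coordinate by right multiplication).
2. Hence `(0, p g)` and `(1, p (g * x s))` are joined by a path `η₀ (g,s)` in `𝒫 (e (g,s))`
   (homotopy `p g ≃ e · p'`, then slide `r ↦ (r, e|[r,1] · p')`, then `const · p' ≃ p'`).
3. `𝒜` = subgroup of `∏ (cells c : edges and triangles) (y : 𝒫 c), FundamentalGroup (𝒫 c) y` of the families that are natural
   (`a y · m = m · a y'` for every path class `m` from `y` to `y'` in `𝒫 c`) and compatible with the three face maps.  It is
   commutative (naturality with `m = b y`).  (*) For a triangle `c`, `y ∈ 𝒫 c` and a loop `m` at `y` there is `a ∈ 𝒜` with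
   `a y = m`: `μ : 𝒫 χ × Ω → 𝒫 χ`, `((k,γ),ω) ↦ (k, γ · ω)`, `U y = μ (y, const)`, `U ≃ id` by reparametrisation
   (track `tr y` from `U y` to `y`); a loop `A` in `Ω` at `const` defines `a y = (tr y)⁻¹ · μ (refl y, A) · tr y ∈ 𝒜`
   (naturality: `Path.Homotopic.prod`/`comp_prod_eq_prod_comp` and naturality of the track of a homotopy).  For `y₀ = (k₀, γ₀)`
   let `J ω = μ (y₀, ω)`, `R (k,γ) = γ₀⁻¹ · (χ ∘ seg k₀ k · γ)`; `J ∘ R ≃ id`, so every loop at `y₀` is conjugate (in the groupoid) to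
   `J (A)` with `A` a loop at `const` (`R y₀` is joined to `const` in `Ω`); by naturality it equals `a y₀`.
4. For a triangle let `κ (g,t) ∈ 𝒜` have component `η₀ c · (η₀ a · η₀ b)⁻¹` at `(vertex 0, p g)`; `Q.cs` (with
   `M = Additive 𝒜`) gives `ψ`; `η (g,s) = ψ (g,s) (0, p g) · η₀ (g,s)` satisfies `η a · η b ≃ η c` in `𝒫 (f (g,t))`.
5. If `p · q ≃ r` rel endpoints in `Y` there is `Gm : C(Tri, Y)` with sides `p, q, r`: the map `I × I → Tri`,
   `(s,u) ↦ (1-s) β u + s ρ u` (`β` the broken path `0 → 1 → 2`, `ρ` the side `0 → 2`) is a quotient map, injective except on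
   `u ∈ {0,1}` (in coordinates `u = p.2 + p.1/2`, `p.1 = 2 (1-s) min u (1-u)`).
6. Glue into `Y = C(I, E)`: for a cell `χ : C(K,E)` (`K` convex) with `Gm k = (k', γ)` use `cat (χ ∘ seg k k') γ`; for vertices
   `cat (const) (p g)`.  Face maps are affine, so these are `CellMaps`.  The glued `F : C(E, C(I,E))` has `F z 0 = z`, `F z 1 = o`
   (`surj`); uncurry and use `contractible_iff_id_nullhomotopic`.
-/

set_option autoImplicit false

namespace Crest.Agent.R177

namespace TopA

open unitInterval Path.Homotopic.Quotient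

variable {G : Type} [Group G] {S T : Type} {Qp : TriPres G S T} {E : Type} [TopologicalSpace E]
  (c : CellMaps Qp E)

/-- the path along an edge -/
def ep (g : G) (s : S) (g' : G) (h : g' = g * Qp.x s) : Path (c.v g) (c.v g') :=
  ⟨c.e (g, s), c.e0 g s, by rw [h]; exact c.e1 g s⟩

lemma joined_v (g : G) : Joined (c.v g) (c.v 1) := by
  have h1 : ∀ g : G, ∀ h, Joined (c.v h) (c.v (h * g)) := by
    intro g
    have hg : g ∈ Subgroup.closure (Set.range Qp.x) := Qp.gen ▸ Subgroup.mem_top g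
    induction hg using Subgroup.closure_induction with
    | mem x hx =>
      obtain ⟨s, rfl⟩ := hx
      exact fun h => ⟨ep c h s _ rfl⟩
    | one => intro h; rw [mul_one]
    | mul x y _ _ hx hy =>
      intro h
      rw [← mul_assoc]
      exact (hx h).trans (hy _)
    | inv x _ hx =>
      intro h
      have := hx (h * x⁻¹)
      rw [inv_mul_cancel_right] at this
      exact this.symm
  have := h1 g 1
  rw [one_mul] at this
  exact this.symm

lemma rel' (g : G) (t : T) : g * Qp.x (Qp.c t) = g * Qp.x (Qp.a t) * Qp.x (Qp.b t) := by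
  rw [mul_assoc, Qp.rel]

lemma ep_tri (g : G) (t : T) :
    (mk (ep c g (Qp.a t) _ rfl)).trans (mk (ep c _ (Qp.b t) _ (rel' g t))) =
      mk (ep c g (Qp.c t) _ rfl) := by
  let p1 : Path (d01 0) (d01 1) := ⟨d01, rfl, rfl⟩
  let p2 : Path (d01 1) (d02 1) := ⟨d12, d_11, d_22⟩
  let p3 : Path (d01 0) (d02 1) := ⟨d02, d_00, rfl⟩
  have h0 : c.v g = c.f (g, t) (d01 0) := by rw [c.f01, c.e0]
  have h2 : c.v (g * Qp.x (Qp.c t)) = c.f (g, t) (d02 1) := by rw [c.f02, c.e1]
  have h := ((segT.homotopic (p1.trans p2) p3).map (c.f (g, t))).pathCast h0 h2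
  rw [← mk_trans, Path.Homotopic.Quotient.eq]
  convert h using 1
  · ext r
    simp only [Path.cast_coe, Path.map_coe, Function.comp_apply, Path.trans_apply]
    split_ifs
    · exact (c.f01 g t _).symm
    · exact (c.f12 g t _).symm
  · ext r
    exact (c.f02 g t r).symm

lemma exists_paths : ∃ p : ∀ g, Path (c.v g) (c.v 1), ∀ g s,
    ((ep c g s _ rfl).trans (p (g * Qp.x s))).Homotopic (p g) := by
  let p₀ : ∀ g, Q (c.v g) (c.v 1) := fun g => mk (joined_v c g).somePath
  let l : G × S → FundamentalGroup E (c.v 1) := fun i =>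
    (p₀ i.1).symm.trans ((mk (ep c i.1 i.2 _ rfl)).trans (p₀ _))
  have hl : ∀ g s g' (h : g' = g * Qp.x s),
      l (g, s) = (p₀ g).symm.trans ((mk (ep c g s g' h)).trans (p₀ g')) := by
    intro g s g' h; subst h; rfl
  obtain ⟨w, hw⟩ := cocycle Qp l (fun g t => by
    rw [FundamentalGroup.mul_def, hl g (Qp.a t) _ rfl, hl _ (Qp.b t) _ (rel' g t),
      hl g (Qp.c t) _ rfl, ← ep_tri]
    simp only [trans_assoc, trans_symm_cancel])
  have hex : ∀ g, ∃ p : Path (c.v g) (c.v 1),
      mk p = (p₀ g).trans (Path.Homotopic.Quotient.symm (w g)) :=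
    fun g => mk_surjective _
  choose p hp using hex
  refine ⟨p, fun g s => ?_⟩
  rw [← Path.Homotopic.Quotient.eq, mk_trans, hp, hp, hw, FundamentalGroup.mul_def, hl g s _ rfl]
  simp only [symm_trans', symm_symm', trans_assoc, trans_symm_cancel]

variable (p : ∀ g, Path (c.v g) (c.v 1))

/-- start point over an edge -/
def y0 (g : G) (s : S) : PP (c.v 1) (c.e (g, s)) :=
  mkP 0 (p g).toContinuousMap ((p g).source.trans (c.e0 g s).symm) (p g).target

/-- end point over an edge -/
def y1 (g : G) (s : S) : PP (c.v 1) (c.e (g, s)) :=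
  mkP 1 (p (g * Qp.x s)).toContinuousMap ((p _).source.trans (c.e1 g s).symm) (p _).target

lemma joined_edge (g : G) (s : S) (h : ((ep c g s _ rfl).trans (p (g * Qp.x s))).Homotopic (p g)) :
    Joined (y0 c p g s) (y1 c p g s) := by
  have h1 : Joined (y1 c p g s) (DD segI _ _ 0 (y1 c p g s)) :=
    ⟨(slideH segI _ _ 0).evalAt (y1 c p g s)⟩
  have h2 := joined_of_homotopic (χ := c.e (g, s)) 0 (c.e0 g s).symm h
  refine (h1.trans ((congrArg (fun z => Joined z (y0 c p g s)) ?_).mpr h2)).symm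
  refine Subtype.ext (Prod.ext rfl ?_)
  change cat _ _ (segI.path_one 0 (y1 c p g s)) =
    ((ep c g s _ rfl).trans (p (g * Qp.x s))).toContinuousMap
  rw [← cat_eq_trans _ _ (by simp)]
  refine cat_congr ?_ rfl _ _
  ext u
  rw [Seg.path_apply]
  change c.e (g, s) _ = c.e (g, s) u
  congr 1
  ext
  simp [segI_coe, y1, mkP]

/-- the three face maps -/
def F01 (g : G) (t : T) : C(PP (c.v 1) (c.e (g, Qp.a t)), PP (c.v 1) (c.f (g, t))) :=
  face d01 (c.f01 g t)

/-- the three face maps -/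
def F12 (g : G) (t : T) :
    C(PP (c.v 1) (c.e (g * Qp.x (Qp.a t), Qp.b t)), PP (c.v 1) (c.f (g, t))) :=
  face d12 (c.f12 g t)

/-- the three face maps -/
def F02 (g : G) (t : T) : C(PP (c.v 1) (c.e (g, Qp.c t)), PP (c.v 1) (c.f (g, t))) :=
  face d02 (c.f02 g t)

lemma z0_eq (g : G) (t : T) : F01 c g t (y0 c p g _) = F02 c g t (y0 c p g _) :=
  Subtype.ext (Prod.ext d_00.symm rfl)

lemma z1_eq (g : G) (t : T) : F01 c g t (y1 c p g _) = F12 c g t (y0 c p _ _) :=
  Subtype.ext (Prod.ext d_11.symm rfl)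

lemma z2_eq (g : G) (t : T) : F02 c g t (y1 c p g _) = F12 c g t (y1 c p _ _) := by
  refine Subtype.ext (Prod.ext d_22.symm ?_)
  change (p (g * Qp.x (Qp.c t))).toContinuousMap = (p (g * Qp.x (Qp.a t) * Qp.x (Qp.b t))).toContinuousMap
  rw [rel']

lemma exists_edges (hp : ∀ g s, ((ep c g s _ rfl).trans (p (g * Qp.x s))).Homotopic (p g)) :
    ∃ η : ∀ i : G × S, Path (y0 c p i.1 i.2) (y1 c p i.1 i.2), ∀ g t,
      (((η (g, Qp.a t)).map (F01 c g t).continuous).trans
        (((η (g * Qp.x (Qp.a t), Qp.b t)).map (F12 c g t).continuous).cast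
          (z1_eq c p g t) (z2_eq c p g t))).Homotopic
        (((η (g, Qp.c t)).map (F02 c g t).continuous).cast (z0_eq c p g t) rfl) := by
  let η₀ : ∀ i : G × S, Q (y0 c p i.1 i.2) (y1 c p i.1 i.2) := fun i =>
    mk (joined_edge c p i.1 i.2 (hp i.1 i.2)).somePath
  let α := fun g t => ((η₀ (g, Qp.a t)).map (F01 c g t)).cast rfl rfl
  let β := fun g t => ((η₀ (g * Qp.x (Qp.a t), Qp.b t)).map (F12 c g t)).cast
    (z1_eq c p g t) (z2_eq c p g t)
  let γ := fun g t => ((η₀ (g, Qp.c t)).map (F02 c g t)).cast (z0_eq c p g t) rfl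
  choose κ hκ using fun i : G × T => act_surj segT (F01 c i.1 i.2 (y0 c p i.1 _))
    ((γ i.1 i.2).trans ((β i.1 i.2).symm.trans (α i.1 i.2).symm))
  obtain ⟨ψ, hψ⟩ := Qp.cs (Additive (Abelianization (FundamentalGroup (Om (c.v 1)) (cst _))))
    (fun i => Additive.ofMul (Abelianization.of (κ i)))
  have hex : ∀ i, ∃ A : FundamentalGroup (Om (c.v 1)) (cst _),
      Abelianization.of A = Additive.toMul (ψ i) :=
    fun i => QuotientGroup.mk_surjective _
  choose A hA using hex
  have hex2 : ∀ i : G × S, ∃ η : Path (y0 c p i.1 i.2) (y1 c p i.1 i.2),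
      mk η = (act (y0 c p i.1 i.2) (A i)).trans (η₀ i) := fun i => mk_surjective _
  choose η hη using hex2
  refine ⟨η, fun g t => ?_⟩
  have h1 := act_of_ab (F01 c g t (y0 c p g _)) (A := A (g, Qp.a t))
    (B := A (g * Qp.x (Qp.a t), Qp.b t)) (C := A (g, Qp.c t)) (D := κ (g, t)) (by
      rw [hA, hA, hA]
      exact congrArg Additive.toMul (hψ g t))
  rw [hκ (g, t)] at h1
  have e1 : mk ((η (g, Qp.a t)).map (F01 c g t).continuous) =
      (act (F01 c g t (y0 c p g _)) (A (g, Qp.a t))).trans (α g t) := by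
    rw [mk_map, hη, ← cast_rfl_rfl (Path.Homotopic.Quotient.map _ _)]
    exact act_face_cast d01 (c.f01 g t) _ _ rfl rfl
  have e2 : mk (((η (g * Qp.x (Qp.a t), Qp.b t)).map (F12 c g t).continuous).cast
      (z1_eq c p g t) (z2_eq c p g t)) =
      (act (F01 c g t (y1 c p g _)) (A (g * Qp.x (Qp.a t), Qp.b t))).trans (β g t) := by
    rw [mk_cast, mk_map, hη]
    exact act_face_cast d12 (c.f12 g t) _ _ (z1_eq c p g t) (z2_eq c p g t)
  have e3 : mk (((η (g, Qp.c t)).map (F02 c g t).continuous).cast (z0_eq c p g t) rfl) =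
      (act (F01 c g t (y0 c p g _)) (A (g, Qp.c t))).trans (γ g t) := by
    rw [mk_cast, mk_map, hη]
    exact act_face_cast d02 (c.f02 g t) _ _ (z0_eq c p g t) rfl
  rw [← Path.Homotopic.Quotient.eq, mk_trans, e1, e2, e3, trans_assoc, ← trans_assoc (α g t),
    ← act_nat (α g t), trans_assoc, ← trans_assoc, h1]
  simp only [trans_assoc, symm_trans_cancel, symm_trans, trans_refl]

/-- the section over a cell -/
noncomputable def sec {K : Type} [TopologicalSpace K] (Sg : Seg K) {o : E} {χ : C(K, E)}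
    (Gm : C(K, PP o χ)) : C(K, C(I, E)) :=
  ⟨fun k => cat (Sg.path χ k (Gm k).1.1) (Gm k).1.2 (Sg.path_one k (Gm k)), by
    refine continuous_cat (Sg.continuous_path χ ?_ ?_) ?_ _ <;> fun_prop⟩

lemma sec_apply {K : Type} [TopologicalSpace K] (Sg : Seg K) {o : E} {χ : C(K, E)}
    (Gm : C(K, PP o χ)) (k : K) :
    sec Sg Gm k = cat (Sg.path χ k (Gm k).1.1) (Gm k).1.2 (Sg.path_one k (Gm k)) := rfl

lemma sec_zero {K : Type} [TopologicalSpace K] (Sg : Seg K) {o : E} {χ : C(K, E)}
    (Gm : C(K, PP o χ)) (k : K) : sec Sg Gm k 0 = χ k := by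
  rw [sec_apply, cat_zero, Sg.path_apply, Sg.s0]

lemma sec_one {K : Type} [TopologicalSpace K] (Sg : Seg K) {o : E} {χ : C(K, E)}
    (Gm : C(K, PP o χ)) (k : K) : sec Sg Gm k 1 = o := by
  rw [sec_apply, cat_one, (Gm k).2.2]

lemma sec_face {o : E} {χ : C(Tri, E)} {χ' : C(I, E)} (d : C(I, Tri)) (hd : ∀ k, χ (d k) = χ' k)
    (hs : ∀ a b u, segT.s (d a, d b, u) = d (segI.s (a, b, u))) (Gm : C(Tri, PP o χ))
    (η : C(I, PP o χ')) (r : I) (h : Gm (d r) = face d hd (η r)) :
    sec segT Gm (d r) = sec segI η r := by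
  rw [sec_apply, sec_apply]
  refine cat_congr ?_ (by rw [h]; rfl) _ _
  ext u
  rw [Seg.path_apply, Seg.path_apply, h, ← hd, ← hs]
  rfl

lemma sec_vertex {o : E} {χ' : C(I, E)} (η : C(I, PP o χ')) (r : I) {x : E} (q : Path x o)
    (h1 : (η r).1.1 = r) (h2 : (η r).1.2 = q.toContinuousMap) (hx : χ' r = x) :
    sec segI η r = cat (ContinuousMap.const I x) q.toContinuousMap q.source.symm := by
  rw [sec_apply]
  refine cat_congr ?_ h2 _ _
  ext u
  rw [Seg.path_apply, h1, segI.sk, hx]
  rfl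

end TopA

open TopA unitInterval in
theorem contractible_of_cellSpace {G : Type} [Group G] {S T : Type} {Q : TriPres G S T} {E : Type}
    [TopologicalSpace E] (c : CellMaps Q E) (hc : IsCellSpace c) : ContractibleSpace E := by
  obtain ⟨p, hp⟩ := exists_paths c
  obtain ⟨η, hη⟩ := exists_edges c p hp
  choose Gm h01 h12 h02 using fun i : G × T => fill _ _ _ (hη i.1 i.2)
  let c' : CellMaps Q C(I, E) :=
    { v := fun g => cat (ContinuousMap.const I (c.v g)) (p g).toContinuousMap (p g).source.symm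
      e := fun i => sec segI (η i).toContinuousMap
      f := fun i => sec segT (Gm i)
      e0 := fun g s => sec_vertex _ 0 (p g) (congrArg (fun y => y.1.1) (η (g, s)).source)
        (congrArg (fun y => y.1.2) (η (g, s)).source) (c.e0 g s)
      e1 := fun g s => sec_vertex _ 1 (p _) (congrArg (fun y => y.1.1) (η (g, s)).target)
        (congrArg (fun y => y.1.2) (η (g, s)).target) (c.e1 g s)
      f01 := fun g t r => sec_face d01 (c.f01 g t) seg_d01 _ _ r (h01 (g, t) r)
      f12 := fun g t r => sec_face d12 (c.f12 g t) seg_d12 _ _ r (h12 (g, t) r)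
      f02 := fun g t r => sec_face d02 (c.f02 g t) seg_d02 _ _ r (h02 (g, t) r) }
  obtain ⟨F, hv, he, hf⟩ := hc.glue C(I, E) c'
  have hF : ∀ z, F z 0 = z ∧ F z 1 = c.v 1 := by
    intro z
    rcases hc.surj z with ⟨g, rfl⟩ | ⟨i, r, rfl⟩ | ⟨i, k, rfl⟩
    · rw [hv]
      exact ⟨cat_zero _ _ (p g).source.symm, (cat_one _ _ (p g).source.symm).trans (p g).target⟩
    · rw [he]
      exact ⟨sec_zero _ _ _, sec_one _ _ _⟩
    · rw [hf]
      exact ⟨sec_zero _ _ _, sec_one _ _ _⟩
  rw [contractible_iff_id_nullhomotopic]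
  exact ⟨c.v 1, ⟨{ toFun := fun z => F z.2 z.1
                   continuous_toFun := by fun_prop
                   map_zero_left := fun z => (hF z).1
                   map_one_left := fun z => (hF z).2 }⟩⟩

end Crest.Agent.R177
end

-- ▼ part PVa/R177/TopB1
section

/-!
Task R177-TB, part 1: a CW structure from a parametrisation by a space of cells, and the normal
forms of points of the Cayley complex.
-/

set_option autoImplicit false

namespace Crest.Agent.R177.TB

open unitInterval Set Metric Topology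

/-- continuity of the inverse of a characteristic map -/
theorem continuousOn_inv {A X : Type} [TopologicalSpace A] [Nonempty A] [TopologicalSpace X]
    [T2Space X] {φ : A → X} (hφ : Continuous φ) {K U : Set A} (hK : IsCompact K) (hU : U ⊆ K)
    (hinj : InjOn φ U) (hd : ∀ y ∈ U, ∀ y' ∈ K, φ y = φ y' → y' ∈ U) :
    ContinuousOn (Function.invFunOn φ U) (φ '' U) := by
  rw [continuousOn_iff_isClosed]
  intro t ht
  refine ⟨φ '' (t ∩ K), ((hK.inter_left ht).image hφ).isClosed, ?_⟩
  ext x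
  constructor
  · rintro ⟨h1, y, hy, rfl⟩
    rw [mem_preimage, hinj.leftInvOn_invFunOn hy] at h1
    exact ⟨⟨y, ⟨h1, hU hy⟩, rfl⟩, y, hy, rfl⟩
  · rintro ⟨⟨y', ⟨h1, h2⟩, h3⟩, y, hy, rfl⟩
    refine ⟨?_, y, hy, rfl⟩
    rw [mem_preimage, hinj.leftInvOn_invFunOn hy, ← hinj (hd y hy y' h2 h3.symm) hy h3]
    exact h1

theorem cw_of {X P : Type} [TopologicalSpace X] [T2Space X] [TopologicalSpace P] (ψ : P → X)
    (hψ : Continuous ψ) (hs : Function.Surjective ψ) (ok : P → Prop) (dim : P → ℕ)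
    (hinj : ∀ x x', ok x → ok x' → ψ x = ψ x' → x = x')
    (hnorm : ∀ x, ¬ ok x → ∃ x', ok x' ∧ dim x' < dim x ∧ ψ x = ψ x')
    (cell : ℕ → Type) (χ : ∀ n, cell n → (Fin n → ℝ) → P) (hχ : ∀ n i, Continuous (χ n i))
    (hdim : ∀ n i y, dim (χ n i y) = n)
    (hok : ∀ n i, ∀ y ∈ ball (0 : Fin n → ℝ) 1, ok (χ n i y))
    (hnok : ∀ n i, ∀ y ∈ sphere (0 : Fin n → ℝ) 1, ¬ ok (χ n i y))
    (hχinj : ∀ n i i', ∀ y ∈ ball (0 : Fin n → ℝ) 1, ∀ y' ∈ ball (0 : Fin n → ℝ) 1,
      χ n i y = χ n i' y' → i = i' ∧ y = y')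
    (hsurj : ∀ x, ∃ n i, ∃ y ∈ closedBall (0 : Fin n → ℝ) 1, χ n i y = x)
    (hfin : ∀ n, Finite (cell n)) (d : ℕ) (hemp : ∀ n, d < n → IsEmpty (cell n)) :
    ∃ _ : CWComplex (univ : Set X), RelCWComplex.Finite (univ : Set X) ∧
      ∀ n : ℕ, d < n → IsEmpty (RelCWComplex.cell (univ : Set X) n) := by
  have h1 : ∀ n i, InjOn (ψ ∘ χ n i) (ball 0 1) := fun n i y hy y' hy' h =>
    (hχinj n i i y hy y' hy' (hinj _ _ (hok n i y hy) (hok n i y' hy') h)).2
  let mp : ∀ n, cell n → PartialEquiv (Fin n → ℝ) X := fun n i =>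
    InjOn.toPartialEquiv (ψ ∘ χ n i) (ball 0 1) (h1 n i)
  have e1 : ∀ᶠ n in Filter.atTop, IsEmpty (cell n) :=
    (Filter.eventually_gt_atTop d).mono hemp
  have e2 : ∀ n i, (mp n i).source = ball 0 1 := fun _ _ => rfl
  have e3 : ∀ n i, ContinuousOn (mp n i) (closedBall 0 1) := fun n i =>
    (hψ.comp (hχ n i)).continuousOn
  have e4 : ∀ n i, ContinuousOn (mp n i).symm (mp n i).target := by
    intro n i
    refine continuousOn_inv (hψ.comp (hχ n i)) (isCompact_closedBall 0 1) ball_subset_closedBall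
      (h1 n i) ?_
    intro y hy y' hy' h
    by_contra hn
    have hsp : y' ∈ sphere (0 : Fin n → ℝ) 1 := by
      rw [mem_sphere]
      rw [mem_closedBall] at hy'
      rw [mem_ball, not_lt] at hn
      exact le_antisymm hy' hn
    obtain ⟨x', a1, a2, a3⟩ := hnorm _ (hnok n i y' hsp)
    have := hinj _ _ (hok n i y hy) a1 (h.trans a3)
    rw [← this, hdim, hdim] at a2
    exact lt_irrefl _ a2
  have e5 : (univ : Set (Σ n, cell n)).PairwiseDisjoint
      (fun ni => mp ni.1 ni.2 '' ball 0 1) := by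
    rintro ⟨n, i⟩ - ⟨n', i'⟩ - hne
    rw [Function.onFun, Set.disjoint_left]
    rintro _ ⟨y, hy, rfl⟩ ⟨y', hy', h⟩
    have h2 := hinj _ _ (hok n' i' y' hy') (hok n i y hy) h
    have h3 : n' = n := by rw [← hdim n' i' y', h2, hdim]
    subst h3
    exact hne (by rw [(hχinj _ _ _ y' hy' y hy h2).1])
  have e6 : ∀ n i, MapsTo (mp n i) (sphere 0 1)
      (⋃ (m < n) (j : cell m), mp m j '' closedBall 0 1) := by
    intro n i y hy
    obtain ⟨x', -, a2, a3⟩ := hnorm _ (hnok n i y hy)
    obtain ⟨m, j, y', hy', rfl⟩ := hsurj x'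
    rw [hdim, hdim] at a2
    simp only [mem_iUnion]
    exact ⟨m, a2, j, y', hy', a3.symm⟩
  have e7 : ⋃ (n : ℕ) (j : cell n), mp n j '' closedBall 0 1 = univ := by
    rw [eq_univ_iff_forall]
    intro z
    obtain ⟨x, rfl⟩ := hs z
    obtain ⟨m, j, y', hy', rfl⟩ := hsurj x
    simp only [mem_iUnion]
    exact ⟨m, j, y', hy', rfl⟩
  exact ⟨CWComplex.mkFinite univ cell mp e1 hfin e2 e3 e4 e5 e6 e7,
    CWComplex.finite_mkFinite univ cell mp e1 hfin e2 e3 e4 e5 e6 e7, hemp⟩

instance : CompactSpace Tri := by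
  refine isCompact_iff_compactSpace.1 (?_ : IsCompact
    {p : ℝ × ℝ | 0 ≤ p.1 ∧ 0 ≤ p.2 ∧ p.1 + p.2 ≤ 1})
  refine (isCompact_Icc (a := ((0, 0) : ℝ × ℝ)) (b := (1, 1))).of_isClosed_subset ?_ ?_
  · exact (isClosed_le continuous_const continuous_fst).inter
      ((isClosed_le continuous_const continuous_snd).inter
        (isClosed_le (continuous_fst.add continuous_snd) continuous_const))
  · rintro p ⟨h1, h2, h3⟩
    exact ⟨⟨h1, h2⟩, by simp only [Prod.le_def]; constructor <;> linarith⟩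

/-- the disjoint union of the closed cells -/
abbrev PP (S T : Type) : Type := Unit ⊕ (Σ _ : S, I) ⊕ (Σ _ : T, Tri)

variable {S T : Type}

/-- points of open cells -/
def ok : PP S T → Prop
  | .inl _ => True
  | .inr (.inl x) => 0 < (x.2 : ℝ) ∧ (x.2 : ℝ) < 1
  | .inr (.inr x) => 0 < x.2.1.1 ∧ 0 < x.2.1.2 ∧ x.2.1.1 + x.2.1.2 < 1

/-- dimension of the cell -/
def dim : PP S T → ℕ
  | .inl _ => 0
  | .inr (.inl _) => 1
  | .inr (.inr _) => 2

variable {G : Type} [Group G] {Q : TriPres G S T}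

/-- the cell maps as one map -/
def pt {E : Type} [TopologicalSpace E] (c : CellMaps Q E) (g : G) : PP S T → E
  | .inl _ => c.v g
  | .inr (.inl x) => c.e (g, x.1) x.2
  | .inr (.inr x) => c.f (g, x.1) x.2

theorem continuous_pt {E : Type} [TopologicalSpace E] (c : CellMaps Q E) (g : G) :
    Continuous (pt c g) := by
  rw [continuous_sum_dom]
  refine ⟨continuous_const, ?_⟩
  rw [continuous_sum_dom]
  exact ⟨continuous_sigma fun s => (c.e (g, s)).continuous,
    continuous_sigma fun t => (c.f (g, t)).continuous⟩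

variable (Q) in
theorem norm_e (g : G) (s : S) (r : I) : ∃ (g' : G) (x' : PP S T), ok x' ∧ dim x' ≤ 1 ∧
    (¬ ok (.inr (.inl ⟨s, r⟩) : PP S T) → dim x' < 1) ∧
    ∀ (Y : Type) [TopologicalSpace Y] (c : CellMaps Q Y), c.e (g, s) r = pt c g' x' := by
  by_cases h0 : r = 0
  · subst h0
    exact ⟨g, .inl (), trivial, zero_le_one, fun _ => zero_lt_one, fun Y _ c => c.e0 g s⟩
  by_cases h1 : r = 1
  · subst h1
    exact ⟨g * Q.x s, .inl (), trivial, zero_le_one, fun _ => zero_lt_one, fun Y _ c => c.e1 g s⟩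
  have h : ok (.inr (.inl ⟨s, r⟩) : PP S T) :=
    ⟨lt_of_le_of_ne r.2.1 (fun h => h0 (Subtype.ext h.symm)),
      lt_of_le_of_ne r.2.2 (fun h => h1 (Subtype.ext h))⟩
  exact ⟨g, _, h, le_rfl, fun h' => absurd h h', fun _ _ _ => rfl⟩

variable (Q) in
theorem norm (g : G) (x : PP S T) : ∃ (g' : G) (x' : PP S T), ok x' ∧
    (¬ ok x → dim x' < dim x) ∧
    ∀ (Y : Type) [TopologicalSpace Y] (c : CellMaps Q Y), pt c g x = pt c g' x' := by
  by_cases hx : ok x
  · exact ⟨g, x, hx, fun h => absurd hx h, fun _ _ _ => rfl⟩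
  rcases x with x | ⟨s, r⟩ | ⟨t, p⟩
  · exact absurd trivial hx
  · obtain ⟨g', x', h1, -, h2, h3⟩ := norm_e Q g s r
    exact ⟨g', x', h1, h2, h3⟩
  · obtain ⟨⟨p1, p2⟩, a1, a2, a3⟩ := p
    simp only [ok, not_and, not_lt] at hx a1 a2 a3
    by_cases b1 : p1 = 0
    · subst b1
      obtain ⟨g', x', h1, h2, -, h3⟩ := norm_e Q g (Q.c t) ⟨p2, a2, by simpa using a3⟩
      refine ⟨g', x', h1, fun _ => lt_of_le_of_lt h2 one_lt_two, fun Y _ c => ?_⟩
      rw [← h3, ← c.f02]; rfl
    by_cases b2 : p2 = 0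
    · subst b2
      obtain ⟨g', x', h1, h2, -, h3⟩ := norm_e Q g (Q.a t) ⟨p1, a1, by simpa using a3⟩
      refine ⟨g', x', h1, fun _ => lt_of_le_of_lt h2 one_lt_two, fun Y _ c => ?_⟩
      rw [← h3, ← c.f01]; rfl
    have b3 : p1 = 1 - p2 := by
      have := hx (lt_of_le_of_ne a1 (Ne.symm b1)) (lt_of_le_of_ne a2 (Ne.symm b2))
      linarith
    subst b3
    obtain ⟨g', x', h1, h2, -, h3⟩ := norm_e Q (g * Q.x (Q.a t)) (Q.b t) ⟨p2, a2, by linarith⟩
    refine ⟨g', x', h1, fun _ => lt_of_le_of_lt h2 one_lt_two, fun Y _ c => ?_⟩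
    rw [← h3, ← c.f12]; rfl

/-! ### characteristic maps -/

/-- clamped affine map `[-1,1] → [0,1]` -/
noncomputable def rho (u : ℝ) : I := projIcc 0 1 zero_le_one ((1 + u) / 2)

theorem continuous_rho : Continuous rho := continuous_projIcc.comp (by fun_prop)

theorem rho_val {u : ℝ} (h : |u| ≤ 1) : (rho u : ℝ) = (1 + u) / 2 := by
  obtain ⟨h1, h2⟩ := abs_le.1 h
  unfold rho
  rw [projIcc_of_mem _ ⟨by linarith, by linarith⟩]

/-- square to triangle -/
noncomputable def sqT (y : Fin 2 → ℝ) : Tri :=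
  ⟨((1 - (rho (y 1) : ℝ)) * rho (y 0), rho (y 1)),
    mul_nonneg (sub_nonneg.2 (rho _).2.2) (rho _).2.1, (rho _).2.1, by
      have h1 := (rho (y 0)).2.2
      have h2 := (rho (y 1)).2.2
      simp only
      nlinarith⟩

theorem continuous_sqT : Continuous sqT := by
  have h : ∀ i : Fin 2, Continuous fun y : Fin 2 → ℝ => (rho (y i) : ℝ) := fun i =>
    continuous_subtype_val.comp (continuous_rho.comp (continuous_apply i))
  exact Continuous.subtype_mk (((continuous_const.sub (h 1)).mul (h 0)).prodMk (h 1)) _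

/-- the cells -/
def cell (S T : Type) : ℕ → Type
  | 0 => Unit
  | 1 => S
  | 2 => T
  | _ + 3 => Empty

/-- characteristic maps -/
noncomputable def chi : ∀ n, cell S T n → (Fin n → ℝ) → PP S T
  | 0, _, _ => .inl ()
  | 1, s, y => .inr (.inl ⟨s, rho (y 0)⟩)
  | 2, t, y => .inr (.inr ⟨t, sqT y⟩)
  | _ + 3, e, _ => Empty.elim e

theorem mem_ball_pi {n : ℕ} {y : Fin n → ℝ} : y ∈ ball (0 : Fin n → ℝ) 1 ↔ ∀ i, |y i| < 1 := by
  rw [mem_ball_zero_iff, pi_norm_lt_iff one_pos]; rfl

theorem mem_closedBall_pi {n : ℕ} {y : Fin n → ℝ} :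
    y ∈ closedBall (0 : Fin n → ℝ) 1 ↔ ∀ i, |y i| ≤ 1 := by
  rw [mem_closedBall_zero_iff, pi_norm_le_iff_of_nonneg zero_le_one]; rfl

theorem ok_chi_iff (n : ℕ) (i : cell S T n) {y : Fin n → ℝ} (hy : ∀ i, |y i| ≤ 1) :
    ok (chi n i y) ↔ ∀ i, |y i| < 1 := by
  match n, i, y, hy with
  | 0, _, _, _ => simp [chi, ok]
  | 1, s, y, hy =>
    simp only [chi, ok, rho_val (hy 0), Fin.forall_fin_one, abs_lt]
    constructor <;> rintro ⟨h1, h2⟩ <;> constructor <;> linarith
  | 2, t, y, hy =>
    simp only [chi, ok, sqT, rho_val (hy 0), rho_val (hy 1), Fin.forall_fin_two, abs_lt]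
    obtain ⟨a1, a2⟩ := abs_le.1 (hy 0)
    obtain ⟨b1, b2⟩ := abs_le.1 (hy 1)
    constructor
    · rintro ⟨h1, h2, h3⟩
      refine ⟨⟨?_, ?_⟩, by linarith, ?_⟩ <;> by_contra h <;> nlinarith
    · rintro ⟨⟨h1, h2⟩, h3, h4⟩
      refine ⟨?_, by linarith, ?_⟩ <;> nlinarith
  | _ + 3, e, _, _ => exact Empty.elim e

theorem cw_PP [Finite S] [Finite T] {X : Type} [TopologicalSpace X] [T2Space X] (ψ : PP S T → X)
    (hψ : Continuous ψ) (hs : Function.Surjective ψ)
    (hinj : ∀ x x', ok x → ok x' → ψ x = ψ x' → x = x')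
    (hnorm : ∀ x, ¬ ok x → ∃ x', ok x' ∧ dim x' < dim x ∧ ψ x = ψ x') :
    ∃ _ : CWComplex (univ : Set X), RelCWComplex.Finite (univ : Set X) ∧
      ∀ n : ℕ, 2 < n → IsEmpty (RelCWComplex.cell (univ : Set X) n) := by
  refine cw_of ψ hψ hs ok dim hinj hnorm (cell S T) chi ?_ ?_ ?_ ?_ ?_ ?_ ?_ 2 ?_
  · intro n i
    match n, i with
    | 0, _ => exact continuous_const
    | 1, s =>
      exact continuous_inr.comp (continuous_inl.comp
        ((continuous_sigmaMk : Continuous (Sigma.mk (β := fun _ : S => I) s)).comp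
          (continuous_rho.comp (continuous_apply 0))))
    | 2, t =>
      exact continuous_inr.comp (continuous_inr.comp
        ((continuous_sigmaMk : Continuous (Sigma.mk (β := fun _ : T => Tri) t)).comp continuous_sqT))
    | _ + 3, e => exact Empty.elim e
  · intro n i y
    match n, i, y with
    | 0, _, _ => rfl
    | 1, _, _ => rfl
    | 2, _, _ => rfl
    | _ + 3, e, _ => exact Empty.elim e
  · intro n i y hy
    rw [mem_ball_pi] at hy
    exact (ok_chi_iff n i (fun i => (hy i).le)).2 hy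
  · intro n i y hy h
    have h1 := mem_closedBall_pi.1 (sphere_subset_closedBall hy)
    have h2 := mem_ball_pi.2 ((ok_chi_iff n i h1).1 h)
    rw [mem_sphere] at hy
    rw [mem_ball, hy] at h2
    exact lt_irrefl _ h2
  · intro n i i' y hy y' hy' h
    rw [mem_ball_pi] at hy hy'
    match n, i, i', y, y', hy, hy', h with
    | 0, _, _, _, _, _, _, _ => exact ⟨rfl, Subsingleton.elim _ _⟩
    | 1, s, s', y, y', hy, hy', h =>
      simp only [chi, Sum.inr.injEq, Sum.inl.injEq, Sigma.mk.injEq, heq_eq_eq] at h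
      refine ⟨h.1, funext fun i => ?_⟩
      have := congrArg Subtype.val h.2
      rw [rho_val (hy 0).le, rho_val (hy' 0).le] at this
      fin_cases i
      simp only [Fin.zero_eta]
      linarith
    | 2, t, t', y, y', hy, hy', h =>
      simp only [chi, Sum.inr.injEq, Sigma.mk.injEq, heq_eq_eq] at h
      have := congrArg Subtype.val h.2
      simp only [sqT, Prod.mk.injEq, rho_val (hy 0).le, rho_val (hy' 0).le, rho_val (hy 1).le,
        rho_val (hy' 1).le] at this
      have e1 : y 1 = y' 1 := by linarith [this.2]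
      have e0 : y 0 = y' 0 := by
        have h3 := this.1
        rw [← e1] at h3
        have h4 : 1 - (1 + y 1) / 2 ≠ 0 := by have := (abs_lt.1 (hy 1)).2; intro h; linarith
        have := mul_left_cancel₀ h4 h3
        linarith
      refine ⟨h.1, funext fun i => ?_⟩
      fin_cases i
      · exact e0
      · exact e1
    | _ + 3, e, _, _, _, _, _, _ => exact Empty.elim e
  · rintro (x | ⟨s, r⟩ | ⟨t, ⟨p1, p2⟩, a1, a2, a3⟩)
    · exact ⟨0, (), 0, mem_closedBall_self zero_le_one, rfl⟩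
    · have h : |2 * (r : ℝ) - 1| ≤ 1 := abs_le.2 ⟨by linarith [r.2.1], by linarith [r.2.2]⟩
      refine ⟨1, s, fun _ => 2 * r - 1, mem_closedBall_pi.2 fun _ => h, ?_⟩
      have : rho (2 * (r : ℝ) - 1) = r := Subtype.ext (by rw [rho_val h]; ring)
      simp only [chi, this]
    · simp only at a1 a2 a3
      obtain ⟨u, hu0, hu1, hu⟩ : ∃ u : ℝ, 0 ≤ u ∧ u ≤ 1 ∧ (1 - p2) * u = p1 := by
        by_cases h : p2 = 1
        · exact ⟨0, le_rfl, zero_le_one, by linarith⟩
        · have h' : 0 < 1 - p2 := lt_of_le_of_ne (by linarith) (fun h' => h (by linarith))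
          exact ⟨p1 / (1 - p2), div_nonneg a1 h'.le, (div_le_one h').2 (by linarith),
            mul_div_cancel₀ _ h'.ne'⟩
      have h0 : |2 * u - 1| ≤ 1 := abs_le.2 ⟨by linarith, by linarith⟩
      have h1 : |2 * p2 - 1| ≤ 1 := abs_le.2 ⟨by linarith, by linarith⟩
      refine ⟨2, t, ![2 * u - 1, 2 * p2 - 1], mem_closedBall_pi.2 (Fin.forall_fin_two.2 ⟨h0, h1⟩),
        ?_⟩
      have : sqT ![2 * u - 1, 2 * p2 - 1] = ⟨(p1, p2), a1, a2, a3⟩ := by
        apply Subtype.ext
        simp only [sqT, Matrix.cons_val_zero, Matrix.cons_val_one, rho_val h0, rho_val h1,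
          Prod.mk.injEq]
        constructor
        · rw [← hu]; ring
        · ring
      simp only [chi, this]
  · intro n
    match n with
    | 0 => exact (inferInstance : Finite Unit)
    | 1 => exact ‹Finite S›
    | 2 => exact ‹Finite T›
    | _ + 3 => exact (inferInstance : Finite Empty)
  · intro n hn
    match n, hn with
    | _ + 3, _ => exact (inferInstance : IsEmpty Empty)

end Crest.Agent.R177.TB
private theorem rz_4b8c57e21c : type_of% @_root_.Crest.Agent.R177.TB.chi.eq_1 := @_root_.Crest.Agent.R177.TB.chi.eq_1 -- L219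
private theorem rz_651125a0d5 : type_of% @_root_.Crest.Agent.R177.TB.ok.eq_1 := @_root_.Crest.Agent.R177.TB.ok.eq_1 -- L113
private theorem rz_a0cbfb6183 : type_of% @_root_.Crest.Agent.R177.TB.pt.eq_1 := @_root_.Crest.Agent.R177.TB.pt.eq_1 -- L127
end

-- ▼ part PVa/R177/TopB2

/-!
Task R177-TB, part 2: the concrete model of the Cayley complex.
-/

set_option autoImplicit false

namespace Crest.Agent.R177.TB

open unitInterval Set Topology

open Classical in
/-- Kronecker delta -/
noncomputable def dl {ι : Type} (i j : ι) : ℝ := if i = j then 1 else 0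

theorem dl_self {ι : Type} (i : ι) : dl i i = 1 := if_pos rfl
theorem dl_ne {ι : Type} {i j : ι} (h : i ≠ j) : dl i j = 0 := if_neg h
theorem dl_nonneg {ι : Type} (i j : ι) : 0 ≤ dl i j := by unfold dl; split_ifs <;> norm_num

variable {G S T : Type} [Group G]

theorem dl_mul (h g k : G) : dl g (h⁻¹ * k) = dl (h * g) k := by
  by_cases e : h * g = k
  · rw [← e, inv_mul_cancel_left, dl_self, dl_self]
  · rw [dl_ne e, dl_ne (fun e' => e (by rw [e', mul_inv_cancel_left]))]

theorem dl_mul2 {A : Type} (h g k : G) (a b : A) :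
    dl (g, a) (h⁻¹ * k, b) = dl (h * g, a) (k, b) := by
  by_cases e : (h * g, a) = (k, b)
  · obtain ⟨rfl, rfl⟩ := Prod.mk.inj e
    rw [inv_mul_cancel_left, dl_self, dl_self]
  · rw [dl_ne e, dl_ne (fun e' => e (by
      obtain ⟨rfl, rfl⟩ := Prod.mk.inj e'
      rw [mul_inv_cancel_left]))]

/-- ambient space -/
abbrev Amb (G S T : Type) : Type := (G → ℝ) × (G × S → ℝ × ℝ) × (G × T → ℝ × ℝ × ℝ)

variable (Q : TriPres G S T)

/-- vertices -/
noncomputable def vtx (g : G) : Amb G S T := (dl g, 0, 0)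

/-- edges -/
noncomputable def edg (i : G × S) (r : ℝ) : Amb G S T :=
  (fun k => (1 - r) * dl i.1 k + r * dl (i.1 * Q.x i.2) k,
    fun j => dl i j • ((1 - r) * r, (1 - r) * r ^ 2), 0)

/-- triangles -/
noncomputable def tri (i : G × T) (p : ℝ × ℝ) : Amb G S T :=
  (fun k => (1 - p.1 - p.2) * dl i.1 k + p.1 * dl (i.1 * Q.x (Q.a i.2)) k +
      p.2 * dl (i.1 * Q.x (Q.c i.2)) k,
    fun j => dl (i.1, Q.a i.2) j • ((1 - p.1 - p.2) * p.1, (1 - p.1 - p.2) * p.1 ^ 2) +
      dl (i.1 * Q.x (Q.a i.2), Q.b i.2) j • (p.1 * p.2, p.1 * p.2 ^ 2) +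
      dl (i.1, Q.c i.2) j • ((1 - p.1 - p.2) * p.2, (1 - p.1 - p.2) * p.2 ^ 2),
    fun j => dl i j • ((1 - p.1 - p.2) * p.1 * p.2, (1 - p.1 - p.2) * p.1 * p.2 * p.1,
      (1 - p.1 - p.2) * p.1 * p.2 * p.2))

/-- the cell maps into the ambient space -/
noncomputable def c0 : CellMaps Q (Amb G S T) where
  v := vtx
  e i := ⟨fun r => edg Q i r, by unfold edg; fun_prop⟩
  f i := ⟨fun p => tri Q i p, by unfold tri; fun_prop⟩
  e0 g s := by
    simp only [ContinuousMap.coe_mk, edg, vtx]
    ext <;> simp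
  e1 g s := by
    simp only [ContinuousMap.coe_mk, edg, vtx]
    ext <;> simp
  f01 g t r := by
    simp only [ContinuousMap.coe_mk, edg, tri, d01]
    ext <;> simp
  f12 g t r := by
    simp only [ContinuousMap.coe_mk, edg, tri, d12, mul_assoc g, Q.rel]
    ext <;> simp
  f02 g t r := by
    simp only [ContinuousMap.coe_mk, edg, tri, d02]
    ext <;> simp

/-- translation -/
def act (h : G) (z : Amb G S T) : Amb G S T :=
  (fun k => z.1 (h⁻¹ * k), fun j => z.2.1 (h⁻¹ * j.1, j.2), fun j => z.2.2 (h⁻¹ * j.1, j.2))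

theorem continuous_act (h : G) : Continuous (act (S := S) (T := T) h) := by
  unfold act; fun_prop

theorem act_one (z : Amb G S T) : act 1 z = z := by simp [act]

theorem act_mul (h h' : G) (z : Amb G S T) : act (h * h') z = act h (act h' z) := by
  simp [act, mul_assoc]

theorem act_pt (h g : G) (x : PP S T) : act h (pt (c0 Q) g x) = pt (c0 Q) (h * g) x := by
  rcases x with x | ⟨s, r⟩ | ⟨t, p⟩
  · simp only [pt, c0, act, vtx, dl_mul]
    rfl
  · simp only [pt, c0, act, edg, ContinuousMap.coe_mk, dl_mul, dl_mul2, mul_assoc]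
    rfl
  · simp only [pt, c0, act, tri, ContinuousMap.coe_mk, dl_mul, dl_mul2, mul_assoc]

theorem pt_inj {g g' : G} {x x' : PP S T} (hx : ok x) (hx' : ok x')
    (h : pt (c0 Q) g x = pt (c0 Q) g' x') : g = g' ∧ x = x' := by
  have pe : ∀ {s : S} {r : I}, ok (.inr (.inl ⟨s, r⟩) : PP S T) → 0 < (1 - (r : ℝ)) * r :=
    fun h => mul_pos (sub_pos.2 h.2) h.1
  have pf : ∀ {t : T} {p : Tri}, ok (.inr (.inr ⟨t, p⟩) : PP S T) →
      0 < (1 - p.1.1 - p.1.2) * p.1.1 * p.1.2 :=
    fun h => mul_pos (mul_pos (by have := h.2.2; simp only at this; linarith) h.1) h.2.1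
  rcases x with x | ⟨s, r⟩ | ⟨t, p⟩ <;> rcases x' with x' | ⟨s', r'⟩ | ⟨t', p'⟩
  · refine ⟨?_, rfl⟩
    by_contra hne
    have := congrFun (congrArg Prod.fst h) g'
    simp only [pt, c0, vtx, dl_self, dl_ne hne] at this
    exact zero_ne_one this
  · have := congrArg (fun z : Amb G S T => (z.2.1 (g', s')).1) h
    simp only [pt, c0, vtx, edg, ContinuousMap.coe_mk, dl_self, one_smul, Pi.zero_apply,
      Prod.fst_zero] at this
    exact absurd this (pe hx').ne
  · have := congrArg (fun z : Amb G S T => (z.2.2 (g', t')).1) h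
    simp only [pt, c0, vtx, tri, ContinuousMap.coe_mk, dl_self, one_smul, Pi.zero_apply,
      Prod.fst_zero] at this
    exact absurd this (pf hx').ne
  · have := congrArg (fun z : Amb G S T => (z.2.1 (g, s)).1) h
    simp only [pt, c0, vtx, edg, ContinuousMap.coe_mk, dl_self, one_smul, Pi.zero_apply,
      Prod.fst_zero] at this
    exact absurd this (pe hx).ne'
  · have := congrArg (fun z : Amb G S T => z.2.1 (g, s)) h
    simp only [pt, c0, edg, ContinuousMap.coe_mk, dl_self, one_smul] at this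
    by_cases hne : (g', s') = (g, s)
    · rw [hne, dl_self, one_smul, Prod.mk.injEq] at this
      obtain ⟨rfl, rfl⟩ := Prod.mk.inj hne
      have h1 : (r : ℝ) = r' := by
        apply mul_left_cancel₀ (pe hx).ne'
        calc (1 - (r : ℝ)) * r * r = (1 - (r : ℝ)) * r ^ 2 := by ring
          _ = (1 - (r' : ℝ)) * r' * r' := by rw [this.2]; ring
          _ = _ := by rw [this.1]
      rw [Subtype.ext h1]
      exact ⟨rfl, rfl⟩
    · rw [dl_ne hne, zero_smul] at this
      exact absurd (congrArg Prod.fst this) (pe hx).ne'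
  · have := congrArg (fun z : Amb G S T => (z.2.2 (g', t')).1) h
    simp only [pt, c0, edg, tri, ContinuousMap.coe_mk, dl_self, one_smul, Pi.zero_apply,
      Prod.fst_zero] at this
    exact absurd this (pf hx').ne
  · have := congrArg (fun z : Amb G S T => (z.2.2 (g, t)).1) h
    simp only [pt, c0, vtx, tri, ContinuousMap.coe_mk, dl_self, one_smul, Pi.zero_apply,
      Prod.fst_zero] at this
    exact absurd this (pf hx).ne'
  · have := congrArg (fun z : Amb G S T => (z.2.2 (g, t)).1) h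
    simp only [pt, c0, edg, tri, ContinuousMap.coe_mk, dl_self, one_smul, Pi.zero_apply,
      Prod.fst_zero] at this
    exact absurd this (pf hx).ne'
  · have := congrArg (fun z : Amb G S T => z.2.2 (g, t)) h
    simp only [pt, c0, tri, ContinuousMap.coe_mk, dl_self, one_smul] at this
    by_cases hne : (g', t') = (g, t)
    · rw [hne, dl_self, one_smul, Prod.mk.injEq, Prod.mk.injEq] at this
      obtain ⟨rfl, rfl⟩ := Prod.mk.inj hne
      obtain ⟨a1, a2, a3⟩ := this
      rw [← a1] at a2 a3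
      have h1 := mul_left_cancel₀ (pf hx).ne' a2
      have h2 := mul_left_cancel₀ (pf hx).ne' a3
      rw [show p = p' from Subtype.ext (Prod.ext h1 h2)]
      exact ⟨rfl, rfl⟩
    · rw [dl_ne hne, zero_smul] at this
      exact absurd (congrArg Prod.fst this) (pf hx).ne'

theorem pt_pos (g : G) {x : PP S T} (hx : ok x) : 0 < (pt (c0 Q) g x).1 g := by
  rcases x with x | ⟨s, r⟩ | ⟨t, p⟩
  · simp [pt, c0, vtx, dl_self]
  · simp only [pt, c0, edg, ContinuousMap.coe_mk, dl_self, mul_one]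
    have := mul_nonneg hx.1.le (dl_nonneg (g * Q.x s) g)
    have h2 := hx.2
    simp only at this h2
    linarith
  · simp only [pt, c0, tri, ContinuousMap.coe_mk, dl_self, mul_one]
    have h1 := mul_nonneg hx.1.le (dl_nonneg (g * Q.x (Q.a t)) g)
    have h2 := mul_nonneg hx.2.1.le (dl_nonneg (g * Q.x (Q.c t)) g)
    have h3 := hx.2.2
    simp only at h1 h2 h3
    linarith

theorem pt_supp (g k : G) (x : PP S T) (h : 0 < (pt (c0 Q) g x).1 k) :
    g ∈ insert k (range fun s => k * (Q.x s)⁻¹) := by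
  by_contra hn
  simp only [mem_insert_iff, mem_range, not_or, not_exists] at hn
  have h1 : dl g k = 0 := dl_ne hn.1
  have h2 : ∀ s, dl (g * Q.x s) k = 0 := fun s => dl_ne fun e => hn.2 s (by rw [← e]; simp)
  rcases x with x | ⟨s, r⟩ | ⟨t, p⟩ <;> simp [pt, c0, vtx, edg, tri, h1, h2] at h

/-- the Cayley complex -/
def EE : Type := {z : Amb G S T // ∃ g x, pt (c0 Q) g x = z}

instance : TopologicalSpace (EE Q) :=
  inferInstanceAs (TopologicalSpace {z : Amb G S T // ∃ g x, pt (c0 Q) g x = z})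

instance : T2Space (EE Q) :=
  inferInstanceAs (T2Space {z : Amb G S T // ∃ g x, pt (c0 Q) g x = z})

instance : MulAction G (EE Q) where
  smul h z := ⟨act h z.1, by
    obtain ⟨g, x, e⟩ := z.2
    exact ⟨h * g, x, by rw [← e, act_pt]⟩⟩
  one_smul z := Subtype.ext (act_one z.1)
  mul_smul h h' z := Subtype.ext (act_mul h h' z.1)

instance : ContinuousConstSMul G (EE Q) :=
  ⟨fun h => Continuous.subtype_mk ((continuous_act h).comp continuous_subtype_val) _⟩

/-- the cell maps into the Cayley complex -/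
noncomputable def c1 : CellMaps Q (EE Q) where
  v g := ⟨(c0 Q).v g, g, .inl (), rfl⟩
  e i := ⟨fun r => ⟨(c0 Q).e i r, i.1, .inr (.inl ⟨i.2, r⟩), rfl⟩,
    Continuous.subtype_mk ((c0 Q).e i).continuous _⟩
  f i := ⟨fun p => ⟨(c0 Q).f i p, i.1, .inr (.inr ⟨i.2, p⟩), rfl⟩,
    Continuous.subtype_mk ((c0 Q).f i).continuous _⟩
  e0 g s := Subtype.ext ((c0 Q).e0 g s)
  e1 g s := Subtype.ext ((c0 Q).e1 g s)
  f01 g t r := Subtype.ext ((c0 Q).f01 g t r)
  f12 g t r := Subtype.ext ((c0 Q).f12 g t r)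
  f02 g t r := Subtype.ext ((c0 Q).f02 g t r)

theorem pt_c1 (g : G) (x : PP S T) : (pt (c1 Q) g x).1 = pt (c0 Q) g x := by
  rcases x with x | ⟨s, r⟩ | ⟨t, p⟩ <;> rfl

/-- the properties of the model used below -/
structure Good {E : Type} [TopologicalSpace E] [MulAction G E] (c : CellMaps Q E) : Prop where
  surj : ∀ z, ∃ g x, pt c g x = z
  smul : ∀ (h g : G) x, h • pt c g x = pt c (h * g) x
  inj : ∀ g g' x x', ok x → ok x' → pt c g x = pt c g' x' → g = g' ∧ x = x'
  lf : LocallyFinite (fun g => range (pt c g))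

theorem good_c1 [Finite S] : Good Q (c1 Q) where
  surj z := by
    obtain ⟨g, x, e⟩ := z.2
    exact ⟨g, x, Subtype.ext (by rw [pt_c1, e])⟩
  smul h g x := Subtype.ext (by
    change act h (pt (c1 Q) g x).1 = _
    rw [pt_c1, pt_c1, act_pt])
  inj g g' x x' hx hx' h := pt_inj Q hx hx' (by rw [← pt_c1, ← pt_c1, h])
  lf z := by
    obtain ⟨g, x, e⟩ := z.2
    obtain ⟨k, x', h1, -, h2⟩ := norm Q g x
    have hc : Continuous (fun z : EE Q => z.1.1 k) :=
      (continuous_apply k).comp (continuous_fst.comp continuous_subtype_val)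
    refine ⟨{z | 0 < z.1.1 k}, (isOpen_lt continuous_const hc).mem_nhds ?_, ?_⟩
    · change 0 < z.1.1 k
      rw [← e, h2]
      exact pt_pos Q k h1
    · refine ((finite_range fun s => k * (Q.x s)⁻¹).insert k).subset ?_
      rintro g' ⟨_, ⟨y, rfl⟩, hy⟩
      exact pt_supp Q g' k y (by rw [← pt_c1]; exact hy)

end Crest.Agent.R177.TB
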